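import Crest.Agent.Lib.Row155.Alt.Defs
import Crest.Agent.Lib.Row155.Evolve
/-!
Row 155, second proof, chunk B1: residual kernel and sequential bound.
-/
set_option autoImplicit false
open Finset
open scoped BigOperators

namespace Crest.Agent.Thorp

theorem Agree.refl : ∀ (D : ℕ) (R : Finset (V D)) (c : Coins D), Agree D R c c
  | 0, _, _ => trivial
  | D + 1, R, c => ⟨fun h => Agree.refl D _ _, fun _ _ => rfl⟩

theorem occ_iff {D : ℕ} {R : Finset (V (D + 1))} {c : Coins (D + 1)} {h : Bool} {v : V D} :
    occ D R c h v ↔ (pass D (c.sub h)).symm v ∈ half D R h := by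
  rw [mem_half]; rfl

theorem Agree.pass_eq : ∀ {D : ℕ} {R : Finset (V D)} {c c' : Coins D}, Agree D R c c' →
    ∀ p ∈ R, pass D c p = pass D c' p
  | 0, _, _, _, _, _, _ => rfl
  | D + 1, R, c, c', h, p, hp => by
    rw [pass_succ_apply, pass_succ_apply]
    have h1 : pass D (c.sub (hd p)) (tl p) = pass D (c'.sub (hd p)) (tl p) :=
      Agree.pass_eq (h.1 (hd p)) (tl p) (mem_half.2 (by simpa using hp))
    have h2 : c.top (pass D (c.sub (hd p)) (tl p)) = c'.top (pass D (c.sub (hd p)) (tl p)) := by
      apply h.2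
      have h3 : occ D R c (hd p) (pass D (c.sub (hd p)) (tl p)) := by
        rw [occ_iff, Equiv.symm_apply_apply]
        exact mem_half.2 (by simpa using hp)
      cases hh : hd p with
      | false => left; rw [hh] at h3; exact h3
      | true => right; rw [hh] at h3; exact h3
    rw [← h1, h2]

theorem Agree.symm_mem {D : ℕ} {R : Finset (V D)} {c c' : Coins D} (h : Agree D R c c')
    (v : V D) : (pass D c).symm v ∈ R ↔ (pass D c').symm v ∈ R := by
  constructor
  · intro hv
    have h1 := h.pass_eq _ hv
    rw [Equiv.apply_symm_apply] at h1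
    have h2 : (pass D c').symm v = (pass D c).symm v := by
      rw [Equiv.symm_apply_eq]; exact h1
    rw [h2]; exact hv
  · intro hv
    have h1 := h.pass_eq
    have h2 := h1 _ hv
    rw [Equiv.apply_symm_apply] at h2
    have h3 : (pass D c).symm v = (pass D c').symm v := by
      rw [Equiv.symm_apply_eq]; exact h2.symm
    rw [h3]; exact hv

theorem Agree.occ_eq {D : ℕ} {R : Finset (V (D + 1))} {c c' : Coins (D + 1)}
    (h : Agree (D + 1) R c c') (b : Bool) (v : V D) : occ D R c b v ↔ occ D R c' b v := by
  rw [occ_iff, occ_iff]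
  exact (h.1 b).symm_mem v

theorem Agree.mono : ∀ {D : ℕ} {R R' : Finset (V D)} {c c' : Coins D}, R ⊆ R' →
    Agree D R' c c' → Agree D R c c'
  | 0, _, _, _, _, _, _ => trivial
  | D + 1, R, R', c, c', hR, h => by
    refine ⟨fun b => (h.1 b).mono fun v hv => ?_, fun v hv => h.2 v ?_⟩
    · rw [mem_half] at hv ⊢; exact hR hv
    · rcases hv with hv | hv
      · left; exact hR hv
      · right; exact hR hv

theorem Agree.evolve_eq : ∀ {D : ℕ} {R : Finset (V D)} {c c' : Coins D}, Agree D R c c' →
    ∀ (φ : V D → ℝ) (y : V D), evolve D R c φ y = evolve D R c' φ y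
  | 0, _, _, _, _, _, _ => rfl
  | D + 1, R, c, c', h, φ, y => by
    rw [evolve_succ, evolve_succ]
    have ho : (occ D R c false (tl y) ∨ occ D R c true (tl y)) ↔
        (occ D R c' false (tl y) ∨ occ D R c' true (tl y)) := by
      rw [h.occ_eq false, h.occ_eq true]
    by_cases hc : occ D R c false (tl y) ∨ occ D R c true (tl y)
    · rw [if_pos hc, if_pos (ho.1 hc), h.2 _ hc]
      exact (h.1 _).evolve_eq _ _
    · rw [if_neg hc, if_neg (fun hh => hc (ho.2 hh)), (h.1 false).evolve_eq,
        (h.1 true).evolve_eq]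

/-- Paths of a pass are determined by their endpoints. -/
theorem Agree.of_pass_eq : ∀ {D : ℕ} {R : Finset (V D)} {c c' : Coins D},
    (∀ p ∈ R, pass D c p = pass D c' p) → Agree D R c c'
  | 0, _, _, _, _ => trivial
  | D + 1, R, c, c', h => by
    have h1 : ∀ (b : Bool) (w : V D), w ∈ half D R b →
        pass D (c.sub b) w = pass D (c'.sub b) w ∧
        c.top (pass D (c.sub b) w) = c'.top (pass D (c'.sub b) w) := by
      intro b w hw
      have h2 := h _ (mem_half.1 hw)
      rw [pass_succ_apply, pass_succ_apply] at h2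
      simp only [hd_cons, tl_cons, cons_inj] at h2
      exact ⟨h2.2, by simpa using h2.1⟩
    refine ⟨fun b => Agree.of_pass_eq fun w hw => (h1 b w hw).1, fun v hv => ?_⟩
    have h3 : ∃ b, occ D R c b v := by
      rcases hv with hv | hv
      exacts [⟨_, hv⟩, ⟨_, hv⟩]
    obtain ⟨b, hb⟩ := h3
    rw [occ_iff] at hb
    have h4 := h1 b _ hb
    rw [Equiv.apply_symm_apply] at h4
    have h5 : pass D (c'.sub b) ((pass D (c.sub b)).symm v) = v := h4.1.symm
    rw [h5] at h4
    exact h4.2

theorem evolve_inv (D : ℕ) (R : Finset (V D)) (φ : V D → ℝ) (hφ : ∀ p ∈ R, φ p = 0)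
    (H : Coins D → ℝ) (hH : ∀ c c', Agree D R c c' → H c = H c') (y : V D) :
    𝔼 c, H c * φ ((pass D c).symm y) = 𝔼 c, H c * evolve D R c φ y := by
  classical
  rw [← sub_eq_zero, ← Finset.expect_sub_distrib]
  have h0 : ∀ c : Coins D, H c * φ ((pass D c).symm y) - H c * evolve D R c φ y =
      H c * (φ ((pass D c).symm y) - evolve D R c φ y) := fun c => by ring
  simp only [h0]
  rw [Fintype.expect_eq_sum_div_card]
  set k : Coins D → (V D → V D) := fun c p => if p ∈ R then pass D c p else p with hk
  have h1 : ∑ c : Coins D, H c * (φ ((pass D c).symm y) - evolve D R c φ y) =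
      ∑ ζ : V D → V D, ∑ c ∈ Finset.univ.filter (fun c => k c = ζ),
        H c * (φ ((pass D c).symm y) - evolve D R c φ y) :=
    (Finset.sum_fiberwise _ _ _).symm
  rw [h1, Finset.sum_eq_zero, zero_div]
  intro ζ _
  by_cases hz : ∃ c0, k c0 = ζ
  · obtain ⟨c0, hc0⟩ := hz
    have h2 : ∀ c ∈ Finset.univ.filter (fun c => k c = ζ),
        H c * (φ ((pass D c).symm y) - evolve D R c φ y) =
        H c0 * (φ ((pass D c).symm y) - evolve D R c φ y) := by
      intro c hc
      rw [Finset.mem_filter] at hc
      congr 1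
      apply hH
      apply Agree.of_pass_eq
      intro p hp
      have := congrFun (hc.2.trans hc0.symm) p
      simpa [hk, hp] using this
    rw [Finset.sum_congr rfl h2, ← Finset.mul_sum]
    have h3 := evolve_cond_set D R ζ φ hφ y
    rw [Fintype.expect_eq_sum_div_card, Fintype.expect_eq_sum_div_card,
      div_left_inj' (by positivity)] at h3
    have h4 : Finset.univ.filter (fun c => k c = ζ) =
        Finset.univ.filter (fun c => ∀ p ∈ R, pass D c p = ζ p) := by
      ext c
      simp only [Finset.mem_filter, Finset.mem_univ, true_and]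
      constructor
      · rintro rfl p hp
        simp [hk, hp]
      · intro h
        funext p
        by_cases hp : p ∈ R
        · simp only [hk, hp, if_true]; exact h p hp
        · rw [← hc0]; simp [hk, hp]
    rw [h4, Finset.sum_sub_distrib, Finset.sum_filter, Finset.sum_filter, h3, sub_self, mul_zero]
  · rw [Finset.sum_eq_zero]
    intro c hc
    rw [Finset.mem_filter] at hc
    exact absurd ⟨c, hc.2⟩ hz

/-! ## Several passes -/

theorem expect_snoc' {α : Type*} [Fintype α] (K : ℕ) (F : (Fin (K + 1) → α) → ℝ) :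
    𝔼 a, F a = 𝔼 b : Fin K → α, 𝔼 c : α, F (Fin.snoc b c) := by
  rw [← Finset.expect_product']
  refine (Fintype.expect_equiv ((Equiv.prodComm _ _).trans
    (Fin.snocEquiv (fun _ => α))) _ _ (fun s => ?_)).symm
  rfl

theorem moved_succ (D K : ℕ) (a : Fin (K + 1) → Coins D) (R : Finset (V D)) :
    moved D (K + 1) a R =
      (moved D K (fun i => a i.castSucc) R).map (pass D (a (Fin.last K))).toEmbedding := by
  rw [moved, moved, Finset.map_map]
  rfl

theorem mem_moved {D K : ℕ} {a : Fin K → Coins D} {R : Finset (V D)} {p : V D} :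
    p ∈ moved D K a R ↔ (passes D K a).symm p ∈ R := by
  rw [moved, Finset.mem_map_equiv]

theorem evolves_supp (D K : ℕ) (R : Finset (V D)) (φ : V D → ℝ) (hφ : ∀ p ∈ R, φ p = 0)
    (a : Fin K → Coins D) (p : V D) (hp : p ∈ moved D K a R) : evolves D R K a φ p = 0 := by
  induction K generalizing p with
  | zero =>
    apply hφ
    rw [mem_moved] at hp
    exact hp
  | succ K ih =>
    refine evolve_supp D _ _ _ (fun q hq => ih _ q hq) p ?_
    rw [moved_succ, Finset.mem_map_equiv] at hp
    exact hp

theorem Agrees.refl : ∀ (K D : ℕ) (R : Finset (V D)) (a : Fin K → Coins D), Agrees D R K a a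
  | 0, _, _, _ => trivial
  | K + 1, D, R, a => ⟨Agrees.refl K D R _, Agree.refl _ _ _⟩

theorem Agrees.passes_eq : ∀ {K : ℕ} {D : ℕ} {R : Finset (V D)} {a b : Fin K → Coins D},
    Agrees D R K a b → ∀ p ∈ R, passes D K a p = passes D K b p
  | 0, _, _, _, _, _, _, _ => rfl
  | K + 1, D, R, a, b, h, p, hp => by
    have h1 := Agrees.passes_eq h.1 p hp
    change pass D (a (Fin.last K)) (passes D K (fun i => a i.castSucc) p) =
      pass D (b (Fin.last K)) (passes D K (fun i => b i.castSucc) p)
    rw [← h1]
    apply h.2.pass_eq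
    rw [mem_moved, Equiv.symm_apply_apply]
    exact hp

theorem Agrees.moved_eq {K D : ℕ} {R : Finset (V D)} {a b : Fin K → Coins D}
    (h : Agrees D R K a b) : moved D K a R = moved D K b R := by
  ext p
  constructor
  · intro hp
    rw [moved, Finset.mem_map] at hp ⊢
    obtain ⟨q, hq, rfl⟩ := hp
    exact ⟨q, hq, (h.passes_eq q hq).symm⟩
  · intro hp
    rw [moved, Finset.mem_map] at hp ⊢
    obtain ⟨q, hq, rfl⟩ := hp
    exact ⟨q, hq, h.passes_eq q hq⟩

theorem moved_mono {K D : ℕ} {R R' : Finset (V D)} (hR : R ⊆ R') (a : Fin K → Coins D) :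
    moved D K a R ⊆ moved D K a R' := Finset.map_subset_map.2 hR

theorem Agrees.mono : ∀ {K : ℕ} {D : ℕ} {R R' : Finset (V D)} {a b : Fin K → Coins D},
    R ⊆ R' → Agrees D R' K a b → Agrees D R K a b
  | 0, _, _, _, _, _, _, _ => trivial
  | _ + 1, _, _, _, _, _, hR, h => ⟨h.1.mono hR, h.2.mono (moved_mono hR _)⟩

theorem Agrees.evolves_eq : ∀ {K : ℕ} {D : ℕ} {R : Finset (V D)} {a b : Fin K → Coins D},
    Agrees D R K a b → ∀ (φ : V D → ℝ), evolves D R K a φ = evolves D R K b φ
  | 0, _, _, _, _, _, _ => rfl
  | K + 1, D, R, a, b, h, φ => by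
    funext y
    change evolve D (moved D K (fun i => a i.castSucc) R) (a (Fin.last K))
      (evolves D R K (fun i => a i.castSucc) φ) y =
      evolve D (moved D K (fun i => b i.castSucc) R) (b (Fin.last K))
      (evolves D R K (fun i => b i.castSucc) φ) y
    rw [← h.1.moved_eq, ← h.1.evolves_eq φ]
    exact h.2.evolve_eq _ _

theorem evolves_inv (D K : ℕ) (R : Finset (V D)) (φ : V D → ℝ) (hφ : ∀ p ∈ R, φ p = 0)
    (H : (Fin K → Coins D) → ℝ) (hH : ∀ a b, Agrees D R K a b → H a = H b) (y : V D) :
    𝔼 a, H a * φ ((passes D K a).symm y) = 𝔼 a, H a * evolves D R K a φ y := by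
  induction K generalizing y with
  | zero => rfl
  | succ K ih =>
    rw [expect_snoc', expect_snoc']
    have hs : ∀ (b : Fin K → Coins D) (c : Coins D),
        (fun i : Fin K => (Fin.snoc b c : Fin (K + 1) → Coins D) i.castSucc) = b := by
      intro b c
      funext i
      exact Fin.snoc_castSucc (α := fun _ => Coins D) c b i
    have hl : ∀ (b : Fin K → Coins D) (c : Coins D),
        (Fin.snoc b c : Fin (K + 1) → Coins D) (Fin.last K) = c := by
      intro b c
      exact Fin.snoc_last (α := fun _ => Coins D) c b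
    have h1 : ∀ (b : Fin K → Coins D) (c : Coins D),
        (passes D (K + 1) (Fin.snoc b c : Fin (K + 1) → Coins D)).symm y =
          (passes D K b).symm ((pass D c).symm y) := by
      intro b c
      change (pass D ((Fin.snoc b c : Fin (K + 1) → Coins D) (Fin.last K)) *
        passes D K (fun i : Fin K => (Fin.snoc b c : Fin (K + 1) → Coins D) i.castSucc)).symm y = _
      rw [hs, hl]
      rfl
    have h2 : ∀ (b : Fin K → Coins D) (c : Coins D),
        evolves D R (K + 1) (Fin.snoc b c : Fin (K + 1) → Coins D) φ y =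
          evolve D (moved D K b R) c (evolves D R K b φ) y := by
      intro b c
      change evolve D (moved D K (fun i : Fin K => (Fin.snoc b c : Fin (K + 1) → Coins D) i.castSucc) R)
        ((Fin.snoc b c : Fin (K + 1) → Coins D) (Fin.last K))
        (evolves D R K (fun i : Fin K => (Fin.snoc b c : Fin (K + 1) → Coins D) i.castSucc) φ) y = _
      rw [hs, hl]
    simp only [h1, h2]
    rw [Finset.expect_comm]
    have h3 : ∀ c : Coins D, 𝔼 b : Fin K → Coins D,
        H (Fin.snoc b c) * φ ((passes D K b).symm ((pass D c).symm y)) =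
        𝔼 b : Fin K → Coins D, H (Fin.snoc b c) * evolves D R K b φ ((pass D c).symm y) := by
      intro c
      refine ih (fun b => H (Fin.snoc b c)) (fun b b' hb => hH _ _ ?_) _
      refine ⟨?_, ?_⟩
      · rw [hs, hs]; exact hb
      · rw [hs, hl, hl]; exact Agree.refl _ _ _
    rw [Finset.expect_congr rfl fun c _ => h3 c, Finset.expect_comm]
    refine Finset.expect_congr rfl fun b _ => ?_
    refine evolve_inv D (moved D K b R) (evolves D R K b φ) (fun p hp => evolves_supp D K R φ hφ b p hp)
      (fun c => H (Fin.snoc b c)) (fun c c' hc => hH _ _ ?_) y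
    refine ⟨?_, ?_⟩
    · rw [hs, hs]
      exact Agrees.refl _ _ _ _
    · rw [hs, hl, hl]; exact hc

theorem front_mono {D k : ℕ} (x : Fin k ↪ V D) {i j : Fin k} (h : i ≤ j) :
    front x i ⊆ front x j := by
  refine Finset.map_subset_map.2 fun l hl => ?_
  rw [Finset.mem_filter] at hl ⊢
  exact ⟨hl.1, lt_of_lt_of_le hl.2 h⟩

theorem mem_front {D k : ℕ} {x : Fin k ↪ V D} {i j : Fin k} (h : i < j) : x i ∈ front x j :=
  Finset.mem_map_of_mem _ (Finset.mem_filter.2 ⟨Finset.mem_univ _, h⟩)

theorem not_mem_front {D k : ℕ} (x : Fin k ↪ V D) (j : Fin k) : x j ∉ front x j := by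
  intro h
  rw [front, Finset.mem_map] at h
  obtain ⟨i, hi, hij⟩ := h
  rw [Finset.mem_filter] at hi
  rw [x.injective hij] at hi
  exact lt_irrefl _ hi.2

theorem seq_bound (D K k : ℕ) (x : Fin k ↪ V D) (θ : Fin k → ℝ) (hθ : ∀ j, 0 ≤ θ j)
    (y : Fin k → V D) :
    (𝔼 a : Fin K → Coins D, open Classical in
      if (∀ j p, evolves D (front x j) K a (Pi.single (x j) 1) p ≤ θ j) ∧
        (∀ j, passes D K a (x j) = y j) then (1 : ℝ) else 0) ≤ ∏ j, θ j := by
  classical
  -- events
  let G : Fin k → (Fin K → Coins D) → Prop := fun j a =>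
    ∀ p, evolves D (front x j) K a (Pi.single (x j) 1) p ≤ θ j
  have hGinv : ∀ (i j : Fin k), i ≤ j → ∀ a b, Agrees D (front x j) K a b → (G i a ↔ G i b) := by
    intro i j hij a b hab
    have := (hab.mono (front_mono x hij)).evolves_eq (Pi.single (x i) 1)
    simp only [G, this]
  have key : ∀ m : ℕ, m ≤ k →
      (𝔼 a : Fin K → Coins D,
        if (∀ j : Fin k, (j : ℕ) < m → G j a ∧ passes D K a (x j) = y j) then (1 : ℝ) else 0) ≤
        ∏ j ∈ Finset.univ.filter (fun j : Fin k => (j : ℕ) < m), θ j := by
    intro m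
    induction m with
    | zero =>
      intro _
      simp
    | succ m ih =>
      intro hm
      have hmk : m < k := hm
      let jm : Fin k := ⟨m, hmk⟩
      have hfil : Finset.univ.filter (fun j : Fin k => (j : ℕ) < m + 1) =
          insert jm (Finset.univ.filter (fun j : Fin k => (j : ℕ) < m)) := by
        ext j
        simp only [Finset.mem_filter, Finset.mem_univ, true_and, Finset.mem_insert, jm, Fin.ext_iff]
        omega
      rw [hfil, Finset.prod_insert (by simp [jm])]
      let H : (Fin K → Coins D) → ℝ := fun a =>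
        if (∀ j : Fin k, (j : ℕ) < m → G j a ∧ passes D K a (x j) = y j) ∧ G jm a then 1 else 0
      have hH0 : ∀ a, 0 ≤ H a := fun a => by simp only [H]; split_ifs <;> norm_num
      have hHinv : ∀ a b, Agrees D (front x jm) K a b → H a = H b := by
        intro a b hab
        have h1 : (∀ j : Fin k, (j : ℕ) < m → G j a ∧ passes D K a (x j) = y j) ↔
            (∀ j : Fin k, (j : ℕ) < m → G j b ∧ passes D K b (x j) = y j) := by
          refine forall₂_congr fun j hj => ?_
          rw [hGinv j jm (Fin.le_def.2 hj.le) a b hab, hab.passes_eq (x j) (mem_front (Fin.lt_def.2 hj))]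
        simp only [H, h1, hGinv jm jm le_rfl a b hab]
      have hstep : (𝔼 a : Fin K → Coins D,
          if (∀ j : Fin k, (j : ℕ) < m + 1 → G j a ∧ passes D K a (x j) = y j) then (1 : ℝ) else 0) =
          𝔼 a : Fin K → Coins D, H a * (Pi.single (x jm) (1 : ℝ) : V D → ℝ)
            ((passes D K a).symm (y jm)) := by
        refine Finset.expect_congr rfl fun a _ => ?_
        have h2 : (∀ j : Fin k, (j : ℕ) < m + 1 → G j a ∧ passes D K a (x j) = y j) ↔
            ((∀ j : Fin k, (j : ℕ) < m → G j a ∧ passes D K a (x j) = y j) ∧ G jm a) ∧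
              (passes D K a).symm (y jm) = x jm := by
          constructor
          · intro h
            refine ⟨⟨fun j hj => h j (by omega), (h jm (Nat.lt_succ_self m)).1⟩, ?_⟩
            rw [Equiv.symm_apply_eq]
            exact (h jm (Nat.lt_succ_self m)).2.symm
          · rintro ⟨⟨h1, h2⟩, h3⟩ j hj
            rcases Nat.lt_succ_iff_lt_or_eq.1 hj with hj | hj
            · exact h1 j hj
            · have : j = jm := Fin.ext hj
              subst this
              refine ⟨h2, ?_⟩
              rw [Equiv.symm_apply_eq] at h3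
              exact h3.symm
        simp only [H, Pi.single_apply]
        by_cases ha : (∀ j : Fin k, (j : ℕ) < m → G j a ∧ passes D K a (x j) = y j) ∧ G jm a
        · by_cases hb : (passes D K a).symm (y jm) = x jm
          · rw [if_pos (h2.2 ⟨ha, hb⟩), if_pos ha, if_pos hb, mul_one]
          · rw [if_neg (fun h => hb (h2.1 h).2), if_neg hb, mul_zero]
        · rw [if_neg (fun h => ha (h2.1 h).1), if_neg ha, zero_mul]
      rw [hstep, evolves_inv D K (front x jm) (Pi.single (x jm) 1) (fun p hp => by
        rw [Pi.single_apply, if_neg]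
        rintro rfl
        exact not_mem_front x jm hp) H hHinv]
      calc 𝔼 a : Fin K → Coins D, H a * evolves D (front x jm) K a (Pi.single (x jm) 1) (y jm)
          ≤ 𝔼 a : Fin K → Coins D, H a * θ jm := by
            refine Finset.expect_le_expect fun a _ => ?_
            by_cases ha : (∀ j : Fin k, (j : ℕ) < m → G j a ∧ passes D K a (x j) = y j) ∧ G jm a
            · exact mul_le_mul_of_nonneg_left (ha.2 (y jm)) (hH0 a)
            · simp only [H, if_neg ha, zero_mul]; exact le_rfl
        _ = θ jm * 𝔼 a : Fin K → Coins D, H a := by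
            rw [← Finset.expect_mul, mul_comm]
        _ ≤ θ jm * ∏ j ∈ Finset.univ.filter (fun j : Fin k => (j : ℕ) < m), θ j := by
            refine mul_le_mul_of_nonneg_left (le_trans ?_ (ih hmk.le)) (hθ jm)
            refine Finset.expect_le_expect fun a _ => ?_
            simp only [H]
            split_ifs with h1 h2
            · exact le_rfl
            · exact absurd h1.1 h2
            · exact zero_le_one
            · exact le_rfl
  have h := key k le_rfl
  have hf : Finset.univ.filter (fun j : Fin k => (j : ℕ) < k) = Finset.univ :=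
    Finset.filter_true_of_mem fun j _ => j.isLt
  rw [hf] at h
  refine le_trans (le_of_eq ?_) h
  refine Finset.expect_congr rfl fun a _ => ?_
  congr 1
  simp only [eq_iff_iff, G]
  constructor
  · rintro ⟨h1, h2⟩ j _
    exact ⟨h1 j, h2 j⟩
  · intro h1
    exact ⟨fun j => (h1 j j.isLt).1, fun j => (h1 j j.isLt).2⟩

end Crest.Agent.Thorp
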