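import Crest.Agent.Lib.Row155.Alt.Defs
import Crest.Agent.Lib.Row155.Evolve
import Crest.Agent.Lib.Row155.EvolveEnergy
/-!
Row 155 (Thorp shuffle), second proof, chunk B2: energy over `2 T` passes.
-/
set_option autoImplicit false
open Finset
open scoped BigOperators

namespace Crest.Agent.Thorp
namespace B2

theorem expect_snoc {α : Type*} [Fintype α] (K : ℕ) (f : (Fin (K + 1) → α) → ℝ) :
    𝔼 a, f a = 𝔼 a : Fin K → α, 𝔼 c : α, f (Fin.snoc (α := fun _ => α) a c) := by
  have h1 : 𝔼 a : Fin (K + 1) → α, f a =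
      𝔼 p : α × (Fin K → α), f (Fin.snoc (α := fun _ => α) p.2 p.1) :=
    (Fintype.expect_equiv (Fin.snocEquiv (fun _ => α)) _ _ (fun _ => rfl)).symm
  rw [h1, ← Finset.univ_product_univ, Finset.expect_product, Finset.expect_comm]

theorem moved_succ (D K : ℕ) (a : Fin (K + 1) → Coins D) (R : Finset (V D)) :
    moved D (K + 1) a R =
      (moved D K (fun i => a i.castSucc) R).map (pass D (a (Fin.last K))).toEmbedding := by
  ext y
  simp only [moved, Finset.mem_map, Equiv.coe_toEmbedding, passes]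
  constructor
  · rintro ⟨x, hx, rfl⟩
    exact ⟨_, ⟨x, hx, rfl⟩, rfl⟩
  · rintro ⟨_, ⟨x, hx, rfl⟩, rfl⟩
    exact ⟨x, hx, rfl⟩

theorem init_snoc {D K : ℕ} (a : Fin K → Coins D) (c : Coins D) :
    (fun i : Fin K => (Fin.snoc (α := fun _ => Coins D) a c : Fin (K + 1) → Coins D) i.castSucc) =
      a := by
  funext i
  exact Fin.snoc_castSucc (α := fun _ => Coins D) _ _ i

theorem last_snoc {D K : ℕ} (a : Fin K → Coins D) (c : Coins D) :
    (Fin.snoc (α := fun _ => Coins D) a c : Fin (K + 1) → Coins D) (Fin.last K) = c :=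
  Fin.snoc_last (α := fun _ => Coins D) _ _

theorem moved_snoc {D K : ℕ} (a : Fin K → Coins D) (c : Coins D) (R : Finset (V D)) :
    moved D (K + 1) (Fin.snoc (α := fun _ => Coins D) a c) R =
      (moved D K a R).map (pass D c).toEmbedding := by
  rw [moved_succ, init_snoc, last_snoc]

theorem evolves_snoc {D K : ℕ} (a : Fin K → Coins D) (c : Coins D) (R : Finset (V D))
    (φ : V D → ℝ) :
    evolves D R (K + 1) (Fin.snoc (α := fun _ => Coins D) a c) φ =
      evolve D (moved D K a R) c (evolves D R K a φ) := by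
  have h : evolves D R (K + 1) (Fin.snoc (α := fun _ => Coins D) a c) φ =
      evolve D (moved D K (fun i => (Fin.snoc (α := fun _ => Coins D) a c :
        Fin (K + 1) → Coins D) i.castSucc) R) ((Fin.snoc (α := fun _ => Coins D) a c :
        Fin (K + 1) → Coins D) (Fin.last K))
      (evolves D R K (fun i => (Fin.snoc (α := fun _ => Coins D) a c :
        Fin (K + 1) → Coins D) i.castSucc) φ) := rfl
  rw [h, init_snoc, last_snoc]

theorem RegAll_snoc {D K : ℕ} (s0 : ℕ) (ρ : ℝ) (a : Fin K → Coins D) (c : Coins D)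
    (R : Finset (V D)) :
    RegAll s0 ρ D R (K + 1) (Fin.snoc (α := fun _ => Coins D) a c) ↔
      RegAll s0 ρ D R K a ∧ Reg s0 ρ D (moved D K a R) := by
  have h : RegAll s0 ρ D R (K + 1) (Fin.snoc (α := fun _ => Coins D) a c) ↔
      RegAll s0 ρ D R K (fun i => (Fin.snoc (α := fun _ => Coins D) a c :
        Fin (K + 1) → Coins D) i.castSucc) ∧
      Reg s0 ρ D (moved D K (fun i => (Fin.snoc (α := fun _ => Coins D) a c :
        Fin (K + 1) → Coins D) i.castSucc) R) := Iff.rfl
  rw [h, init_snoc]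

theorem mem_map_pass {D : ℕ} (c : Coins D) (R : Finset (V D)) (y : V D) :
    y ∈ R.map (pass D c).toEmbedding ↔ (pass D c).symm y ∈ R := by
  rw [Finset.mem_map_equiv]

theorem evolves_supp (D K : ℕ) (R : Finset (V D)) (a : Fin K → Coins D) (φ : V D → ℝ)
    (hφ : ∀ p ∈ R, φ p = 0) : ∀ p ∈ moved D K a R, evolves D R K a φ p = 0 := by
  induction K with
  | zero =>
    intro p hp
    simp only [moved, Finset.mem_map, passes] at hp
    obtain ⟨x, hx, rfl⟩ := hp
    exact hφ x hx
  | succ K ih =>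
    intro p hp
    rw [moved_succ, mem_map_pass] at hp
    exact evolve_supp D _ _ _ (ih _) p hp

theorem evolves_sum (D K : ℕ) (R : Finset (V D)) (a : Fin K → Coins D) (φ : V D → ℝ)
    (hφ : ∀ p ∈ R, φ p = 0) : ∑ y, evolves D R K a φ y = ∑ y, φ y := by
  induction K with
  | zero => rfl
  | succ K ih =>
    rw [← ih (fun i => a i.castSucc)]
    exact evolve_sum D _ _ _ (evolves_supp D K R _ φ hφ)

theorem BS_zero : ∀ (D : ℕ) (φ : V D → ℝ), BS D 0 φ = ∑ y, φ y ^ 2 := by
  intro D
  induction D with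
  | zero =>
    intro φ
    have : Unique (V 0) := inferInstanceAs (Unique Unit)
    simp only [BS]
    rw [Fintype.sum_unique, Fintype.sum_unique]
  | succ D ih =>
    intro φ
    simp only [BS]
    rw [if_neg (by omega), sum_V_succ]
    exact Finset.sum_congr rfl fun h _ => ih _

/-- contraction factor -/
theorem factor_le (s0 m : ℕ) :
    (31 / 32 : ℝ) ^ m + ∑ k ∈ Finset.Ico s0 (s0 + m), (31 / 32 : ℝ) ^ (s0 + m - 1 - k) / 2 ^ (k + 1) ≤
      (31 / 15) * (31 / 32) ^ m := by
  have h : ∀ m : ℕ, ∑ k ∈ Finset.Ico s0 (s0 + m), (31 / 32 : ℝ) ^ (s0 + m - 1 - k) / 2 ^ (k + 1) =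
      (16 / 15) * (1 / 2) ^ s0 * ((31 / 32) ^ m - (1 / 2) ^ m) := by
    intro m
    induction m with
    | zero => simp
    | succ m ih =>
      rw [← add_assoc, Finset.sum_Ico_succ_top (by omega)]
      have h1 : ∑ k ∈ Finset.Ico s0 (s0 + m), (31 / 32 : ℝ) ^ (s0 + m + 1 - 1 - k) / 2 ^ (k + 1) =
          (31 / 32) * ∑ k ∈ Finset.Ico s0 (s0 + m),
            (31 / 32 : ℝ) ^ (s0 + m - 1 - k) / 2 ^ (k + 1) := by
        rw [Finset.mul_sum]
        refine Finset.sum_congr rfl (fun k hk => ?_)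
        have := Finset.mem_Ico.1 hk
        have e : s0 + m + 1 - 1 - k = (s0 + m - 1 - k) + 1 := by omega
        rw [e, pow_succ]
        ring
      rw [h1, ih]
      have e2 : s0 + m + 1 - 1 - (s0 + m) = 0 := by omega
      rw [e2]
      have e3 : (1 : ℝ) / 2 ^ (s0 + m + 1) = (1 / 2) ^ s0 * (1 / 2) ^ m * (1 / 2) := by
        rw [← pow_add, ← pow_succ, one_div_pow]
      rw [pow_zero, e3]
      ring
  rw [h m]
  have h1 : (1 / 2 : ℝ) ^ s0 ≤ 1 := pow_le_one₀ (by norm_num) (by norm_num)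
  have h2 : (0 : ℝ) ≤ (31 / 32) ^ m - (1 / 2) ^ m :=
    sub_nonneg.2 (pow_le_pow_left₀ (by norm_num) (by norm_num) m)
  have h3 : (0 : ℝ) ≤ (1 / 2) ^ m := by positivity
  have h4 : (1 / 2 : ℝ) ^ s0 * ((31 / 32) ^ m - (1 / 2) ^ m) ≤ 1 * ((31 / 32) ^ m - (1 / 2) ^ m) :=
    mul_le_mul_of_nonneg_right h1 h2
  nlinarith

open Classical in
theorem two_pass (s0 D : ℕ) (hD : s0 ≤ D) (R : Finset (V D)) (φ : V D → ℝ)
    (hφ : ∀ p ∈ R, φ p = 0) (h0 : ∑ y, φ y = 0) :
    (𝔼 c₁ : Coins D, 𝔼 c₂ : Coins D,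
      if Reg s0 (15 / 16) D (R.map (pass D c₁).toEmbedding) then
        ∑ y, evolve D (R.map (pass D c₁).toEmbedding) c₂ (evolve D R c₁ φ) y ^ 2 else 0) ≤
      ((31 / 15) * (31 / 32 : ℝ) ^ (D - s0)) * ∑ y, φ y ^ 2 := by
  set Q := ∑ y, φ y ^ 2 with hQ
  have hQ0 : 0 ≤ Q := Finset.sum_nonneg fun y _ => sq_nonneg _
  have hvan : ∀ c₁ : Coins D, ∀ p ∈ R.map (pass D c₁).toEmbedding, evolve D R c₁ φ p = 0 := by
    intro c₁ p hp
    rw [mem_map_pass] at hp
    exact evolve_supp D R c₁ φ hφ _ hp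
  have hstep : ∀ c₁ : Coins D, (𝔼 c₂ : Coins D,
      if Reg s0 (15 / 16) D (R.map (pass D c₁).toEmbedding) then
        ∑ y, evolve D (R.map (pass D c₁).toEmbedding) c₂ (evolve D R c₁ φ) y ^ 2 else 0) ≤
      (31 / 32) ^ (D - s0) * ∑ y, evolve D R c₁ φ y ^ 2 +
        (∑ k ∈ Finset.Ico s0 D, (31 / 32 : ℝ) ^ (D - 1 - k) / 2 ^ (k + 1) *
        BS D k (evolve D R c₁ φ)) := by
    intro c₁
    have hB : 0 ≤ ∑ k ∈ Finset.Ico s0 D, (31 / 32 : ℝ) ^ (D - 1 - k) / 2 ^ (k + 1) *
        BS D k (evolve D R c₁ φ) :=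
      Finset.sum_nonneg (fun k _ => mul_nonneg (by positivity) (T5.BS_nonneg _ _ _))
    have hE : 0 ≤ (31 / 32 : ℝ) ^ (D - s0) * ∑ y, evolve D R c₁ φ y ^ 2 :=
      mul_nonneg (by positivity) (Finset.sum_nonneg fun y _ => sq_nonneg _)
    by_cases hr : Reg s0 (15 / 16) D (R.map (pass D c₁).toEmbedding)
    · simp only [if_pos hr]
      have := evolve_energy s0 D hD (15 / 16) (by norm_num) (by norm_num) _ hr
        (evolve D R c₁ φ) (hvan c₁)
      rw [evolve_sum D R c₁ φ hφ, h0] at this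
      have e : ((1 : ℝ) + 15 / 16) / 2 = 31 / 32 := by norm_num
      have hz : (0 : ℝ) ^ 2 / 2 ^ D = 0 := by norm_num
      rw [e, hz, zero_add] at this
      exact this
    · simp only [if_neg hr]
      rw [Finset.expect_const Finset.univ_nonempty]
      linarith
  have hBS : ∀ k, k ≤ D → 𝔼 c₁ : Coins D, BS D k (evolve D R c₁ φ) ≤ Q := by
    intro k hk
    have := evolve_BS D k hk R φ hφ
    rw [h0] at this
    simpa using this
  have hB0 : 𝔼 c₁ : Coins D, ∑ y, evolve D R c₁ φ y ^ 2 ≤ Q := by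
    have := hBS 0 (Nat.zero_le D)
    simpa only [BS_zero] using this
  obtain ⟨m, rfl⟩ : ∃ m, D = s0 + m := ⟨D - s0, by omega⟩
  have em : s0 + m - s0 = m := by omega
  rw [em] at hstep ⊢
  calc _ ≤ 𝔼 c₁ : Coins (s0 + m), ((31 / 32) ^ m * ∑ y, evolve (s0 + m) R c₁ φ y ^ 2 +
        (∑ k ∈ Finset.Ico s0 (s0 + m), (31 / 32 : ℝ) ^ (s0 + m - 1 - k) / 2 ^ (k + 1) *
        BS (s0 + m) k (evolve (s0 + m) R c₁ φ))) :=
        Finset.expect_le_expect (fun c₁ _ => hstep c₁)
    _ = (31 / 32) ^ m * 𝔼 c₁ : Coins (s0 + m), ∑ y, evolve (s0 + m) R c₁ φ y ^ 2 +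
        (∑ k ∈ Finset.Ico s0 (s0 + m), (31 / 32 : ℝ) ^ (s0 + m - 1 - k) / 2 ^ (k + 1) *
          𝔼 c₁ : Coins (s0 + m), BS (s0 + m) k (evolve (s0 + m) R c₁ φ)) := by
        rw [Finset.expect_add_distrib, Finset.mul_expect, Finset.expect_sum_comm]
        congr 1
        refine Finset.sum_congr rfl (fun k _ => ?_)
        rw [Finset.mul_expect]
    _ ≤ (31 / 32) ^ m * Q +
        (∑ k ∈ Finset.Ico s0 (s0 + m), (31 / 32 : ℝ) ^ (s0 + m - 1 - k) / 2 ^ (k + 1) * Q) := by
        gcongr with k hk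
        exact hBS k (Finset.mem_Ico.1 hk).2.le
    _ = ((31 / 32) ^ m +
        (∑ k ∈ Finset.Ico s0 (s0 + m), (31 / 32 : ℝ) ^ (s0 + m - 1 - k) / 2 ^ (k + 1))) * Q := by
        rw [add_mul, Finset.sum_mul]
    _ ≤ _ := mul_le_mul_of_nonneg_right (factor_le s0 m) hQ0

end B2

/-- the normalised indicator of the unrevealed positions evolves into itself: one pass -/
theorem evolve_const : ∀ (D : ℕ) (R : Finset (V D)) (c : Coins D) (s : ℝ) (y : V D),
    evolve D R c (fun p => if p ∈ R then 0 else s) y = if (pass D c).symm y ∈ R then 0 else s := by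
  intro D
  induction D with
  | zero => intro R c s y; rfl
  | succ D ih =>
    intro R c s y
    have key : ∀ h : Bool, evolve D (half D R h) (c.sub h) (fun v => if cons h v ∈ R then 0 else s)
        (tl y) = if cons h ((pass D (c.sub h)).symm (tl y)) ∈ R then 0 else s := by
      intro h
      have := ih (half D R h) (c.sub h) s (tl y)
      simpa only [mem_half] using this
    rw [pass_succ_symm_apply]
    simp only [evolve]
    rw [key, key, key]
    by_cases hocc : occ D R c false (tl y) ∨ occ D R c true (tl y)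
    · rw [if_pos hocc]
    · rw [if_neg hocc]
      rw [not_or] at hocc
      have h1 : ∀ h : Bool, cons h ((pass D (c.sub h)).symm (tl y)) ∉ R := by
        intro h
        cases h
        · exact hocc.1
        · exact hocc.2
      rw [if_neg (h1 _), if_neg (h1 _), if_neg (h1 _)]
      ring

theorem evolves_const (D K : ℕ) (R : Finset (V D)) (a : Fin K → Coins D) (s : ℝ) (y : V D) :
    evolves D R K a (fun p => if p ∈ R then 0 else s) y = if y ∈ moved D K a R then 0 else s := by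
  induction K generalizing y with
  | zero =>
    have : moved D 0 a R = R := by
      ext z
      simp only [moved, Finset.mem_map_equiv]
      exact Iff.rfl
    rw [this]; rfl
  | succ K ih =>
    have h1 : evolves D R K (fun i => a i.castSucc) (fun p => if p ∈ R then 0 else s) =
        fun p => if p ∈ moved D K (fun i => a i.castSucc) R then 0 else s := by
      funext p; exact ih _ p
    rw [B2.moved_succ]
    simp only [evolves]
    rw [h1, evolve_const]
    simp only [B2.mem_map_pass]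

theorem evolves_energy (s0 D T : ℕ) (hD : s0 ≤ D) (R : Finset (V D)) (φ : V D → ℝ)
    (hφ : ∀ p ∈ R, φ p = 0) (hsum : ∑ p, φ p = 0) :
    (𝔼 a : Fin (2 * T) → Coins D, open Classical in
      if RegAll s0 (15 / 16) D R (2 * T) a then ∑ y, evolves D R (2 * T) a φ y ^ 2 else 0) ≤
      ((31 / 15) * (31 / 32 : ℝ) ^ (D - s0)) ^ T * ∑ y, φ y ^ 2 := by
  classical
  set C : ℝ := (31 / 15) * (31 / 32 : ℝ) ^ (D - s0) with hC
  have hC0 : 0 ≤ C := by positivity
  induction T with
  | zero =>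
    rw [pow_zero, one_mul]
    refine le_of_eq ?_
    have h1 : ∀ a : Fin (2 * 0) → Coins D, (if RegAll s0 (15 / 16) D R (2 * 0) a then
        ∑ y, evolves D R (2 * 0) a φ y ^ 2 else 0) = ∑ y, φ y ^ 2 := by
      intro a
      exact if_pos trivial
    simp only [h1]
    exact Finset.expect_const Finset.univ_nonempty _
  | succ T ih =>
    have e2 : 2 * (T + 1) = 2 * T + 1 + 1 := by ring
    rw [e2, B2.expect_snoc, B2.expect_snoc]
    have hstep : ∀ a : Fin (2 * T) → Coins D,
        (𝔼 c₁ : Coins D, 𝔼 c₂ : Coins D,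
          if RegAll s0 (15 / 16) D R (2 * T + 1 + 1) (Fin.snoc (α := fun _ => Coins D)
            (Fin.snoc (α := fun _ => Coins D) a c₁) c₂) then
          ∑ y, evolves D R (2 * T + 1 + 1) (Fin.snoc (α := fun _ => Coins D)
            (Fin.snoc (α := fun _ => Coins D) a c₁) c₂) φ y ^ 2 else 0) ≤
          C * (if RegAll s0 (15 / 16) D R (2 * T) a then
            ∑ y, evolves D R (2 * T) a φ y ^ 2 else 0) := by
      intro a
      have hR : ∀ c₁ c₂ : Coins D, RegAll s0 (15 / 16) D R (2 * T + 1 + 1)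
          (Fin.snoc (α := fun _ => Coins D) (Fin.snoc (α := fun _ => Coins D) a c₁) c₂) ↔
          (RegAll s0 (15 / 16) D R (2 * T) a ∧ Reg s0 (15 / 16) D (moved D (2 * T) a R)) ∧
            Reg s0 (15 / 16) D ((moved D (2 * T) a R).map (pass D c₁).toEmbedding) := by
        intro c₁ c₂
        rw [B2.RegAll_snoc, B2.RegAll_snoc, B2.moved_snoc]
      have hE : ∀ c₁ c₂ : Coins D, evolves D R (2 * T + 1 + 1)
          (Fin.snoc (α := fun _ => Coins D) (Fin.snoc (α := fun _ => Coins D) a c₁) c₂) φ =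
          evolve D ((moved D (2 * T) a R).map (pass D c₁).toEmbedding) c₂
            (evolve D (moved D (2 * T) a R) c₁ (evolves D R (2 * T) a φ)) := by
        intro c₁ c₂
        rw [B2.evolves_snoc, B2.evolves_snoc, B2.moved_snoc]
      by_cases ha : RegAll s0 (15 / 16) D R (2 * T) a
      · rw [if_pos ha]
        refine le_trans ?_ (B2.two_pass s0 D hD (moved D (2 * T) a R) (evolves D R (2 * T) a φ)
          (B2.evolves_supp D (2 * T) R a φ hφ)
          (by rw [B2.evolves_sum D (2 * T) R a φ hφ, hsum]))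
        refine Finset.expect_le_expect fun c₁ _ => Finset.expect_le_expect fun c₂ _ => ?_
        rw [hE c₁ c₂]
        by_cases hr : Reg s0 (15 / 16) D ((moved D (2 * T) a R).map (pass D c₁).toEmbedding)
        · rw [if_pos hr]
          split_ifs
          · exact le_rfl
          · exact Finset.sum_nonneg fun y _ => sq_nonneg _
        · rw [if_neg hr, if_neg (fun h => hr ((hR c₁ c₂).mp h).2)]
      · rw [if_neg ha, mul_zero]
        refine le_of_eq ?_
        have h1 : ∀ c₁ c₂ : Coins D, (if RegAll s0 (15 / 16) D R (2 * T + 1 + 1)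
            (Fin.snoc (α := fun _ => Coins D) (Fin.snoc (α := fun _ => Coins D) a c₁) c₂) then
          ∑ y, evolves D R (2 * T + 1 + 1) (Fin.snoc (α := fun _ => Coins D)
            (Fin.snoc (α := fun _ => Coins D) a c₁) c₂) φ y ^ 2 else 0) = 0 := by
          intro c₁ c₂
          exact if_neg (fun h => ha ((hR c₁ c₂).mp h).1.1)
        simp only [h1]
        simp
    calc _ ≤ 𝔼 a : Fin (2 * T) → Coins D, C * (if RegAll s0 (15 / 16) D R (2 * T) a then
            ∑ y, evolves D R (2 * T) a φ y ^ 2 else 0) :=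
          Finset.expect_le_expect fun a _ => hstep a
      _ = C * 𝔼 a : Fin (2 * T) → Coins D, (if RegAll s0 (15 / 16) D R (2 * T) a then
            ∑ y, evolves D R (2 * T) a φ y ^ 2 else 0) := by rw [Finset.mul_expect]
      _ ≤ C * (C ^ T * ∑ y, φ y ^ 2) := mul_le_mul_of_nonneg_left ih hC0
      _ = C ^ (T + 1) * ∑ y, φ y ^ 2 := by ring

end Crest.Agent.Thorp
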