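import Crest.Agent.Lib.Row155.RegProb
/-!
Row 155 (Thorp shuffle), second proof, chunk B3: a uniformly random tuple of at most `7/8` of the
positions is regular (adapted from `RegProb`).
-/
set_option autoImplicit false
set_option linter.unusedSectionVars false
open Finset
open scoped BigOperators

namespace Crest.Agent.Thorp
namespace RegProb78
open RegProb

variable {W : Type*} [Fintype W] [DecidableEq W]

theorem cnt_insert_le (m : ℕ) (hm : 8 * m ≤ 7 * Fintype.card W) (T : Finset W) {a : W} (ha : a ∉ T) :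
    8 * cnt m (insert a T) ≤ 7 * cnt m T := by
  have h1 := sum_cnt_insert m T
  have h2 : ∑ b ∈ Tᶜ, cnt m (insert b T) = (Tᶜ).card * cnt m (insert a T) := by
    rw [Finset.sum_congr rfl (fun b hb => cnt_insert_eq m T (Finset.mem_compl.1 hb) ha),
      Finset.sum_const, nsmul_eq_mul]
  rw [h2] at h1
  have h3 : 0 < (Tᶜ).card := Finset.card_pos.2 ⟨a, Finset.mem_compl.2 ha⟩
  have h4 : (Tᶜ).card + T.card = Fintype.card W := by
    rw [add_comm]; exact Finset.card_add_card_compl T
  have h5 : (0 : ℝ) < (Tᶜ).card := by exact_mod_cast h3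
  have h6 : ((Tᶜ).card : ℝ) + T.card = Fintype.card W := by exact_mod_cast h4
  have h7 : (8 : ℝ) * m ≤ 7 * Fintype.card W := by exact_mod_cast hm
  have h8 := cnt_nonneg m T
  have h9 : (0 : ℝ) ≤ T.card := by positivity
  have h10 : (Tᶜ).card * (8 * cnt m (insert a T)) ≤ (Tᶜ).card * (7 * cnt m T) := by
    have : (Tᶜ).card * (8 * cnt m (insert a T)) = 8 * ((m : ℝ) - T.card) * cnt m T := by
      rw [mul_assoc, ← h1]; ring
    rw [this]
    have h11 : 8 * ((m : ℝ) - T.card) ≤ 7 * (Tᶜ).card := by linarith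
    have h12 := mul_le_mul_of_nonneg_right h11 h8
    linarith
  exact le_of_mul_le_mul_left h10 h5

theorem cnt_le (m : ℕ) (hm : 8 * m ≤ 7 * Fintype.card W) (T : Finset W) :
    cnt m T ≤ (7 / 8 : ℝ) ^ T.card * Fintype.card (Fin m ↪ W) := by
  induction T using Finset.induction_on with
  | empty =>
    simp [cnt]
  | insert a T ha ih =>
    have h1 := cnt_insert_le m hm T ha
    rw [Finset.card_insert_of_notMem ha, pow_succ]
    linarith

/-- exponential moment of the hypergeometric law -/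
theorem sum_two_pow_le (m : ℕ) (hm : 8 * m ≤ 7 * Fintype.card W) (C : Finset W) :
    ∑ x : Fin m ↪ W, (2 : ℝ) ^ (C ∩ rg x).card ≤
      (15 / 8 : ℝ) ^ C.card * Fintype.card (Fin m ↪ W) := by
  have h1 : ∀ x : Fin m ↪ W, (2 : ℝ) ^ (C ∩ rg x).card =
      ∑ T ∈ C.powerset, if T ⊆ rg x then (1 : ℝ) else 0 := by
    intro x
    rw [← Finset.sum_filter]
    have : C.powerset.filter (fun T => T ⊆ rg x) = (C ∩ rg x).powerset := by
      ext T
      rw [Finset.mem_filter, Finset.mem_powerset, Finset.mem_powerset, Finset.subset_inter_iff]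
    rw [this, Finset.sum_const, Finset.card_powerset]
    simp
  calc ∑ x : Fin m ↪ W, (2 : ℝ) ^ (C ∩ rg x).card
      = ∑ T ∈ C.powerset, cnt m T := by
        rw [Finset.sum_congr rfl (fun x _ => h1 x), Finset.sum_comm]
        rfl
    _ ≤ ∑ T ∈ C.powerset, (7 / 8 : ℝ) ^ T.card * Fintype.card (Fin m ↪ W) :=
        Finset.sum_le_sum fun T _ => cnt_le m hm T
    _ = (15 / 8 : ℝ) ^ C.card * Fintype.card (Fin m ↪ W) := by
        rw [← Finset.sum_mul]
        congr 1
        have := Finset.sum_pow_mul_eq_add_pow (7 / 8 : ℝ) 1 C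
        simp only [one_pow, mul_one] at this
        rw [this]
        norm_num

/-- tail of the hypergeometric law -/
theorem sum_bad_le (m : ℕ) (hm : 8 * m ≤ 7 * Fintype.card W) (C : Finset W) :
    ∑ x : Fin m ↪ W, (if ((C ∩ rg x).card : ℝ) ≤ 15 / 16 * C.card then (0 : ℝ) else 1) ≤
      (49 / 50 : ℝ) ^ C.card * Fintype.card (Fin m ↪ W) := by
  have h1 : ∀ x : Fin m ↪ W, (if ((C ∩ rg x).card : ℝ) ≤ 15 / 16 * C.card then (0 : ℝ) else 1) ≤
      (196 / 375 : ℝ) ^ C.card * (2 : ℝ) ^ (C ∩ rg x).card := by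
    intro x
    split_ifs with h
    · positivity
    · rw [not_le] at h
      have h2 : 15 * C.card ≤ 16 * (C ∩ rg x).card := by
        have : (15 : ℝ) * C.card ≤ 16 * (C ∩ rg x).card := by linarith
        exact_mod_cast this
      have h3 : (1 : ℝ) ≤ ((196 / 375 : ℝ) ^ C.card * (2 : ℝ) ^ (C ∩ rg x).card) ^ 16 := by
        calc (1 : ℝ) ≤ ((196 / 375 : ℝ) ^ 16 * 2 ^ 15) ^ C.card := one_le_pow₀ (by norm_num)
          _ = ((196 / 375 : ℝ) ^ C.card) ^ 16 * 2 ^ (15 * C.card) := by
              rw [mul_pow, ← pow_mul, mul_comm 16, pow_mul 2 15, pow_mul (196 / 375 : ℝ)]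
          _ ≤ ((196 / 375 : ℝ) ^ C.card) ^ 16 * 2 ^ (16 * (C ∩ rg x).card) := by
              gcongr
              norm_num
          _ = ((196 / 375 : ℝ) ^ C.card * (2 : ℝ) ^ (C ∩ rg x).card) ^ 16 := by
              rw [mul_pow, ← pow_mul 2, mul_comm 16 (C ∩ rg x).card]
      by_contra h4
      rw [not_le] at h4
      have h5 : (0 : ℝ) ≤ (196 / 375 : ℝ) ^ C.card * (2 : ℝ) ^ (C ∩ rg x).card := by positivity
      have := pow_lt_one₀ h5 h4 (by norm_num : 16 ≠ 0)
      linarith
  calc ∑ x : Fin m ↪ W, (if ((C ∩ rg x).card : ℝ) ≤ 15 / 16 * C.card then (0 : ℝ) else 1)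
      ≤ ∑ x : Fin m ↪ W, (196 / 375 : ℝ) ^ C.card * (2 : ℝ) ^ (C ∩ rg x).card :=
        Finset.sum_le_sum fun x _ => h1 x
    _ = (196 / 375 : ℝ) ^ C.card * ∑ x : Fin m ↪ W, (2 : ℝ) ^ (C ∩ rg x).card := by
        rw [Finset.mul_sum]
    _ ≤ (196 / 375 : ℝ) ^ C.card * ((15 / 8 : ℝ) ^ C.card * Fintype.card (Fin m ↪ W)) := by
        gcongr
        exact sum_two_pow_le m hm C
    _ = (49 / 50 : ℝ) ^ C.card * Fintype.card (Fin m ↪ W) := by
        rw [← mul_assoc, ← mul_pow]
        norm_num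

open Classical in
theorem sum_not_reg_le (s0 m : ℕ) (hm : 8 * m ≤ 7 * Fintype.card W) : ∀ (D : ℕ) (ι : V D ↪ W),
    ∑ x : Fin m ↪ W, (if Reg s0 (15 / 16) D (tr D ι x) then (0 : ℝ) else 1) ≤
      (2 ^ (D + 1) - 2) * (49 / 50 : ℝ) ^ (2 ^ s0) * Fintype.card (Fin m ↪ W)
  | 0, ι => by
    simp [Reg]
  | D + 1, ι => by
    have hbox : ∀ h : Bool, s0 ≤ D → ∑ x : Fin m ↪ W,
        (if ((tr D ((consEmb D h).trans ι) x).card : ℝ) ≤ 15 / 16 * 2 ^ D then (0 : ℝ) else 1) ≤
          (49 / 50 : ℝ) ^ (2 ^ s0) * Fintype.card (Fin m ↪ W) := by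
      intro h hs
      have h1 := sum_bad_le m hm (Finset.univ.map ((consEmb D h).trans ι))
      rw [Finset.card_map, Finset.card_univ, card_V] at h1
      refine le_trans (le_of_eq ?_) (h1.trans ?_)
      · refine Finset.sum_congr rfl fun x _ => ?_
        rw [card_tr]
        push_cast
        rfl
      · apply mul_le_mul_of_nonneg_right _ (by positivity)
        exact pow_le_pow_of_le_one (by norm_num) (by norm_num)
          (Nat.pow_le_pow_right (by norm_num) hs)
    have hpt : ∀ x : Fin m ↪ W, (if Reg s0 (15 / 16) (D + 1) (tr (D + 1) ι x) then (0 : ℝ) else 1) ≤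
        ∑ h : Bool, ((if s0 ≤ D then
          (if ((tr D ((consEmb D h).trans ι) x).card : ℝ) ≤ 15 / 16 * 2 ^ D then (0 : ℝ) else 1)
            else 0) +
          (if Reg s0 (15 / 16) D (tr D ((consEmb D h).trans ι) x) then (0 : ℝ) else 1)) := by
      intro x
      have hnn : ∀ h : Bool, (0 : ℝ) ≤ ((if s0 ≤ D then
          (if ((tr D ((consEmb D h).trans ι) x).card : ℝ) ≤ 15 / 16 * 2 ^ D then (0 : ℝ) else 1)
            else 0) +
          (if Reg s0 (15 / 16) D (tr D ((consEmb D h).trans ι) x) then (0 : ℝ) else 1)) := by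
        intro h
        split_ifs <;> norm_num
      by_cases hR : Reg s0 (15 / 16) (D + 1) (tr (D + 1) ι x)
      · rw [if_pos hR]
        exact Finset.sum_nonneg fun h _ => hnn h
      · rw [if_neg hR]
        have hR' : ¬ ((s0 ≤ D → ∀ h, ((half D (tr (D + 1) ι x) h).card : ℝ) ≤ 15 / 16 * 2 ^ D) ∧
          ∀ h, Reg s0 (15 / 16) D (half D (tr (D + 1) ι x) h)) := hR
        simp only [half_tr] at hR'
        rw [not_and_or] at hR'
        have hex : ∃ h : Bool, (1 : ℝ) ≤ ((if s0 ≤ D then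
          (if ((tr D ((consEmb D h).trans ι) x).card : ℝ) ≤ 15 / 16 * 2 ^ D then (0 : ℝ) else 1)
            else 0) +
          (if Reg s0 (15 / 16) D (tr D ((consEmb D h).trans ι) x) then (0 : ℝ) else 1)) := by
          rcases hR' with h1 | h1
          · push Not at h1
            obtain ⟨hs, h, hh⟩ := h1
            refine ⟨h, ?_⟩
            rw [if_pos hs, if_neg (not_le.2 hh)]
            split_ifs <;> norm_num
          · push Not at h1
            obtain ⟨h, hh⟩ := h1
            refine ⟨h, ?_⟩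
            rw [if_neg hh]
            split_ifs <;> norm_num
        obtain ⟨h, hh⟩ := hex
        exact hh.trans (Finset.single_le_sum (f := fun h : Bool => ((if s0 ≤ D then
          (if ((tr D ((consEmb D h).trans ι) x).card : ℝ) ≤ 15 / 16 * 2 ^ D then (0 : ℝ) else 1)
            else 0) +
          (if Reg s0 (15 / 16) D (tr D ((consEmb D h).trans ι) x) then (0 : ℝ) else 1)))
          (fun h _ => hnn h) (Finset.mem_univ h))
    calc ∑ x : Fin m ↪ W, (if Reg s0 (15 / 16) (D + 1) (tr (D + 1) ι x) then (0 : ℝ) else 1)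
        ≤ ∑ x : Fin m ↪ W, ∑ h : Bool, ((if s0 ≤ D then
          (if ((tr D ((consEmb D h).trans ι) x).card : ℝ) ≤ 15 / 16 * 2 ^ D then (0 : ℝ) else 1)
            else 0) +
          (if Reg s0 (15 / 16) D (tr D ((consEmb D h).trans ι) x) then (0 : ℝ) else 1)) :=
          Finset.sum_le_sum fun x _ => hpt x
      _ = ∑ h : Bool, ((if s0 ≤ D then ∑ x : Fin m ↪ W,
          (if ((tr D ((consEmb D h).trans ι) x).card : ℝ) ≤ 15 / 16 * 2 ^ D then (0 : ℝ) else 1)
            else 0) +
          ∑ x : Fin m ↪ W,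
            (if Reg s0 (15 / 16) D (tr D ((consEmb D h).trans ι) x) then (0 : ℝ) else 1)) := by
          rw [Finset.sum_comm]
          refine Finset.sum_congr rfl fun h _ => ?_
          rw [Finset.sum_add_distrib]
          congr 1
          split_ifs
          · rfl
          · simp
      _ ≤ ∑ _h : Bool, ((49 / 50 : ℝ) ^ (2 ^ s0) * Fintype.card (Fin m ↪ W) +
          (2 ^ (D + 1) - 2) * (49 / 50 : ℝ) ^ (2 ^ s0) * Fintype.card (Fin m ↪ W)) := by
          refine Finset.sum_le_sum fun h _ => add_le_add ?_ (sum_not_reg_le s0 m hm D _)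
          split_ifs with hs
          · exact hbox h hs
          · positivity
      _ = (2 ^ (D + 1 + 1) - 2) * (49 / 50 : ℝ) ^ (2 ^ s0) * Fintype.card (Fin m ↪ W) := by
          simp only [Finset.sum_const, Finset.card_univ, Fintype.card_bool, nsmul_eq_mul]
          push_cast
          ring

end RegProb78

/-- C4c: a uniformly random tuple of at most half of the positions is regular. -/
theorem reg_prob78 (s0 D m : ℕ) (hm : 8 * m ≤ 7 * 2 ^ D) :
    (𝔼 x : Fin m ↪ V D, open Classical in if Reg s0 (15 / 16) D (rangeF x) then (0 : ℝ) else 1) ≤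
      2 ^ (D + 1) * (49 / 50 : ℝ) ^ (2 ^ s0) := by
  classical
  have h1 := RegProb78.sum_not_reg_le (W := V D) s0 m (by rw [card_V]; exact hm) D
    (Function.Embedding.refl _)
  have h2 : ∀ x : Fin m ↪ V D, RegProb.tr D (Function.Embedding.refl _) x = rangeF x := by
    intro x
    ext v
    simp [RegProb.tr, RegProb.rg]
  simp only [h2] at h1
  rw [Fintype.expect_eq_sum_div_card]
  have hpos : (0 : ℝ) ≤ (49 / 50 : ℝ) ^ (2 ^ s0) := by positivity
  rcases Nat.eq_zero_or_pos (Fintype.card (Fin m ↪ V D)) with h0 | h0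
  · rw [h0, Nat.cast_zero, div_zero]
    positivity
  · have h0' : (0 : ℝ) < Fintype.card (Fin m ↪ V D) := by exact_mod_cast h0
    rw [div_le_iff₀ h0']
    refine le_trans (le_of_eq ?_) (h1.trans ?_)
    · exact Finset.sum_congr rfl fun x _ => by congr
    · apply mul_le_mul_of_nonneg_right _ h0'.le
      apply mul_le_mul_of_nonneg_right _ hpos
      linarith

end Crest.Agent.Thorp
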