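import Crest.Agent.Lib.Row155.Alt.Defs
/-!
Row 155 (Thorp shuffle), second proof, chunk B4: main probabilistic statement (helper76).
-/
set_option autoImplicit false
open Finset Filter
open scoped BigOperators Topology

set_option linter.unusedVariables false

namespace Crest.Agent.Thorp

/-! ### Linearity -/

theorem b4_evolve_add : ∀ (D : ℕ) (R : Finset (V D)) (c : Coins D) (φ ψ : V D → ℝ) (p : V D),
    evolve D R c (fun v => φ v + ψ v) p = evolve D R c φ p + evolve D R c ψ p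
  | 0, R, c, φ, ψ, p => rfl
  | D + 1, R, c, φ, ψ, p => by
    have ih := b4_evolve_add D
    simp only [evolve]
    split_ifs with h
    · exact ih _ _ _ _ _
    · rw [ih, ih]
      ring

theorem b4_evolves_add (D : ℕ) (R : Finset (V D)) : ∀ (K : ℕ) (a : Fin K → Coins D)
    (φ ψ : V D → ℝ) (p : V D),
    evolves D R K a (fun v => φ v + ψ v) p = evolves D R K a φ p + evolves D R K a ψ p
  | 0, _, _, _, _ => rfl
  | K + 1, a, φ, ψ, p => by
    have ih := b4_evolves_add D R K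
    simp only [evolves]
    have h : evolves D R K (fun i => a i.castSucc) (fun v => φ v + ψ v) =
        fun v => evolves D R K (fun i => a i.castSucc) φ v +
          evolves D R K (fun i => a i.castSucc) ψ v := funext (fun v => ih _ _ _ v)
    rw [h]
    exact b4_evolve_add _ _ _ _ _ _

/-! ### Random relabelling -/

theorem b4_expect_perm {D m : ℕ} (x₀ : Fin m ↪ V D) (F : (Fin m ↪ V D) → ℝ) :
    𝔼 σ : Equiv.Perm (V D), F (x₀.trans σ.toEmbedding) = 𝔼 x : Fin m ↪ V D, F x := by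
  classical
  have h1 : ∀ x : Fin m ↪ V D, 𝔼 σ : Equiv.Perm (V D), F (x.trans σ.toEmbedding) =
      𝔼 σ : Equiv.Perm (V D), F (x₀.trans σ.toEmbedding) := by
    intro x
    -- a permutation with `τ ∘ x₀ = x`
    obtain ⟨τ, hτ⟩ : ∃ τ : Equiv.Perm (V D), ∀ i, τ (x₀ i) = x i := by
      let e : {v // v ∈ Set.range x₀} ≃ {v // v ∈ Set.range x} :=
        (Equiv.ofInjective x₀ x₀.injective).symm.trans (Equiv.ofInjective x x.injective)
      refine ⟨e.extendSubtype, fun i => ?_⟩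
      have h2 := Equiv.extendSubtype_apply_of_mem e (x₀ i) ⟨i, rfl⟩
      rw [h2]
      have h3 : (Equiv.ofInjective x₀ x₀.injective).symm ⟨x₀ i, ⟨i, rfl⟩⟩ = i :=
        Equiv.ofInjective_symm_apply x₀.injective i
      show ((Equiv.ofInjective x x.injective)
        ((Equiv.ofInjective x₀ x₀.injective).symm ⟨x₀ i, ⟨i, rfl⟩⟩) : V D) = x i
      rw [h3]
      rfl
    refine Fintype.expect_equiv (Equiv.mulRight τ) _ _ (fun σ => ?_)
    congr 1
    ext i
    show σ (x i) = (σ * τ) (x₀ i)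
    rw [Equiv.Perm.mul_apply, hτ]
  have h2 : 𝔼 x : Fin m ↪ V D, 𝔼 σ : Equiv.Perm (V D), F (x.trans σ.toEmbedding) =
      𝔼 x : Fin m ↪ V D, F x := by
    rw [Finset.expect_comm]
    have h3 : ∀ σ : Equiv.Perm (V D), 𝔼 x : Fin m ↪ V D, F (x.trans σ.toEmbedding) =
        𝔼 x : Fin m ↪ V D, F x := by
      intro σ
      refine Fintype.expect_equiv
        { toFun := fun x : Fin m ↪ V D => x.trans σ.toEmbedding
          invFun := fun x => x.trans σ.symm.toEmbedding
          left_inv := fun x => by ext i; simp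
          right_inv := fun x => by ext i; simp } _ _ (fun x => rfl)
    rw [Finset.expect_congr rfl (fun σ _ => h3 σ), Finset.expect_const Finset.univ_nonempty]
  have : Nonempty (Fin m ↪ V D) := ⟨x₀⟩
  rw [← h2, Finset.expect_congr rfl (fun x _ => h1 x), Finset.expect_const Finset.univ_nonempty]

theorem b4_regAll (s0 : ℕ) (ρ : ℝ) (D : ℕ) (R₀ : Finset (V D)) (q : ℝ)
    (hq : (𝔼 σ : Equiv.Perm (V D), open Classical in
      if Reg s0 ρ D (R₀.map σ.toEmbedding) then (0 : ℝ) else 1) ≤ q) :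
    ∀ (K : ℕ) (a : Fin K → Coins D), (𝔼 σ : Equiv.Perm (V D), open Classical in
      if RegAll s0 ρ D (R₀.map σ.toEmbedding) K a then (0 : ℝ) else 1) ≤ K * q
  | 0, a => by
    simp [RegAll]
  | K + 1, a => by
    classical
    have ih := b4_regAll s0 ρ D R₀ q hq K (fun i => a i.castSucc)
    have h1 : (𝔼 σ : Equiv.Perm (V D),
        if Reg s0 ρ D (moved D K (fun i => a i.castSucc) (R₀.map σ.toEmbedding)) then (0 : ℝ)
          else 1) ≤ q := by
      refine le_trans (le_of_eq ?_) hq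
      refine Fintype.expect_equiv (Equiv.mulLeft (passes D K (fun i => a i.castSucc))) _ _
        (fun σ => ?_)
      have : moved D K (fun i => a i.castSucc) (R₀.map σ.toEmbedding) =
          R₀.map (Equiv.mulLeft (passes D K (fun i => a i.castSucc)) σ).toEmbedding := by
        rw [moved, Finset.map_map]
        congr 1
      rw [this]
    have h2 : (𝔼 σ : Equiv.Perm (V D),
        if RegAll s0 ρ D (R₀.map σ.toEmbedding) (K + 1) a then (0 : ℝ) else 1) ≤
        (𝔼 σ : Equiv.Perm (V D),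
          if RegAll s0 ρ D (R₀.map σ.toEmbedding) K (fun i => a i.castSucc) then (0 : ℝ) else 1) +
        (𝔼 σ : Equiv.Perm (V D),
        if Reg s0 ρ D (moved D K (fun i => a i.castSucc) (R₀.map σ.toEmbedding)) then (0 : ℝ)
          else 1) := by
      rw [← Finset.expect_add_distrib]
      refine Finset.expect_le_expect (fun σ _ => ?_)
      simp only [RegAll]
      by_cases ha : RegAll s0 ρ D (R₀.map σ.toEmbedding) K (fun i => a i.castSucc) <;>
        by_cases hb : Reg s0 ρ D (moved D K (fun i => a i.castSucc) (R₀.map σ.toEmbedding)) <;>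
        simp [ha, hb]
    push_cast
    have h3 : (𝔼 σ : Equiv.Perm (V D), open Classical in
        if RegAll s0 ρ D (R₀.map σ.toEmbedding) K (fun i => a i.castSucc) then (0 : ℝ) else 1) ≤
        K * q := ih
    calc _ ≤ _ := by convert h2
      _ ≤ K * q + q := add_le_add (by convert h3) h1
      _ = (K + 1) * q := by ring

/-- `front x j` has `j` elements. -/
theorem b4_front_card {D k : ℕ} (x : Fin k ↪ V D) (j : Fin k) : (front x j).card = j := by
  rw [front, Finset.card_map]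
  have : (Finset.univ.filter (fun i : Fin k => i < j)) = Finset.Iio j := by
    ext i; simp
  rw [this, Fin.card_Iio]

theorem b4_front_eq {D k : ℕ} (x : Fin k ↪ V D) (j : Fin k) :
    front x j = rangeF ((Fin.castLEEmb j.isLt.le).trans x) := by
  ext p
  simp only [front, Finset.mem_map, Finset.mem_filter, Finset.mem_univ, true_and, mem_rangeF]
  constructor
  · rintro ⟨i, hi, rfl⟩
    exact ⟨⟨i, hi⟩, rfl⟩
  · rintro ⟨i, rfl⟩
    exact ⟨Fin.castLE j.isLt.le i, i.isLt, rfl⟩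

theorem b4_front_map {D k : ℕ} (x : Fin k ↪ V D) (j : Fin k) (σ : Equiv.Perm (V D)) :
    front (x.trans σ.toEmbedding) j = (front x j).map σ.toEmbedding := by
  rw [front, front, Finset.map_map]

/-- A violation of the sup bound makes the energy large. -/
theorem b4_violation
    (evolves_const : ∀ (D K : ℕ) (R : Finset (V D)) (a : Fin K → Coins D) (s : ℝ) (y : V D),
      evolves D R K a (fun p => if p ∈ R then 0 else s) y = if y ∈ moved D K a R then 0 else s)
    (D K : ℕ) (R : Finset (V D)) (a : Fin K → Coins D) (x : V D) (m δ : ℝ) (hm : 0 < m)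
    (hδ : 0 < δ)
    (hbad : ¬ ∀ p, evolves D R K a (Pi.single x 1) p ≤ (1 + δ) / m) :
    1 ≤ (m / δ) ^ 2 * ∑ y, evolves D R K a
      (fun p => (Pi.single x 1 : V D → ℝ) p + if p ∈ R then 0 else -(1 / m)) y ^ 2 := by
  classical
  push Not at hbad
  obtain ⟨p, hp⟩ := hbad
  have h1 := b4_evolves_add D R K a (Pi.single x 1) (fun p => if p ∈ R then 0 else -(1 / m)) p
  rw [evolves_const D K R a (-(1 / m)) p] at h1
  set E := evolves D R K a
      (fun p => (Pi.single x 1 : V D → ℝ) p + if p ∈ R then 0 else -(1 / m)) with hE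
  have h2 : δ / m ≤ E p := by
    rw [h1]
    have h3 : -(1 / m) ≤ (if p ∈ moved D K a R then (0 : ℝ) else -(1 / m)) := by
      split_ifs
      · have : 0 < 1 / m := by positivity
        linarith
      · exact le_rfl
    have h4 : (1 + δ) / m = 1 / m + δ / m := by ring
    rw [h4] at hp
    have h5 : 1 / m + δ / m ≤ evolves D R K a (Pi.single x 1) p := hp.le
    linarith
  have h6 : (δ / m) ^ 2 ≤ ∑ y, E y ^ 2 := by
    refine le_trans ?_ (Finset.single_le_sum (f := fun y => E y ^ 2) (fun y _ => sq_nonneg _)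
      (Finset.mem_univ p))
    exact pow_le_pow_left₀ (by positivity) h2 2
  calc (1 : ℝ) = (m / δ) ^ 2 * (δ / m) ^ 2 := by
        field_simp
    _ ≤ _ := mul_le_mul_of_nonneg_left h6 (by positivity)

/-- Probability of a violation. -/
theorem b4_prob_violation
    (evolves_energy : ∀ (s0 D T : ℕ), s0 ≤ D → ∀ (R : Finset (V D)) (φ : V D → ℝ),
      (∀ p ∈ R, φ p = 0) → (∑ p, φ p = 0) →
      (𝔼 a : Fin (2 * T) → Coins D, open Classical in
        if RegAll s0 (15 / 16) D R (2 * T) a then ∑ y, evolves D R (2 * T) a φ y ^ 2 else 0) ≤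
        ((31 / 15) * (31 / 32 : ℝ) ^ (D - s0)) ^ T * ∑ y, φ y ^ 2)
    (evolves_const : ∀ (D K : ℕ) (R : Finset (V D)) (a : Fin K → Coins D) (s : ℝ) (y : V D),
      evolves D R K a (fun p => if p ∈ R then 0 else s) y = if y ∈ moved D K a R then 0 else s)
    (s0 D T : ℕ) (hD : s0 ≤ D) (R : Finset (V D)) (x : V D) (hx : x ∉ R) (δ : ℝ) (hδ : 0 < δ)
    (m : ℝ) (hm : m = (Fintype.card (V D) : ℝ) - R.card) (hm1 : 1 ≤ m) :
    (𝔼 a : Fin (2 * T) → Coins D, open Classical in
      if ∀ p, evolves D R (2 * T) a (Pi.single x 1) p ≤ (1 + δ) / m then (0 : ℝ) else 1) ≤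
    (𝔼 a : Fin (2 * T) → Coins D, open Classical in
      if RegAll s0 (15 / 16) D R (2 * T) a then (0 : ℝ) else 1) +
      (m / δ) ^ 2 * (((31 / 15) * (31 / 32 : ℝ) ^ (D - s0)) ^ T * 4) := by
  classical
  have hm0 : 0 < m := by linarith
  set φ : V D → ℝ := fun p => (Pi.single x 1 : V D → ℝ) p + if p ∈ R then 0 else -(1 / m) with hφ
  have hcard : ∀ s : ℝ, ∑ p : V D, (if p ∈ R then (0 : ℝ) else s) = m * s := by
    intro s
    rw [← Finset.sum_filter_add_sum_filter_not Finset.univ (fun p => p ∈ R)]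
    rw [Finset.sum_congr rfl (g := fun _ => (0 : ℝ)) (fun p hp => by
      rw [if_pos (Finset.mem_filter.mp hp).2])]
    rw [Finset.sum_congr rfl (s₁ := Finset.univ.filter (fun p => p ∉ R)) (g := fun _ => s)
      (fun p hp => by rw [if_neg (Finset.mem_filter.mp hp).2])]
    rw [Finset.sum_const_zero, zero_add, Finset.sum_const, nsmul_eq_mul]
    congr 1
    rw [hm]
    have h1 : (Finset.univ.filter (fun p => p ∉ R)) = Rᶜ := by ext p; simp
    rw [h1, Finset.card_compl, Nat.cast_sub (Finset.card_le_univ R)]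
  have hsum : ∑ p, φ p = 0 := by
    rw [hφ, Finset.sum_add_distrib, hcard, Finset.sum_pi_single']
    simp only [Finset.mem_univ, if_true]
    field_simp
    ring
  have hzero : ∀ p ∈ R, φ p = 0 := by
    intro p hp
    have hne : p ≠ x := fun h => hx (h ▸ hp)
    simp only [hφ]
    rw [Pi.single_eq_of_ne hne, if_pos hp, add_zero]
  have hsq : ∑ y, φ y ^ 2 ≤ 4 := by
    have h1 : ∀ y, φ y ^ 2 ≤ (Pi.single x 2 : V D → ℝ) y + (if y ∈ R then (0 : ℝ) else 2 / m ^ 2) := by
      intro y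
      simp only [hφ]
      by_cases hy : y = x
      · subst hy
        rw [Pi.single_eq_same, Pi.single_eq_same, if_neg hx, if_neg hx]
        have h2 : 2 / m ^ 2 = 2 * (1 / m) ^ 2 := by field_simp
        rw [h2]
        nlinarith [sq_nonneg (1 + -(1 / m)), sq_nonneg (1 + 1 / m)]
      · rw [Pi.single_eq_of_ne hy, Pi.single_eq_of_ne hy]
        by_cases hy2 : y ∈ R
        · simp [hy2]
        · rw [if_neg hy2, if_neg hy2]
          have h2 : 2 / m ^ 2 = 2 * (1 / m) ^ 2 := by field_simp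
          rw [h2]
          nlinarith [sq_nonneg (1 / m)]
    calc ∑ y, φ y ^ 2 ≤ ∑ y, ((Pi.single x 2 : V D → ℝ) y +
          (if y ∈ R then (0 : ℝ) else 2 / m ^ 2)) := Finset.sum_le_sum (fun y _ => h1 y)
      _ = 2 + m * (2 / m ^ 2) := by
        rw [Finset.sum_add_distrib, hcard, Finset.sum_pi_single']
        simp
      _ = 2 + 2 / m := by
        congr 1
        field_simp
      _ ≤ 2 + 2 := by
        have : 2 / m ≤ 2 := by
          rw [div_le_iff₀ hm0]
          linarith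
        linarith
      _ = 4 := by norm_num
  have hen := evolves_energy s0 D T hD R φ hzero hsum
  have hpt : ∀ a : Fin (2 * T) → Coins D,
      (if ∀ p, evolves D R (2 * T) a (Pi.single x 1) p ≤ (1 + δ) / m then (0 : ℝ) else 1) ≤
      (if RegAll s0 (15 / 16) D R (2 * T) a then (0 : ℝ) else 1) + (m / δ) ^ 2 *
        (if RegAll s0 (15 / 16) D R (2 * T) a then ∑ y, evolves D R (2 * T) a φ y ^ 2 else 0) := by
    intro a
    by_cases h1 : RegAll s0 (15 / 16) D R (2 * T) a
    · rw [if_pos h1, if_pos h1, zero_add]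
      by_cases h2 : ∀ p, evolves D R (2 * T) a (Pi.single x 1) p ≤ (1 + δ) / m
      · rw [if_pos h2]
        have : 0 ≤ ∑ y, evolves D R (2 * T) a φ y ^ 2 := Finset.sum_nonneg (fun y _ => sq_nonneg _)
        positivity
      · rw [if_neg h2]
        exact b4_violation evolves_const D (2 * T) R a x m δ hm0 hδ h2
    · rw [if_neg h1, if_neg h1, mul_zero, add_zero]
      split_ifs <;> norm_num
  calc (𝔼 a : Fin (2 * T) → Coins D,
      if ∀ p, evolves D R (2 * T) a (Pi.single x 1) p ≤ (1 + δ) / m then (0 : ℝ) else 1)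
      ≤ 𝔼 a : Fin (2 * T) → Coins D,
        ((if RegAll s0 (15 / 16) D R (2 * T) a then (0 : ℝ) else 1) + (m / δ) ^ 2 *
        (if RegAll s0 (15 / 16) D R (2 * T) a then ∑ y, evolves D R (2 * T) a φ y ^ 2 else 0)) :=
        Finset.expect_le_expect (fun a _ => hpt a)
    _ = (𝔼 a : Fin (2 * T) → Coins D,
        (if RegAll s0 (15 / 16) D R (2 * T) a then (0 : ℝ) else 1)) + (m / δ) ^ 2 *
        (𝔼 a : Fin (2 * T) → Coins D,
        (if RegAll s0 (15 / 16) D R (2 * T) a then ∑ y, evolves D R (2 * T) a φ y ^ 2 else 0)) := by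
        rw [Finset.expect_add_distrib, Finset.mul_expect]
    _ ≤ _ := by
        refine add_le_add le_rfl (mul_le_mul_of_nonneg_left ?_ (by positivity))
        refine le_trans hen (mul_le_mul_of_nonneg_left hsq (by positivity))

/-- Statement of `evolves_energy`. -/
def B4Energy : Prop :=
  ∀ (s0 D T : ℕ), s0 ≤ D → ∀ (R : Finset (V D)) (φ : V D → ℝ),
      (∀ p ∈ R, φ p = 0) → (∑ p, φ p = 0) →
      (𝔼 a : Fin (2 * T) → Coins D, open Classical in
        if RegAll s0 (15 / 16) D R (2 * T) a then ∑ y, evolves D R (2 * T) a φ y ^ 2 else 0) ≤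
        ((31 / 15) * (31 / 32 : ℝ) ^ (D - s0)) ^ T * ∑ y, φ y ^ 2

/-- Statement of `evolves_const`. -/
def B4Const : Prop :=
  ∀ (D K : ℕ) (R : Finset (V D)) (a : Fin K → Coins D) (s : ℝ) (y : V D),
      evolves D R K a (fun p => if p ∈ R then 0 else s) y = if y ∈ moved D K a R then 0 else s

/-- Statement of `reg_prob78`. -/
def B4Reg : Prop :=
  ∀ (s0 D m : ℕ), 8 * m ≤ 7 * 2 ^ D →
    (𝔼 x : Fin m ↪ V D, open Classical in if Reg s0 (15 / 16) D (rangeF x) then (0 : ℝ) else 1) ≤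
      2 ^ (D + 1) * (49 / 50 : ℝ) ^ (2 ^ s0)

/-- Statement of `seq_bound`. -/
def B4Seq : Prop :=
  ∀ (D K k : ℕ) (x : Fin k ↪ V D) (θ : Fin k → ℝ), (∀ j, 0 ≤ θ j) → ∀ (y : Fin k → V D),
    (𝔼 a : Fin K → Coins D, open Classical in
      if (∀ j p, evolves D (front x j) K a (Pi.single (x j) 1) p ≤ θ j) ∧
        (∀ j, passes D K a (x j) = y j) then (1 : ℝ) else 0) ≤ ∏ j, θ j

theorem b4_average (hE : B4Energy) (hC : B4Const) (hR : B4Reg)
    (s0 D T : ℕ) (hD : s0 ≤ D) (b : ℕ) (hn : 2 ^ D = 8 * b)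
    (x₀ : Fin (7 * b) ↪ V D) (j : Fin (7 * b)) :
    (𝔼 σ : Equiv.Perm (V D), 𝔼 a : Fin (2 * T) → Coins D, open Classical in
      if ∀ p, evolves D (front (x₀.trans σ.toEmbedding) j) (2 * T) a
        (Pi.single (x₀.trans σ.toEmbedding j) 1) p ≤ (1 + 1 / (2 : ℝ) ^ D) / ((2 : ℝ) ^ D - (j : ℕ))
      then (0 : ℝ) else 1) ≤
    (2 * T : ℕ) * ((2 : ℝ) ^ (D + 1) * (49 / 50 : ℝ) ^ (2 ^ s0)) +
      ((2 : ℝ) ^ D * 2 ^ D) ^ 2 * (((31 / 15) * (31 / 32 : ℝ) ^ (D - s0)) ^ T * 4) := by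
  classical
  have hnR : (2 : ℝ) ^ D = 8 * b := by exact_mod_cast hn
  have hj : ((j : ℕ) : ℝ) + 1 ≤ 7 * b := by
    have := j.isLt
    exact_mod_cast this
  have hb : (0 : ℝ) ≤ b := Nat.cast_nonneg b
  have hm1 : (1 : ℝ) ≤ (2 : ℝ) ^ D - (j : ℕ) := by rw [hnR]; linarith
  have h2D : (0 : ℝ) < 2 ^ D := by positivity
  have hcardV : (Fintype.card (V D) : ℝ) = 2 ^ D := by
    rw [card_V]; push_cast; ring
  have key : ∀ σ : Equiv.Perm (V D), (𝔼 a : Fin (2 * T) → Coins D,
      if ∀ p, evolves D (front (x₀.trans σ.toEmbedding) j) (2 * T) a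
        (Pi.single (x₀.trans σ.toEmbedding j) 1) p ≤ (1 + 1 / (2 : ℝ) ^ D) / ((2 : ℝ) ^ D - (j : ℕ))
      then (0 : ℝ) else 1) ≤
      (𝔼 a : Fin (2 * T) → Coins D,
        if RegAll s0 (15 / 16) D ((front x₀ j).map σ.toEmbedding) (2 * T) a then (0 : ℝ) else 1) +
      ((2 : ℝ) ^ D * 2 ^ D) ^ 2 * (((31 / 15) * (31 / 32 : ℝ) ^ (D - s0)) ^ T * 4) := by
    intro σ
    have hx : (x₀.trans σ.toEmbedding) j ∉ front (x₀.trans σ.toEmbedding) j := by
      simp only [front, Finset.mem_map, Finset.mem_filter, Finset.mem_univ, true_and, not_exists,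
        not_and]
      intro i hi h
      have := (x₀.trans σ.toEmbedding).injective h
      rw [this] at hi
      exact lt_irrefl _ hi
    have h1 := b4_prob_violation hE hC s0 D T hD (front (x₀.trans σ.toEmbedding) j)
      ((x₀.trans σ.toEmbedding) j) hx (1 / (2 : ℝ) ^ D) (by positivity)
      ((2 : ℝ) ^ D - (j : ℕ)) (by rw [b4_front_card, hcardV]) hm1
    refine le_trans (le_of_eq ?_) (le_trans h1 (add_le_add (le_of_eq ?_) ?_))
    · exact Finset.expect_congr rfl (fun a _ => by congr 1)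
    · rw [b4_front_map]
    · refine mul_le_mul_of_nonneg_right ?_ (by positivity)
      refine pow_le_pow_left₀ (by positivity) ?_ 2
      rw [div_div_eq_mul_div, div_one]
      refine mul_le_mul_of_nonneg_right ?_ h2D.le
      have : (0 : ℝ) ≤ (j : ℕ) := Nat.cast_nonneg _
      linarith
  have h2 : (𝔼 σ : Equiv.Perm (V D), 𝔼 a : Fin (2 * T) → Coins D,
      if RegAll s0 (15 / 16) D ((front x₀ j).map σ.toEmbedding) (2 * T) a then (0 : ℝ) else 1) ≤
      (2 * T : ℕ) * ((2 : ℝ) ^ (D + 1) * (49 / 50 : ℝ) ^ (2 ^ s0)) := by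
    rw [Finset.expect_comm]
    have hq : (𝔼 σ : Equiv.Perm (V D),
        if Reg s0 (15 / 16) D ((front x₀ j).map σ.toEmbedding) then (0 : ℝ) else 1) ≤
        (2 : ℝ) ^ (D + 1) * (49 / 50 : ℝ) ^ (2 ^ s0) := by
      have h3 := b4_expect_perm ((Fin.castLEEmb j.isLt.le).trans x₀)
        (fun x => if Reg s0 (15 / 16) D (rangeF x) then (0 : ℝ) else 1)
      have h4 := hR s0 D j (by
        have := j.isLt
        omega)
      refine le_trans (le_of_eq ?_) h4
      refine Eq.trans ?_ (h3.trans ?_)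
      · refine Finset.expect_congr rfl (fun σ _ => ?_)
        rw [← b4_front_map, b4_front_eq]
        rfl
      · exact Finset.expect_congr rfl (fun a _ => by congr 1)
    refine Finset.expect_le Finset.univ_nonempty (fun a _ => ?_)
    have h5 := b4_regAll s0 (15 / 16) D (front x₀ j) _ (by convert hq) (2 * T) a
    refine le_trans (le_of_eq ?_) h5
    exact Finset.expect_congr rfl (fun a _ => by congr 1)
  calc _ ≤ 𝔼 σ : Equiv.Perm (V D), ((𝔼 a : Fin (2 * T) → Coins D,
        if RegAll s0 (15 / 16) D ((front x₀ j).map σ.toEmbedding) (2 * T) a then (0 : ℝ) else 1) +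
      ((2 : ℝ) ^ D * 2 ^ D) ^ 2 * (((31 / 15) * (31 / 32 : ℝ) ^ (D - s0)) ^ T * 4)) :=
        Finset.expect_le_expect (fun σ _ => by convert key σ)
    _ = _ := by rw [Finset.expect_add_distrib, Finset.expect_const Finset.univ_nonempty]
    _ ≤ _ := add_le_add h2 le_rfl

/-- Enumeration of the complement of block `i`. -/
def b4_enum (b : ℕ) (i : Fin 8) : Fin (7 * b) ↪ Fin 8 × Fin b :=
  finProdFinEquiv.symm.toEmbedding.trans
    (Function.Embedding.prodMap i.succAboveEmb (Function.Embedding.refl _))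

theorem b4_enum_ne (b : ℕ) (i : Fin 8) (j : Fin (7 * b)) : (b4_enum b i j).1 ≠ i := by
  simp only [b4_enum, Function.Embedding.trans_apply]
  exact Fin.succAbove_ne i _

/-- Good event. -/
def b4_good (D K b : ℕ) (β : Fin 8 × Fin b ≃ V D) (i : Fin 8) (a : Fin K → Coins D) : Prop :=
  ∀ (j : Fin (7 * b)) (p : V D),
    evolves D (front ((b4_enum b i).trans β.toEmbedding) j) K a
      (Pi.single ((b4_enum b i).trans β.toEmbedding j) 1) p ≤
      (1 + 1 / (2 : ℝ) ^ D) / ((2 : ℝ) ^ D - (j : ℕ))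

open Classical in
/-- The law restricted to the good event. -/
noncomputable def b4_nu (D K b : ℕ) (β : Fin 8 × Fin b ≃ V D) (g : Equiv.Perm (V D)) : ℝ :=
  𝔼 a : Fin K → Coins D, if (∀ i, b4_good D K b β i a) ∧ passes D K a = g then 1 else 0

theorem b4_nu_nonneg (D K b : ℕ) (β : Fin 8 × Fin b ≃ V D) (g : Equiv.Perm (V D)) :
    0 ≤ b4_nu D K b β g := by
  unfold b4_nu
  exact Finset.expect_nonneg (fun a _ => by split_ifs <;> norm_num)

theorem b4_nu_le (D K b : ℕ) (β : Fin 8 × Fin b ≃ V D) (g : Equiv.Perm (V D)) :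
    b4_nu D K b β g ≤ passLaw D K g := by
  unfold b4_nu passLaw
  refine Finset.expect_le_expect (fun a _ => ?_)
  by_cases h : passes D K a = g
  · rw [if_pos h]
    split_ifs <;> norm_num
  · rw [if_neg h, if_neg (fun h' => h h'.2)]

open Classical in
theorem b4_nu_sum (D K b : ℕ) (β : Fin 8 × Fin b ≃ V D) :
    ∑ g, b4_nu D K b β g = 𝔼 a : Fin K → Coins D, if (∀ i, b4_good D K b β i a) then 1 else 0 := by
  unfold b4_nu
  rw [← Finset.expect_sum_comm]
  refine Finset.expect_congr rfl (fun a _ => ?_)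
  by_cases h : ∀ i, b4_good D K b β i a
  · simp [h]
  · simp [h]

theorem b4_prod (b : ℕ) (hb : 0 < b) (n : ℕ) (hn : n = 8 * b) :
    ∏ j : Fin (7 * b), ((1 + 1 / (n : ℝ)) / ((n : ℝ) - (j : ℕ))) ≤
      3 * (b.factorial : ℝ) / ((8 * b).factorial : ℝ) := by
  have hbR : (0 : ℝ) < b := by exact_mod_cast hb
  have hnR : (n : ℝ) = 8 * b := by rw [hn]; push_cast; ring
  rw [Finset.prod_div_distrib, Finset.prod_const, Finset.card_univ, Fintype.card_fin]
  have h1 : ∏ j : Fin (7 * b), ((n : ℝ) - (j : ℕ)) = ((8 * b).factorial : ℝ) / b.factorial := by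
    rw [Finset.prod_range (fun j => (n : ℝ) - (j : ℕ)) |>.symm]
    have h2 : (n.descFactorial (7 * b) : ℝ) = ∏ j ∈ Finset.range (7 * b), ((n : ℝ) - (j : ℕ)) := by
      rw [Nat.descFactorial_eq_prod_range]
      push_cast
      refine Finset.prod_congr rfl (fun j hj => ?_)
      rw [Nat.cast_sub]
      have := Finset.mem_range.mp hj
      omega
    rw [← h2]
    have h3 : (n - 7 * b).factorial * n.descFactorial (7 * b) = n.factorial :=
      Nat.factorial_mul_descFactorial (by omega)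
    have h4 : n - 7 * b = b := by omega
    rw [h4] at h3
    have h5 : (b.factorial : ℝ) ≠ 0 := by exact_mod_cast (Nat.factorial_pos b).ne'
    rw [eq_div_iff h5, ← hn]
    have h6 : (b.factorial : ℝ) * (n.descFactorial (7 * b) : ℝ) = (n.factorial : ℝ) := by
      exact_mod_cast h3
    rw [← h6]
    ring
  rw [h1]
  have h7 : (1 + 1 / (n : ℝ)) ^ (7 * b) ≤ 3 := by
    have h8 : 1 + 1 / (n : ℝ) ≤ Real.exp (1 / (n : ℝ)) := by
      have := Real.add_one_le_exp (1 / (n : ℝ))
      linarith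
    calc (1 + 1 / (n : ℝ)) ^ (7 * b) ≤ (Real.exp (1 / (n : ℝ))) ^ (7 * b) :=
          pow_le_pow_left₀ (by positivity) h8 _
      _ = Real.exp ((7 * b : ℕ) * (1 / (n : ℝ))) := by rw [← Real.exp_nat_mul]
      _ ≤ Real.exp 1 := by
          apply Real.exp_le_exp.mpr
          rw [hnR]
          push_cast
          rw [mul_one_div, div_le_one (by positivity)]
          linarith
      _ ≤ 3 := by
          have := Real.exp_one_lt_d9
          linarith
  have h9 : (0 : ℝ) < (8 * b).factorial := by exact_mod_cast Nat.factorial_pos _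
  have h10 : (0 : ℝ) < b.factorial := by exact_mod_cast Nat.factorial_pos _
  rw [div_div_eq_mul_div]
  gcongr

theorem b4_coset (hS : B4Seq) (D K b : ℕ) (hb : 0 < b) (hn : 2 ^ D = 8 * b)
    (β : Fin 8 × Fin b ≃ V D) (i : Fin 8) (g : Equiv.Perm (V D)) :
    ∑ h : Equiv.Perm (Fin b), b4_nu D K b β (g * Equiv.Perm.viaEmbeddingHom (blk β i) h) ≤
      3 * (b.factorial : ℝ) / ((8 * b).factorial : ℝ) := by
  classical
  set x : Fin (7 * b) ↪ V D := (b4_enum b i).trans β.toEmbedding with hx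
  have hfix : ∀ (h : Equiv.Perm (Fin b)) (j : Fin (7 * b)),
      (Equiv.Perm.viaEmbeddingHom (blk β i) h) (x j) = x j := by
    intro h j
    rw [Equiv.Perm.viaEmbeddingHom_apply]
    refine Equiv.Perm.viaEmbedding_apply_of_notMem _ _ _ ?_
    rintro ⟨c, hc⟩
    have h1 : β (i, c) = β (b4_enum b i j) := hc
    have h2 := β.injective h1
    exact b4_enum_ne b i j (by rw [← h2])
  have hinj : Function.Injective (Equiv.Perm.viaEmbeddingHom (blk β i)) :=
    Equiv.Perm.viaEmbeddingHom_injective _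
  have h1 := hS D K (7 * b) x (fun j => (1 + 1 / (2 : ℝ) ^ D) / ((2 : ℝ) ^ D - (j : ℕ)))
    (fun j => by
      have hj : ((j : ℕ) : ℝ) + 1 ≤ 7 * b := by
        have := j.isLt
        exact_mod_cast this
      have hnR : (2 : ℝ) ^ D = 8 * b := by exact_mod_cast hn
      have hbR : (0 : ℝ) < b := by exact_mod_cast hb
      have : (0 : ℝ) < (2 : ℝ) ^ D - (j : ℕ) := by rw [hnR]; linarith
      positivity) (fun j => g (x j))
  have h2 : ∏ j : Fin (7 * b), ((1 + 1 / (2 : ℝ) ^ D) / ((2 : ℝ) ^ D - (j : ℕ))) ≤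
      3 * (b.factorial : ℝ) / ((8 * b).factorial : ℝ) := by
    have h3 := b4_prod b hb (2 ^ D) hn
    push_cast at h3
    exact h3
  refine le_trans ?_ (le_trans h1 h2)
  unfold b4_nu
  rw [← Finset.expect_sum_comm]
  refine Finset.expect_le_expect (fun a _ => ?_)
  by_cases hc : (∀ j p, evolves D (front x j) K a (Pi.single (x j) 1) p ≤
      (1 + 1 / (2 : ℝ) ^ D) / ((2 : ℝ) ^ D - (j : ℕ))) ∧ (∀ j, passes D K a (x j) = g (x j))
  · rw [if_pos hc, Finset.sum_boole]
    have : (Finset.univ.filter (fun h : Equiv.Perm (Fin b) => (∀ i, b4_good D K b β i a) ∧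
        passes D K a = g * Equiv.Perm.viaEmbeddingHom (blk β i) h)).card ≤ 1 := by
      rw [Finset.card_le_one]
      intro h hh h' hh'
      have e1 := (Finset.mem_filter.mp hh).2.2
      have e2 := (Finset.mem_filter.mp hh').2.2
      rw [e1] at e2
      exact hinj (mul_left_cancel e2)
    exact_mod_cast this
  · rw [if_neg hc]
    refine le_of_eq (Finset.sum_eq_zero (fun h _ => ?_))
    rw [if_neg]
    rintro ⟨e1, e2⟩
    refine hc ⟨fun j p => e1 i j p, fun j => ?_⟩
    rw [e2, Equiv.Perm.mul_apply, hfix]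

/-- Failure probability bound (one card). -/
noncomputable def b4_fail (s0 D T : ℕ) : ℝ :=
  (2 * T : ℕ) * ((2 : ℝ) ^ (D + 1) * (49 / 50 : ℝ) ^ (2 ^ s0)) +
      ((2 : ℝ) ^ D * 2 ^ D) ^ 2 * (((31 / 15) * (31 / 32 : ℝ) ^ (D - s0)) ^ T * 4)

theorem b4_choose (hE : B4Energy) (hC : B4Const) (hR : B4Reg)
    (s0 D T : ℕ) (hD : s0 ≤ D) (b : ℕ) (hn : 2 ^ D = 8 * b) (ε : ℝ)
    (hε : 8 * (7 * b : ℕ) * b4_fail s0 D T ≤ ε) :
    ∃ β : Fin 8 × Fin b ≃ V D, 1 - ε ≤ ∑ g, b4_nu D (2 * T) b β g := by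
  classical
  have hcard : Fintype.card (Fin 8 × Fin b) = Fintype.card (V D) := by
    rw [card_V, Fintype.card_prod, Fintype.card_fin, Fintype.card_fin, hn]
  let β₀ : Fin 8 × Fin b ≃ V D := Fintype.equivOfCardEq hcard
  have hpt : ∀ σ : Equiv.Perm (V D), 1 - ∑ g, b4_nu D (2 * T) b (β₀.trans σ) g ≤
      ∑ i : Fin 8, ∑ j : Fin (7 * b), 𝔼 a : Fin (2 * T) → Coins D,
        if ∀ p, evolves D (front (((b4_enum b i).trans β₀.toEmbedding).trans σ.toEmbedding) j)
          (2 * T) a (Pi.single (((b4_enum b i).trans β₀.toEmbedding).trans σ.toEmbedding j) 1) p ≤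
            (1 + 1 / (2 : ℝ) ^ D) / ((2 : ℝ) ^ D - (j : ℕ)) then (0 : ℝ) else 1 := by
    intro σ
    have h1 : 1 - ∑ g, b4_nu D (2 * T) b (β₀.trans σ) g = 𝔼 a : Fin (2 * T) → Coins D,
        if (∀ i, b4_good D (2 * T) b (β₀.trans σ) i a) then (0 : ℝ) else 1 := by
      rw [b4_nu_sum, eq_comm, eq_sub_iff_add_eq, ← Finset.expect_add_distrib]
      refine Eq.trans (Finset.expect_congr rfl (g := fun _ => (1 : ℝ)) (fun a _ => ?_))
        (Finset.expect_const Finset.univ_nonempty _)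
      split_ifs <;> norm_num
    rw [h1]
    simp_rw [← Finset.expect_sum_comm]
    refine Finset.expect_le_expect (fun a _ => ?_)
    have hnn : ∀ (i : Fin 8) (j : Fin (7 * b)), (0 : ℝ) ≤ (if ∀ p, evolves D
        (front (((b4_enum b i).trans β₀.toEmbedding).trans σ.toEmbedding) j)
          (2 * T) a (Pi.single (((b4_enum b i).trans β₀.toEmbedding).trans σ.toEmbedding j) 1) p ≤
            (1 + 1 / (2 : ℝ) ^ D) / ((2 : ℝ) ^ D - (j : ℕ)) then (0 : ℝ) else 1) := by
      intro i j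
      split_ifs <;> norm_num
    by_cases h : ∀ i, b4_good D (2 * T) b (β₀.trans σ) i a
    · rw [if_pos h]
      exact Finset.sum_nonneg (fun i _ => Finset.sum_nonneg (fun j _ => hnn i j))
    · rw [if_neg h]
      push Not at h
      obtain ⟨i, hi⟩ := h
      rw [b4_good] at hi
      push Not at hi
      obtain ⟨j, p, hp⟩ := hi
      have h3 : (1 : ℝ) ≤ (if ∀ p, evolves D
        (front (((b4_enum b i).trans β₀.toEmbedding).trans σ.toEmbedding) j)
          (2 * T) a (Pi.single (((b4_enum b i).trans β₀.toEmbedding).trans σ.toEmbedding j) 1) p ≤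
            (1 + 1 / (2 : ℝ) ^ D) / ((2 : ℝ) ^ D - (j : ℕ)) then (0 : ℝ) else 1) := by
        rw [if_neg]
        intro h2
        exact absurd (h2 p) (not_le.mpr hp)
      exact le_trans h3 (le_trans
        (Finset.single_le_sum (f := fun j => (if ∀ p, evolves D
        (front (((b4_enum b i).trans β₀.toEmbedding).trans σ.toEmbedding) j)
          (2 * T) a (Pi.single (((b4_enum b i).trans β₀.toEmbedding).trans σ.toEmbedding j) 1) p ≤
            (1 + 1 / (2 : ℝ) ^ D) / ((2 : ℝ) ^ D - (j : ℕ)) then (0 : ℝ) else 1))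
            (fun j _ => hnn i j) (Finset.mem_univ j))
        (Finset.single_le_sum (f := fun i => ∑ j : Fin (7 * b), (if ∀ p, evolves D
        (front (((b4_enum b i).trans β₀.toEmbedding).trans σ.toEmbedding) j)
          (2 * T) a (Pi.single (((b4_enum b i).trans β₀.toEmbedding).trans σ.toEmbedding j) 1) p ≤
            (1 + 1 / (2 : ℝ) ^ D) / ((2 : ℝ) ^ D - (j : ℕ)) then (0 : ℝ) else 1))
            (fun i _ => Finset.sum_nonneg (fun j _ => hnn i j)) (Finset.mem_univ i)))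
  have havg : 𝔼 σ : Equiv.Perm (V D), (1 - ∑ g, b4_nu D (2 * T) b (β₀.trans σ) g) ≤ ε := by
    refine le_trans (Finset.expect_le_expect (fun σ _ => hpt σ)) ?_
    simp_rw [Finset.expect_sum_comm]
    refine le_trans ?_ hε
    have h3 : ∀ (i : Fin 8) (j : Fin (7 * b)), (𝔼 σ : Equiv.Perm (V D),
        𝔼 a : Fin (2 * T) → Coins D,
        if ∀ p, evolves D (front (((b4_enum b i).trans β₀.toEmbedding).trans σ.toEmbedding) j)
          (2 * T) a (Pi.single (((b4_enum b i).trans β₀.toEmbedding).trans σ.toEmbedding j) 1) p ≤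
            (1 + 1 / (2 : ℝ) ^ D) / ((2 : ℝ) ^ D - (j : ℕ)) then (0 : ℝ) else 1) ≤
        b4_fail s0 D T := by
      intro i j
      have h4 := b4_average hE hC hR s0 D T hD b hn ((b4_enum b i).trans β₀.toEmbedding) j
      refine le_trans (le_of_eq ?_) h4
      refine Finset.expect_congr rfl (fun σ _ => Finset.expect_congr rfl (fun a _ => ?_))
      congr 1
    calc _ ≤ ∑ i : Fin 8, ∑ j : Fin (7 * b), b4_fail s0 D T :=
          Finset.sum_le_sum (fun i _ => Finset.sum_le_sum (fun j _ => h3 i j))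
      _ = 8 * (7 * b : ℕ) * b4_fail s0 D T := by
          rw [Finset.sum_const, Finset.sum_const, Finset.card_univ, Finset.card_univ,
            Fintype.card_fin, Fintype.card_fin, nsmul_eq_mul, nsmul_eq_mul]
          push_cast
          ring
  obtain ⟨σ, _, hσ⟩ := Finset.exists_le_of_expect_le Finset.univ_nonempty havg
  exact ⟨β₀.trans σ, by linarith⟩

theorem b4_fail_tendsto : Tendsto (fun d : ℕ =>
    8 * ((7 * 2 ^ d : ℕ) : ℝ) * b4_fail ((d + 3) / 4) (d + 3) 399) atTop (𝓝 0) := by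
  -- the two majorants
  have hN : Tendsto (fun d : ℕ => 2 ^ ((d + 3) / 4)) atTop atTop := by
    have h1 : Tendsto (fun s : ℕ => 2 ^ s) atTop atTop :=
      tendsto_pow_atTop_atTop_of_one_lt (by norm_num : (1 : ℕ) < 2)
    refine h1.comp ?_
    refine tendsto_atTop.mpr (fun n => ?_)
    filter_upwards [eventually_ge_atTop (4 * n)] with d hd
    omega
  have hA : Tendsto (fun d : ℕ => (11172 * 64 : ℝ) *
      ((((2 ^ ((d + 3) / 4) : ℕ) : ℝ)) ^ 8 * (49 / 50 : ℝ) ^ (2 ^ ((d + 3) / 4)))) atTop (𝓝 0) := by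
    have h1 := (tendsto_pow_const_mul_const_pow_of_abs_lt_one 8
      (by rw [abs_of_pos (by norm_num)]; norm_num : |(49 / 50 : ℝ)| < 1)).comp hN
    have h2 := h1.const_mul (11172 * 64 : ℝ)
    rw [mul_zero] at h2
    exact h2
  have hB : Tendsto (fun d : ℕ => (28 * (31 / 15 : ℝ) ^ 399) * (1 / 2 : ℝ) ^ (d + 3))
      atTop (𝓝 0) := by
    have h1 : Tendsto (fun d : ℕ => (1 / 2 : ℝ) ^ (d + 3)) atTop (𝓝 0) :=
      (tendsto_pow_atTop_nhds_zero_of_lt_one (by norm_num) (by norm_num)).comp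
        (tendsto_add_atTop_nat 3)
    have h2 := h1.const_mul (28 * (31 / 15 : ℝ) ^ 399)
    rw [mul_zero] at h2
    exact h2
  have hAB := hA.add hB
  rw [add_zero] at hAB
  refine squeeze_zero (fun d => ?_) (fun d => ?_) hAB
  · unfold b4_fail
    positivity
  · set D := d + 3 with hD
    set s := D / 4 with hs
    have e1 : (((7 * 2 ^ d : ℕ) : ℝ)) * 8 = 7 * 2 ^ D := by
      rw [hD]; push_cast; ring
    have e2 : (2 : ℝ) ^ D ≤ 8 * ((2 ^ s : ℕ) : ℝ) ^ 4 := by
      have h1 : (2 : ℝ) ^ D ≤ 2 ^ (4 * s + 3) := by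
        apply pow_le_pow_right₀ (by norm_num)
        omega
      refine le_trans h1 (le_of_eq ?_)
      push_cast
      rw [pow_add, ← pow_mul, mul_comm s 4]
      ring
    have e3 : ((31 / 32 : ℝ) ^ (D - s)) ^ 399 ≤ ((31 / 32 : ℝ) ^ 299) ^ D := by
      rw [← pow_mul, ← pow_mul]
      apply pow_le_pow_of_le_one (by norm_num) (by norm_num)
      omega
    have e4 : (32 : ℝ) * (31 / 32 : ℝ) ^ 299 ≤ 1 / 2 := by
      have h1 : (31 / 32 : ℝ) ^ 150 ≤ 1 / 8 := by norm_num
      have h2 : (31 / 32 : ℝ) ^ 149 ≤ 1 / 8 := by norm_num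
      have h3 : (31 / 32 : ℝ) ^ 299 = (31 / 32 : ℝ) ^ 150 * (31 / 32 : ℝ) ^ 149 := by
        rw [← pow_add]
      rw [h3]
      have h4 : (31 / 32 : ℝ) ^ 150 * (31 / 32 : ℝ) ^ 149 ≤ (1 / 8) * (1 / 8) :=
        mul_le_mul h1 h2 (by positivity) (by norm_num)
      linarith
    have e5 : ((2 : ℝ) ^ D) ^ 5 * ((31 / 32 : ℝ) ^ (D - s)) ^ 399 ≤ (1 / 2) ^ D := by
      calc ((2 : ℝ) ^ D) ^ 5 * ((31 / 32 : ℝ) ^ (D - s)) ^ 399
          ≤ ((2 : ℝ) ^ D) ^ 5 * ((31 / 32 : ℝ) ^ 299) ^ D :=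
            mul_le_mul_of_nonneg_left e3 (by positivity)
        _ = (32 * (31 / 32 : ℝ) ^ 299) ^ D := by
            rw [← pow_mul, mul_comm D 5, pow_mul, ← mul_pow]
            norm_num
        _ ≤ (1 / 2) ^ D := pow_le_pow_left₀ (by positivity) e4 D
    have e6 : ((2 : ℝ) ^ D) ^ 2 ≤ 64 * ((2 ^ s : ℕ) : ℝ) ^ 8 := by
      calc ((2 : ℝ) ^ D) ^ 2 ≤ (8 * ((2 ^ s : ℕ) : ℝ) ^ 4) ^ 2 :=
            pow_le_pow_left₀ (by positivity) e2 2
        _ = _ := by ring
    calc 8 * ((7 * 2 ^ d : ℕ) : ℝ) * b4_fail s D 399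
        = 11172 * (((2 : ℝ) ^ D) ^ 2 * (49 / 50 : ℝ) ^ (2 ^ s)) +
          (28 * (31 / 15 : ℝ) ^ 399) * (((2 : ℝ) ^ D) ^ 5 * ((31 / 32 : ℝ) ^ (D - s)) ^ 399) := by
          rw [mul_comm 8 _, e1]
          unfold b4_fail
          generalize (49 / 50 : ℝ) ^ (2 ^ s) = A
          rw [mul_pow (31 / 15 : ℝ)]
          generalize (31 / 15 : ℝ) ^ 399 = B
          generalize ((31 / 32 : ℝ) ^ (D - s)) ^ 399 = C
          push_cast
          rw [pow_succ]
          generalize (2 : ℝ) ^ D = M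
          ring
      _ ≤ 11172 * ((64 * ((2 ^ s : ℕ) : ℝ) ^ 8) * (49 / 50 : ℝ) ^ (2 ^ s)) +
          (28 * (31 / 15 : ℝ) ^ 399) * (1 / 2) ^ D := by
          refine add_le_add ?_ ?_
          · exact mul_le_mul_of_nonneg_left
              (mul_le_mul_of_nonneg_right e6 (by positivity)) (by norm_num)
          · exact mul_le_mul_of_nonneg_left e5 (by positivity)
      _ = _ := by ring

theorem prob_main_of (hE : B4Energy) (hC : B4Const) (hR : B4Reg) (hS : B4Seq)
    (ε : ℝ) (hε : 0 < ε) :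
    ∀ᶠ d : ℕ in atTop, ∃ (β : Fin 8 × Fin (2 ^ d) ≃ V (d + 3)) (ν : Equiv.Perm (V (d + 3)) → ℝ),
      (∀ g, 0 ≤ ν g) ∧ (∀ g, ν g ≤ passLaw (d + 3) 798 g) ∧ 1 - ε ≤ ∑ g, ν g ∧
      ∀ (i : Fin 8) (g : Equiv.Perm (V (d + 3))),
        ∑ h : Equiv.Perm (Fin (2 ^ d)), ν (g * Equiv.Perm.viaEmbeddingHom (blk β i) h) ≤
          3 * ((2 ^ d).factorial : ℝ) / ((8 * 2 ^ d).factorial : ℝ) := by
  filter_upwards [b4_fail_tendsto.eventually_le_const hε] with d hd
  have hn : 2 ^ (d + 3) = 8 * 2 ^ d := by rw [pow_add]; ring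
  obtain ⟨β, hβ⟩ := b4_choose hE hC hR ((d + 3) / 4) (d + 3) 399 (by omega) (2 ^ d) hn ε hd
  exact ⟨β, b4_nu (d + 3) (2 * 399) (2 ^ d) β, b4_nu_nonneg _ _ _ _, b4_nu_le _ _ _ _, hβ,
    fun i g => b4_coset hS (d + 3) (2 * 399) (2 ^ d) (by positivity) hn β i g⟩

end Crest.Agent.Thorp
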