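import Crest.Agent.Lib.Row155.Alt.Defs
import Crest.Agent.Lib.Row155.T2
/-!
Row 155 (Thorp shuffle), second proof, chunk B5: first layer, composition of passes.
-/
set_option autoImplicit false
open Finset
open scoped BigOperators

namespace Crest.Agent.Thorp

theorem passLaw_nonneg (D K : ℕ) (g : Equiv.Perm (V D)) : 0 ≤ passLaw D K g := by
  unfold passLaw
  refine Finset.expect_nonneg fun a _ => ?_
  split_ifs <;> norm_num

theorem passLaw_sum (D K : ℕ) : ∑ g, passLaw D K g = 1 := by
  unfold passLaw
  rw [← Finset.expect_sum_comm]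
  rw [Finset.expect_congr rfl (g := fun _ => (1 : ℝ))]
  · exact Finset.expect_const Finset.univ_nonempty _
  · intro a _
    simp

theorem passLaw_zero (D : ℕ) (g : Equiv.Perm (V D)) : passLaw D 0 g = if 1 = g then 1 else 0 := by
  unfold passLaw
  exact Finset.expect_const Finset.univ_nonempty _

theorem passLaw_add (D K K' : ℕ) :
    passLaw D (K + K') = conv (passLaw D K') (passLaw D K) := by
  induction K' with
  | zero =>
    funext g
    unfold conv
    simp only [passLaw_zero, add_zero, ite_mul, one_mul, zero_mul]
    rw [Finset.sum_ite_eq]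
    simp
  | succ K' ih =>
    funext g
    rw [← add_assoc, passLaw_succ, ih]
    unfold conv
    have h1 : ∀ c : Coins D, ∑ h : Equiv.Perm (V D), passLaw D K' h *
        passLaw D K (h⁻¹ * ((pass D c)⁻¹ * g)) =
        ∑ h : Equiv.Perm (V D), passLaw D K' ((pass D c)⁻¹ * h) * passLaw D K (h⁻¹ * g) := by
      intro c
      refine Fintype.sum_equiv (Equiv.mulLeft (pass D c)) _ _ ?_
      intro h
      simp [mul_assoc]
    rw [Finset.expect_congr rfl (fun c _ => h1 c), Finset.expect_sum_comm]
    refine Finset.sum_congr rfl fun h _ => ?_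
    rw [← Finset.expect_mul, passLaw_succ]

/-- The pairs mixed by the first layer. -/
def eFirst : ∀ D, V D × Bool ≃ V (D + 1)
  | 0 =>
    { toFun := fun p => cons p.2 p.1
      invFun := fun q => (tl q, hd q)
      left_inv := by rintro ⟨v, b⟩; rfl
      right_inv := by intro q; rfl }
  | D + 1 =>
    { toFun := fun p => cons (hd p.1) (eFirst D (tl p.1, p.2))
      invFun := fun q => (cons (hd q) ((eFirst D).symm (tl q)).1, ((eFirst D).symm (tl q)).2)
      left_inv := by
        rintro ⟨v, b⟩
        simp
      right_inv := by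
        intro q
        simp }

theorem eFirst_zero_apply (v : V 0) (b : Bool) : eFirst 0 (v, b) = cons b v := rfl

theorem eFirst_succ_apply (D : ℕ) (v : V (D + 1)) (b : Bool) :
    eFirst (D + 1) (v, b) = cons (hd v) (eFirst D (tl v, b)) := rfl

/-- Change the coins of the half `b`. -/
def subFun {D : ℕ} (b : Bool) (F : Coins D → Coins D) (c : Coins (D + 1)) : Coins (D + 1) :=
  Coins.mk (fun h => if h = b then F (c.sub h) else c.sub h) c.top

theorem subFun_subFun {D : ℕ} (b : Bool) (F G : Coins D → Coins D) (hFG : ∀ c, G (F c) = c)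
    (c : Coins (D + 1)) : subFun b G (subFun b F c) = c := by
  have : (fun h => if h = b then G ((subFun b F c).sub h) else (subFun b F c).sub h) = c.sub := by
    funext h
    simp only [subFun, Coins.sub_mk]
    split_ifs
    · exact hFG _
    · rfl
  unfold subFun at this ⊢
  rw [this]
  exact Coins.mk_eta c

/-- `subFun` as an equivalence. -/
def subEquiv {D : ℕ} (b : Bool) (F : Coins D ≃ Coins D) : Coins (D + 1) ≃ Coins (D + 1) where
  toFun := subFun b F
  invFun := subFun b F.symm
  left_inv := subFun_subFun b F F.symm F.symm_apply_apply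
  right_inv := subFun_subFun b F.symm F F.apply_symm_apply

/-- Flip all coins of the last layer. -/
def negTop {D : ℕ} : Coins (D + 1) ≃ Coins (D + 1) where
  toFun := fun c => Coins.mk c.sub (fun w => !(c.top w))
  invFun := fun c => Coins.mk c.sub (fun w => !(c.top w))
  left_inv := by
    intro c
    show Coins.mk c.sub (fun w => !!(c.top w)) = c
    simp only [Bool.not_not]
    exact Coins.mk_eta c
  right_inv := by
    intro c
    show Coins.mk c.sub (fun w => !!(c.top w)) = c
    simp only [Bool.not_not]
    exact Coins.mk_eta c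

/-- Precomposition with the swap of an innermost pair is a bijection of the coins. -/
theorem exists_flipCoin : ∀ (D : ℕ) (v : V D), ∃ F : Coins (D + 1) ≃ Coins (D + 1),
    ∀ c, pass (D + 1) (F c) =
      pass (D + 1) c * Equiv.swap (eFirst D (v, false)) (eFirst D (v, true))
  | 0, v => by
    refine ⟨negTop, ?_⟩
    intro c
    ext p : 1
    rw [Equiv.Perm.mul_apply]
    have hN : negTop c = Coins.mk c.sub (fun w => !(c.top w)) := rfl
    rw [hN, pass_succ_apply, pass_succ_apply, eFirst_zero_apply, eFirst_zero_apply, Coins.sub_mk,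
      Coins.top_mk]
    have hv : v = tl p := Subsingleton.elim (α := Unit) _ _
    subst hv
    obtain ⟨b, w⟩ := p
    cases b
    · have : Equiv.swap (cons false (tl ((false, w) : V 1))) (cons true (tl ((false, w) : V 1)))
        ((false, w) : V 1) = cons true w := Equiv.swap_apply_left _ _
      rw [this, hd_cons, tl_cons]
      show cons (xor false (!(c.top _))) _ = cons (xor true (c.top _)) _
      rw [Bool.true_xor, Bool.false_xor]
      rfl
    · have : Equiv.swap (cons false (tl ((true, w) : V 1))) (cons true (tl ((true, w) : V 1)))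
        ((true, w) : V 1) = cons false w := Equiv.swap_apply_right _ _
      rw [this, hd_cons, tl_cons]
      show cons (xor true (!(c.top _))) _ = cons (xor false (c.top _)) _
      rw [Bool.true_xor, Bool.not_not, Bool.false_xor]
      rfl
  | D + 1, v => by
    obtain ⟨F, hF⟩ := exists_flipCoin D (tl v)
    refine ⟨subEquiv (hd v) F, ?_⟩
    intro c
    ext p : 1
    have hS : subEquiv (hd v) F c =
      Coins.mk (fun h => if h = hd v then F (c.sub h) else c.sub h) c.top := rfl
    rw [Equiv.Perm.mul_apply, hS, pass_succ_apply (D + 1), pass_succ_apply (D + 1),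
      eFirst_succ_apply, eFirst_succ_apply, Coins.sub_mk, Coins.top_mk]
    by_cases hp : hd p = hd v
    · have h1 : Equiv.swap (cons (hd v) (eFirst D (tl v, false)))
          (cons (hd v) (eFirst D (tl v, true))) p =
          cons (hd v) (Equiv.swap (eFirst D (tl v, false)) (eFirst D (tl v, true)) (tl p)) := by
        have hpp : p = cons (hd v) (tl p) := by rw [← hp, cons_hd_tl]
        have hinj : Function.Injective (fun w : V (D + 1) => cons (hd v) w) :=
          fun a b h => (cons_inj.1 h).2
        conv_lhs => rw [hpp]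
        exact (hinj.swap_apply (eFirst D (tl v, false)) (eFirst D (tl v, true)) (tl p)).symm ▸ rfl
      rw [h1, if_pos hp, hd_cons, tl_cons, hF, Equiv.Perm.mul_apply, hp]
    · have h1 : Equiv.swap (cons (hd v) (eFirst D (tl v, false)))
          (cons (hd v) (eFirst D (tl v, true))) p = p := by
        refine Equiv.swap_apply_of_ne_of_ne ?_ ?_
        · intro h; exact hp (by rw [h, hd_cons])
        · intro h; exact hp (by rw [h, hd_cons])
      rw [h1, if_neg hp]

theorem first_layer (D : ℕ) : ∃ e : V D × Bool ≃ V (D + 1), ∀ (K : ℕ) (g : Equiv.Perm (V (D + 1)))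
    (v : V D), passLaw (D + 1) (K + 1) (g * Equiv.swap (e (v, false)) (e (v, true))) =
      passLaw (D + 1) (K + 1) g := by
  refine ⟨eFirst D, fun K g v => ?_⟩
  obtain ⟨F, hF⟩ := exists_flipCoin D v
  have h1 : ∀ g : Equiv.Perm (V (D + 1)),
      passLaw (D + 1) 1 (g * Equiv.swap (eFirst D (v, false)) (eFirst D (v, true))) =
        passLaw (D + 1) 1 g := by
    intro g
    rw [passLaw_succ, passLaw_succ]
    simp only [passLaw_zero]
    refine Fintype.expect_equiv F _ _ ?_
    intro c
    have : (1 = (pass (D + 1) c)⁻¹ *
        (g * Equiv.swap (eFirst D (v, false)) (eFirst D (v, true)))) ↔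
        (1 = (pass (D + 1) (F c))⁻¹ * g) := by
      rw [hF, eq_inv_mul_iff_mul_eq, eq_inv_mul_iff_mul_eq, mul_one, mul_one,
        ← mul_inv_eq_iff_eq_mul, Equiv.swap_inv]
    simp only [this]
  rw [show K + 1 = 1 + K by ring, passLaw_add]
  unfold conv
  refine Finset.sum_congr rfl fun h _ => ?_
  rw [← mul_assoc, h1]

end Crest.Agent.Thorp
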