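import Crest.Agent.Lib.Row155.Defs2
/-!
Row 155 (Thorp shuffle), second proof: common definitions.

Probability side: residual kernel of one more card given the trajectories of a revealed set of cards.
Group side: Wedderburn (Peter-Weyl) data of a finite group.
-/
set_option autoImplicit false
open Finset
open scoped BigOperators Matrix

namespace Crest.Agent.Thorp

/-! ## Probability side -/

/-- The two coin tables give the same coins at all switches visited by the cards starting in `R`
(hence the same trajectories to these cards). -/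
def Agree : ∀ D, Finset (V D) → Coins D → Coins D → Prop
  | 0, _, _, _ => True
  | D + 1, R, c, c' =>
    (∀ h, Agree D (half D R h) (c.sub h) (c'.sub h)) ∧
      ∀ v, (occ D R c false v ∨ occ D R c true v) → c.top v = c'.top v

/-- Positions after `K` passes of the cards starting in `R`. -/
def moved (D K : ℕ) (a : Fin K → Coins D) (R : Finset (V D)) : Finset (V D) :=
  R.map (passes D K a).toEmbedding

/-- `Agree` for `K` consecutive passes. -/
def Agrees (D : ℕ) (R : Finset (V D)) : ∀ K : ℕ, (Fin K → Coins D) → (Fin K → Coins D) → Prop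
  | 0, _, _ => True
  | K + 1, a, b =>
    Agrees D R K (fun i => a i.castSucc) (fun i => b i.castSucc) ∧
      Agree D (moved D K (fun i => a i.castSucc) R) (a (Fin.last K)) (b (Fin.last K))

/-- Conditional evolution over `K` passes, given the trajectories of the cards starting in `R`. -/
noncomputable def evolves (D : ℕ) (R : Finset (V D)) :
    ∀ K : ℕ, (Fin K → Coins D) → (V D → ℝ) → V D → ℝ
  | 0, _, φ => φ
  | K + 1, a, φ =>
    evolve D (moved D K (fun i => a i.castSucc) R) (a (Fin.last K))
      (evolves D R K (fun i => a i.castSucc) φ)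

/-- At the start of each of the `K` passes the moved set is regular. -/
def RegAll (s0 : ℕ) (ρ : ℝ) (D : ℕ) (R : Finset (V D)) : ∀ K : ℕ, (Fin K → Coins D) → Prop
  | 0, _ => True
  | K + 1, a =>
    RegAll s0 ρ D R K (fun i => a i.castSucc) ∧
      Reg s0 ρ D (moved D K (fun i => a i.castSucc) R)

/-- The first cards `x i`, `i < j`, of the enumeration `x`. -/
def front {D k : ℕ} (x : Fin k ↪ V D) (j : Fin k) : Finset (V D) :=
  (Finset.univ.filter (fun i : Fin k => i < j)).map x

/-! ## Group side -/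

/-- The element of the group algebra with (real) coefficients `f`. -/
noncomputable def ma {G : Type*} [Group G] [Fintype G] (f : G → ℝ) : MonoidAlgebra ℂ G :=
  ∑ g, MonoidAlgebra.single g (f g : ℂ)

/-- Square of the `ℓ²` norm of the coefficients. -/
noncomputable def nsq {G : Type*} [Group G] [Fintype G] (x : MonoidAlgebra ℂ G) : ℝ :=
  ∑ g, ‖x.coeff g‖ ^ 2

/-- Square of the Hilbert-Schmidt norm. -/
noncomputable def hs {m : ℕ} (A : Matrix (Fin m) (Fin m) ℂ) : ℝ := ∑ i, ∑ j, ‖A i j‖ ^ 2

/-- Wedderburn data: a star isomorphism of `ℂ[G]` with a product of matrix algebras. -/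
structure PW (G : Type) [Group G] where
  m : ℕ
  d : Fin m → ℕ
  dpos : ∀ i, 0 < d i
  ρ : ∀ i, MonoidAlgebra ℂ G →ₐ[ℂ] Matrix (Fin (d i)) (Fin (d i)) ℂ
  bij : Function.Bijective (fun (x : MonoidAlgebra ℂ G) (i : Fin m) => ρ i x)
  unitary : ∀ i g, (ρ i (MonoidAlgebra.single g 1))ᴴ = ρ i (MonoidAlgebra.single g⁻¹ 1)

namespace PW
variable {G : Type} [Group G] (P : PW G)

/-- The element of `ℂ[G]` whose only nonzero component is the matrix `A` in block `i`. -/
noncomputable def inc (i : Fin P.m) (A : Matrix (Fin (P.d i)) (Fin (P.d i)) ℂ) :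
    MonoidAlgebra ℂ G :=
  (Equiv.ofBijective _ P.bij).symm (Pi.single i A)

/-- Central idempotent of block `i`. -/
noncomputable def e (i : Fin P.m) : MonoidAlgebra ℂ G := P.inc i 1

theorem ρ_inc (i j : Fin P.m) (A : Matrix (Fin (P.d i)) (Fin (P.d i)) ℂ) :
    P.ρ j (P.inc i A) =
      (Pi.single (M := fun j : Fin P.m => Matrix (Fin (P.d j)) (Fin (P.d j)) ℂ) i A) j := by
  have h := (Equiv.ofBijective _ P.bij).apply_symm_apply (Pi.single i A)
  exact congrFun h j

theorem ρ_inc_same (i : Fin P.m) (A : Matrix (Fin (P.d i)) (Fin (P.d i)) ℂ) :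
    P.ρ i (P.inc i A) = A := by rw [ρ_inc, Pi.single_eq_same]

theorem ρ_inc_ne {i j : Fin P.m} (h : j ≠ i) (A : Matrix (Fin (P.d i)) (Fin (P.d i)) ℂ) :
    P.ρ j (P.inc i A) = 0 := by rw [ρ_inc, Pi.single_eq_of_ne h]

theorem ext_of_ρ {x y : MonoidAlgebra ℂ G} (h : ∀ i, P.ρ i x = P.ρ i y) : x = y :=
  P.bij.1 (funext h)

end PW

/-- `Perm (Fin b)` acting on the range of `β`, as an algebra homomorphism of group algebras. -/
noncomputable def emb {X : Type} {b : ℕ} (β : Fin b ↪ X) :
    MonoidAlgebra ℂ (Equiv.Perm (Fin b)) →ₐ[ℂ] MonoidAlgebra ℂ (Equiv.Perm X) :=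
  MonoidAlgebra.mapDomainAlgHom ℂ ℂ (Equiv.Perm.viaEmbeddingHom β)

/-- The `i`-th block of the enumeration `β`. -/
def blk {X : Type} {k b : ℕ} (β : Fin k × Fin b ≃ X) (i : Fin k) : Fin b ↪ X :=
  ⟨fun a => β (i, a), fun a a' h => by simpa using h⟩

/-- Uniform average over the permutations supported in `S`. -/
noncomputable def eSym {X : Type} [Fintype X] [DecidableEq X] (S : Finset X) :
    MonoidAlgebra ℂ (Equiv.Perm X) :=
  ((S.card.factorial : ℂ)⁻¹) •
    ∑ h ∈ Finset.univ.filter (fun h : Equiv.Perm X => ∀ x, x ∉ S → h x = x),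
      MonoidAlgebra.single h (1 : ℂ)

/-- Level of a block of `ℂ[Perm X]`: the least `m` such that the permutations supported in the
complement of an `m`-set have a nonzero invariant vector. -/
noncomputable def PW.lev {X : Type} [Fintype X] [DecidableEq X] (P : PW (Equiv.Perm X))
    (v : Fin P.m) : ℕ :=
  sInf {m : ℕ | ∃ S : Finset X, Sᶜ.card = m ∧ P.ρ v (eSym S) ≠ 0}

/-- Bound for the number of conjugacy classes of the symmetric group on `i` letters. -/
def pc (i : ℕ) : ℕ := (i + 1) ^ (2 * (Nat.sqrt i + 1))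

/-- Final bound. -/
noncomputable def finalSum (b : ℕ) : ℝ :=
  ∑ i ∈ Finset.Icc 1 (8 * b), (pc i : ℝ) * (24 * ∑ i' ∈ Finset.range (i + 1), (pc i' : ℝ)) ^ 2 /
    Real.sqrt ((4 * b).choose (min ((i + 1) / 2) b) : ℝ)

end Crest.Agent.Thorp
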