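import Crest.Agent.Lib.Row155.Alt.Defs
/-!
Row 155 (Thorp shuffle), second proof, chunk G1: Wedderburn data of a finite group (helper76).
-/
set_option autoImplicit false
open Finset
open scoped BigOperators Matrix

namespace Crest.Agent.Thorp

section Unitarise

open scoped MatrixOrder ComplexOrder

/-- A representation of a finite group by matrices can be conjugated to a unitary one. -/
theorem g1_unitarise {G : Type} [Group G] [Finite G] {d : ℕ}
    (ρ : MonoidAlgebra ℂ G →ₐ[ℂ] Matrix (Fin d) (Fin d) ℂ) :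
    ∃ B C : Matrix (Fin d) (Fin d) ℂ, C * B = 1 ∧ B * C = 1 ∧ ∀ g : G,
      (B * ρ (MonoidAlgebra.single g 1) * C)ᴴ = B * ρ (MonoidAlgebra.single g⁻¹ 1) * C := by
  classical
  have := Fintype.ofFinite G
  set r : G → Matrix (Fin d) (Fin d) ℂ := fun g => ρ (MonoidAlgebra.single g 1) with hr
  have hr_mul : ∀ g h, r (g * h) = r g * r h := by
    intro g h
    simp only [hr]
    rw [← map_mul, MonoidAlgebra.single_mul_single, one_mul]
  have hr_one : r 1 = 1 := by
    simp only [hr]
    rw [← MonoidAlgebra.one_def, map_one]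
  set P : Matrix (Fin d) (Fin d) ℂ := ∑ g, (r g)ᴴ * r g with hP
  have hPsd : ∀ s : Finset G, (∑ g ∈ s, (r g)ᴴ * r g).PosSemidef := fun s =>
    Matrix.posSemidef_sum s (fun g _ => Matrix.posSemidef_conjTranspose_mul_self (r g))
  have hPd : P.PosDef := by
    rw [hP, ← Finset.add_sum_erase Finset.univ _ (Finset.mem_univ (1 : G))]
    refine Matrix.PosDef.add_posSemidef ?_ (hPsd _)
    rw [hr_one, Matrix.conjTranspose_one, one_mul]
    exact Matrix.PosDef.one
  obtain ⟨B, hB⟩ := CStarAlgebra.nonneg_iff_eq_star_mul_self.mp hPd.posSemidef.nonneg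
  have hBP : Bᴴ * B = P := by rw [hB]; rfl
  have hunit : IsUnit P := hPd.isUnit
  have hPinv : ∃ Q, Q * P = 1 := by
    obtain ⟨u, hu⟩ := hunit
    exact ⟨↑u⁻¹, by rw [← hu]; exact u.inv_mul⟩
  obtain ⟨Q, hQ⟩ := hPinv
  have hCB : (Q * Bᴴ) * B = 1 := by rw [mul_assoc, hBP, hQ]
  have hBC : B * (Q * Bᴴ) = 1 := mul_eq_one_comm.mp hCB
  set C := Q * Bᴴ with hC
  refine ⟨B, C, hCB, hBC, fun g => ?_⟩
  have hinv : ∀ h, (r h)ᴴ * P * r h = P := by
    intro h
    rw [hP, Finset.mul_sum, Finset.sum_mul]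
    refine (Fintype.sum_equiv (Equiv.mulRight h) _ _ (fun g => ?_))
    simp only [Equiv.coe_mulRight]
    rw [hr_mul, Matrix.conjTranspose_mul]
    simp only [mul_assoc]
  -- the conjugated matrix is unitary
  have hU : (B * r g * C)ᴴ * (B * r g * C) = 1 := by
    have h1 : (B * r g * C)ᴴ * (B * r g * C) = Cᴴ * ((r g)ᴴ * (Bᴴ * B) * r g) * C := by
      simp only [Matrix.conjTranspose_mul, mul_assoc]
    rw [h1, hBP, hinv g, ← hBP]
    have h2 : Cᴴ * (Bᴴ * B) * C = (B * C)ᴴ * (B * C) := by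
      simp only [Matrix.conjTranspose_mul, mul_assoc]
    rw [h2, hBC, Matrix.conjTranspose_one, one_mul]
  have hI : (B * r g * C) * (B * r g⁻¹ * C) = 1 := by
    have h3 : (B * r g * C) * (B * r g⁻¹ * C) = B * (r g * (C * B) * r g⁻¹) * C := by
      simp only [mul_assoc]
    rw [h3, hCB, mul_one, ← hr_mul, mul_inv_cancel, hr_one, mul_one, hBC]
  calc (B * r g * C)ᴴ = (B * r g * C)ᴴ * ((B * r g * C) * (B * r g⁻¹ * C)) := by
        rw [hI, mul_one]
    _ = ((B * r g * C)ᴴ * (B * r g * C)) * (B * r g⁻¹ * C) := (mul_assoc _ _ _).symm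
    _ = B * r g⁻¹ * C := by rw [hU, one_mul]

end Unitarise

theorem exists_PW (G : Type) [Group G] [Finite G] : Nonempty (PW G) := by
  classical
  have := Fintype.ofFinite G
  have : NeZero (Nat.card G : ℂ) := ⟨by
    have : Nat.card G ≠ 0 := Nat.card_pos.ne'
    exact_mod_cast this⟩
  have : FiniteDimensional ℂ (MonoidAlgebra ℂ G) :=
    Module.Finite.of_basis (MonoidAlgebra.basis G ℂ)
  obtain ⟨m, d, hd, ⟨Φ⟩⟩ :=
    IsSemisimpleRing.exists_algEquiv_pi_matrix_of_isAlgClosed ℂ (MonoidAlgebra ℂ G)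
  let ρ0 : ∀ i, MonoidAlgebra ℂ G →ₐ[ℂ] Matrix (Fin (d i)) (Fin (d i)) ℂ := fun i =>
    (Pi.evalAlgHom ℂ (fun i => Matrix (Fin (d i)) (Fin (d i)) ℂ) i).comp (Φ : _ →ₐ[ℂ] _)
  choose B C hCB hBC hU using fun i => g1_unitarise (ρ0 i)
  let cj : ∀ i, Matrix (Fin (d i)) (Fin (d i)) ℂ ≃ₐ[ℂ] Matrix (Fin (d i)) (Fin (d i)) ℂ := fun i =>
    { toFun := fun X => B i * X * C i
      invFun := fun X => C i * X * B i
      left_inv := fun X => by
        show C i * (B i * X * C i) * B i = X
        have : C i * (B i * X * C i) * B i = (C i * B i) * X * (C i * B i) := by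
          simp only [mul_assoc]
        rw [this, hCB, one_mul, mul_one]
      right_inv := fun X => by
        show B i * (C i * X * B i) * C i = X
        have : B i * (C i * X * B i) * C i = (B i * C i) * X * (B i * C i) := by
          simp only [mul_assoc]
        rw [this, hBC, one_mul, mul_one]
      map_mul' := fun X Y => by
        show B i * (X * Y) * C i = B i * X * C i * (B i * Y * C i)
        have : B i * X * C i * (B i * Y * C i) = B i * X * (C i * B i) * Y * C i := by
          simp only [mul_assoc]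
        rw [this, hCB, mul_one]
        simp only [mul_assoc]
      map_add' := fun X Y => by
        show B i * (X + Y) * C i = B i * X * C i + B i * Y * C i
        rw [mul_add, add_mul]
      commutes' := fun z => by
        show B i * (algebraMap ℂ _ z) * C i = algebraMap ℂ _ z
        rw [← Algebra.commutes, mul_assoc, hBC, mul_one] }
  refine ⟨⟨m, d, fun i => Nat.pos_of_ne_zero (hd i).out, fun i => (cj i : _ →ₐ[ℂ] _).comp (ρ0 i),
    ?_, fun i g => ?_⟩⟩
  · have hΦ : Function.Bijective Φ := Φ.bijective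
    constructor
    · intro x y hxy
      apply hΦ.1
      funext i
      have := congrFun hxy i
      exact (cj i).injective this
    · intro A
      obtain ⟨x, hx⟩ := hΦ.2 (fun i => (cj i).symm (A i))
      refine ⟨x, ?_⟩
      funext i
      show cj i (Φ x i) = A i
      rw [hx]
      exact (cj i).apply_symm_apply (A i)
  · exact hU i g

theorem g1_sum_single {G : Type*} [Group G] [Fintype G] (x : MonoidAlgebra ℂ G) :
    x = ∑ g, MonoidAlgebra.single g (x.coeff g) := by
  classical
  apply MonoidAlgebra.coeff_injective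
  rw [MonoidAlgebra.coeff_sum]
  ext g
  rw [Finsupp.finsetSum_apply]
  simp only [MonoidAlgebra.coeff_single, Finsupp.single_apply]
  rw [Finset.sum_ite_eq' Finset.univ g (fun h => x.coeff h)]
  simp

theorem g1_coeff_sum_single {G : Type*} [Group G] [Fintype G] (f : G → ℂ) (g : G) :
    (∑ h, MonoidAlgebra.single h (f h) : MonoidAlgebra ℂ G).coeff g = f g := by
  classical
  rw [MonoidAlgebra.coeff_sum, Finsupp.finsetSum_apply]
  simp only [MonoidAlgebra.coeff_single, Finsupp.single_apply]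
  rw [Finset.sum_ite_eq' Finset.univ g (fun h => f h)]
  simp

theorem ma_coeff {G : Type*} [Group G] [Fintype G] (f : G → ℝ) (g : G) :
    (ma f).coeff g = (f g : ℂ) := g1_coeff_sum_single (fun g => (f g : ℂ)) g

/-- The adjoint of an element of the group algebra. -/
noncomputable def g1_star {G : Type*} [Group G] [Fintype G] (x : MonoidAlgebra ℂ G) :
    MonoidAlgebra ℂ G :=
  ∑ g, MonoidAlgebra.single g⁻¹ (star (x.coeff g))

theorem PW.ρ_star {G : Type} [Group G] [Fintype G] (P : PW G) (i : Fin P.m)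
    (x : MonoidAlgebra ℂ G) : P.ρ i (g1_star x) = (P.ρ i x)ᴴ := by
  have h1 : ∀ (g : G) (z : ℂ), P.ρ i (MonoidAlgebra.single g z) =
      z • P.ρ i (MonoidAlgebra.single g 1) := by
    intro g z
    rw [← map_smul, MonoidAlgebra.smul_single, smul_eq_mul, mul_one]
  conv_rhs => rw [g1_sum_single x]
  rw [g1_star, map_sum, map_sum, Matrix.conjTranspose_sum]
  refine Finset.sum_congr rfl (fun g _ => ?_)
  rw [h1, h1 g, Matrix.conjTranspose_smul, P.unitary]

theorem g1_coeff_one_mul_star {G : Type*} [Group G] [Fintype G] (x : MonoidAlgebra ℂ G) :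
    (x * g1_star x).coeff 1 = (nsq x : ℂ) := by
  classical
  rw [g1_star, Finset.mul_sum, MonoidAlgebra.coeff_sum, Finsupp.finsetSum_apply, nsq]
  push_cast
  refine Finset.sum_congr rfl (fun g _ => ?_)
  rw [MonoidAlgebra.coeff_mul_single_eq_coeff_mul g]
  · rw [Complex.star_def, Complex.mul_conj, Complex.normSq_eq_norm_sq]
    push_cast
    rfl
  · intro m' _
    constructor
    · intro h
      exact mul_inv_eq_one.mp h
    · rintro rfl
      exact mul_inv_cancel _

theorem g1_hs_eq {m : ℕ} (A : Matrix (Fin m) (Fin m) ℂ) : ((hs A : ℝ) : ℂ) = (A * Aᴴ).trace := by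
  rw [hs, Matrix.trace]
  push_cast
  refine Finset.sum_congr rfl (fun i _ => ?_)
  rw [Matrix.diag_apply, Matrix.mul_apply]
  refine Finset.sum_congr rfl (fun j _ => ?_)
  rw [Matrix.conjTranspose_apply, Complex.star_def, Complex.mul_conj, Complex.normSq_eq_norm_sq]
  push_cast
  rfl

/-- Trace of the regular representation. -/
theorem g1_trace_reg {G : Type*} [Group G] [Fintype G] (x : MonoidAlgebra ℂ G) :
    LinearMap.trace ℂ (MonoidAlgebra ℂ G) (LinearMap.mulLeft ℂ x) =
      (Fintype.card G : ℂ) * x.coeff 1 := by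
  classical
  rw [LinearMap.trace_eq_matrix_trace ℂ (MonoidAlgebra.basis G ℂ), Matrix.trace]
  have : ∀ g : G, (LinearMap.toMatrix (MonoidAlgebra.basis G ℂ) (MonoidAlgebra.basis G ℂ)
      (LinearMap.mulLeft ℂ x)).diag g = x.coeff 1 := by
    intro g
    rw [Matrix.diag_apply, LinearMap.toMatrix_apply, MonoidAlgebra.basis_apply,
      LinearMap.mulLeft_apply]
    show (x * MonoidAlgebra.single g 1).coeff g = x.coeff 1
    rw [MonoidAlgebra.coeff_mul_single_eq_coeff_mul 1, mul_one]
    intro m' _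
    exact mul_eq_right
  rw [Finset.sum_congr rfl (fun g _ => this g), Finset.sum_const, Finset.card_univ, nsmul_eq_mul]

/-- Trace of left multiplication on a product of matrix algebras. -/
theorem g1_trace_pi {m : ℕ} {d : Fin m → ℕ} (A : ∀ i, Matrix (Fin (d i)) (Fin (d i)) ℂ) :
    LinearMap.trace ℂ (∀ i, Matrix (Fin (d i)) (Fin (d i)) ℂ) (LinearMap.mulLeft ℂ A) =
      ∑ i, (d i : ℂ) * (A i).trace := by
  classical
  let bs := Pi.basis (fun i => Matrix.stdBasis ℂ (Fin (d i)) (Fin (d i)))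
  rw [LinearMap.trace_eq_matrix_trace ℂ bs, Matrix.trace, Fintype.sum_sigma]
  refine Finset.sum_congr rfl (fun i _ => ?_)
  rw [Fintype.sum_prod_type, Matrix.trace, Finset.mul_sum]
  refine Finset.sum_congr rfl (fun a _ => ?_)
  have : ∀ b : Fin (d i), (LinearMap.toMatrix bs bs (LinearMap.mulLeft ℂ A)).diag ⟨i, (a, b)⟩ =
      (A i).diag a := by
    intro b
    rw [Matrix.diag_apply, LinearMap.toMatrix_apply, LinearMap.mulLeft_apply]
    simp only [bs]
    rw [Pi.basis_repr, Pi.basis_apply, Matrix.stdBasis_eq_single]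
    have h2 : (A * (Pi.single i (Matrix.single a b (1 : ℂ)) :
        ∀ i, Matrix (Fin (d i)) (Fin (d i)) ℂ)) i = A i * Matrix.single a b 1 := by
      rw [Pi.mul_apply, Pi.single_eq_same]
    rw [h2]
    show (A i * (Matrix.single a b 1 : Matrix (Fin (d i)) (Fin (d i)) ℂ)) a b = A i a a
    rw [Matrix.mul_single_apply_same, mul_one]
  rw [Finset.sum_congr rfl (fun b _ => this b), Finset.sum_const, Finset.card_univ,
    Fintype.card_fin, nsmul_eq_mul]

/-- The isomorphism as an algebra isomorphism. -/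
noncomputable def PW.Φ {G : Type} [Group G] (P : PW G) :
    MonoidAlgebra ℂ G ≃ₐ[ℂ] (∀ i : Fin P.m, Matrix (Fin (P.d i)) (Fin (P.d i)) ℂ) :=
  AlgEquiv.ofBijective (AlgHom.pi P.ρ) P.bij

theorem PW.Φ_apply {G : Type} [Group G] (P : PW G) (x : MonoidAlgebra ℂ G) (i : Fin P.m) :
    P.Φ x i = P.ρ i x := rfl

theorem PW.trace_formula {G : Type} [Group G] [Fintype G] (P : PW G) (x : MonoidAlgebra ℂ G) :
    (Fintype.card G : ℂ) * x.coeff 1 = ∑ i, (P.d i : ℂ) * (P.ρ i x).trace := by
  rw [← g1_trace_reg]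
  have h := g1_trace_pi (fun i => P.ρ i x)
  rw [← h, ← LinearMap.trace_conj' (LinearMap.mulLeft ℂ x) P.Φ.toLinearEquiv]
  congr 1
  apply LinearMap.ext
  intro y
  rw [LinearEquiv.conj_apply_apply, LinearMap.mulLeft_apply, LinearMap.mulLeft_apply]
  show P.Φ (x * P.Φ.symm y) = _
  rw [map_mul, AlgEquiv.apply_symm_apply]
  rfl

theorem PW.plancherel {G : Type} [Group G] [Fintype G] (P : PW G) (x : MonoidAlgebra ℂ G) :
    (Fintype.card G : ℝ) * nsq x = ∑ i, (P.d i : ℝ) * hs (P.ρ i x) := by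
  have h := P.trace_formula (x * g1_star x)
  rw [g1_coeff_one_mul_star] at h
  have h2 : ∀ i : Fin P.m, (P.ρ i (x * g1_star x)).trace = ((hs (P.ρ i x) : ℝ) : ℂ) := by
    intro i
    rw [map_mul, P.ρ_star, g1_hs_eq]
  rw [Finset.sum_congr rfl (fun i _ => by rw [h2 i])] at h
  exact_mod_cast h

theorem ma_conv {G : Type} [Group G] [Fintype G] (f g : G → ℝ) : ma (conv f g) = ma f * ma g := by
  classical
  apply MonoidAlgebra.coeff_injective
  ext x
  rw [ma_coeff, conv]
  rw [show ma f = ∑ h, MonoidAlgebra.single h (f h : ℂ) from rfl, Finset.sum_mul,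
    MonoidAlgebra.coeff_sum, Finsupp.finsetSum_apply]
  push_cast
  refine Finset.sum_congr rfl (fun h _ => ?_)
  rw [MonoidAlgebra.coeff_single_mul_eq_mul_coeff (h⁻¹ * x), ma_coeff]
  intro m' _
  constructor
  · rintro rfl
    rw [inv_mul_cancel_left]
  · rintro rfl
    rw [mul_inv_cancel_left]

end Crest.Agent.Thorp
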