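import Crest.Agent.Lib.Row155.Alt.Defs
/-!
Row 155 (Thorp shuffle), second proof, chunk G2: bound for one irreducible (helper73).
-/
set_option autoImplicit false
open Finset
open scoped BigOperators Matrix

namespace Crest.Agent.Thorp

/-! ### Young's inequality -/

section young
variable {G : Type} [Group G] [Fintype G]

theorem G2_coeff_ma (f : G → ℝ) (g : G) : (ma f).coeff g = (f g : ℂ) := by
  classical
  unfold ma
  simp only [MonoidAlgebra.coeff_sum, MonoidAlgebra.coeff_single, Finsupp.coe_finsetSum,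
    Finset.sum_apply, Finsupp.single_apply]
  simp

theorem G2_eq_sum (y : MonoidAlgebra ℂ G) :
    y = ∑ g, MonoidAlgebra.single g (y.coeff g) := by
  classical
  ext g
  simp only [MonoidAlgebra.coeff_sum, MonoidAlgebra.coeff_single, Finsupp.coe_finsetSum,
    Finset.sum_apply, Finsupp.single_apply]
  simp

end young

theorem G2_emb_eq {X : Type} [Fintype X] [DecidableEq X] {b : ℕ} (β : Fin b ↪ X)
    (p : MonoidAlgebra ℂ (Equiv.Perm (Fin b))) :
    emb β p = ∑ h, MonoidAlgebra.single (Equiv.Perm.viaEmbeddingHom β h) (p.coeff h) := by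
  conv_lhs => rw [G2_eq_sum p]
  rw [map_sum]
  refine Finset.sum_congr rfl (fun h _ => ?_)
  simp [emb]

/-- Young's inequality on cosets. -/
theorem coset_young {X : Type} [Fintype X] [DecidableEq X] {b : ℕ} (β : Fin b ↪ X)
    (ν : Equiv.Perm X → ℝ) (hν : ∀ g, 0 ≤ ν g) (hmass : ∑ g, ν g ≤ 1) (C : ℝ)
    (hcos : ∀ g, ∑ h : Equiv.Perm (Fin b), ν (g * Equiv.Perm.viaEmbeddingHom β h) ≤ C)
    (p : MonoidAlgebra ℂ (Equiv.Perm (Fin b))) :
    nsq (ma ν * emb β p) ≤ C * nsq p := by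
  have hC : 0 ≤ C := (Finset.sum_nonneg (fun h _ => hν _)).trans (hcos 1)
  have hcoef : ∀ x, (ma ν * emb β p).coeff x =
      ∑ h : Equiv.Perm (Fin b), (ν (x * (Equiv.Perm.viaEmbeddingHom β h)⁻¹) : ℂ) * p.coeff h := by
    intro x
    rw [G2_emb_eq, Finset.mul_sum, MonoidAlgebra.coeff_sum, Finsupp.coe_finsetSum,
      Finset.sum_apply]
    refine Finset.sum_congr rfl (fun h _ => ?_)
    rw [MonoidAlgebra.coeff_mul_single_apply, G2_coeff_ma]
  have hpt : ∀ x, ‖(ma ν * emb β p).coeff x‖ ^ 2 ≤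
      C * ∑ h : Equiv.Perm (Fin b), ν (x * (Equiv.Perm.viaEmbeddingHom β h)⁻¹) * ‖p.coeff h‖ ^ 2 := by
    intro x
    rw [hcoef]
    have h1 : ‖∑ h : Equiv.Perm (Fin b), (ν (x * (Equiv.Perm.viaEmbeddingHom β h)⁻¹) : ℂ) *
        p.coeff h‖ ≤ ∑ h : Equiv.Perm (Fin b),
          ν (x * (Equiv.Perm.viaEmbeddingHom β h)⁻¹) * ‖p.coeff h‖ := by
      refine (norm_sum_le _ _).trans (le_of_eq (Finset.sum_congr rfl (fun h _ => ?_)))
      rw [norm_mul, Complex.norm_real, Real.norm_of_nonneg (hν _)]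
    have h2 : (∑ h : Equiv.Perm (Fin b),
          ν (x * (Equiv.Perm.viaEmbeddingHom β h)⁻¹) * ‖p.coeff h‖) ^ 2 ≤
        (∑ h : Equiv.Perm (Fin b), ν (x * (Equiv.Perm.viaEmbeddingHom β h)⁻¹)) *
        ∑ h : Equiv.Perm (Fin b), ν (x * (Equiv.Perm.viaEmbeddingHom β h)⁻¹) * ‖p.coeff h‖ ^ 2 := by
      refine Finset.sum_sq_le_sum_mul_sum_of_sq_le_mul _ (fun h _ => hν _)
        (fun h _ => mul_nonneg (hν _) (sq_nonneg _)) (fun h _ => le_of_eq ?_)
      ring
    have h3 : (∑ h : Equiv.Perm (Fin b), ν (x * (Equiv.Perm.viaEmbeddingHom β h)⁻¹)) ≤ C := by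
      refine le_trans (le_of_eq ?_) (hcos x)
      refine Fintype.sum_equiv (Equiv.inv _) _ _ (fun h => ?_)
      simp
    calc _ ≤ (∑ h : Equiv.Perm (Fin b),
          ν (x * (Equiv.Perm.viaEmbeddingHom β h)⁻¹) * ‖p.coeff h‖) ^ 2 :=
          pow_le_pow_left₀ (norm_nonneg _) h1 2
      _ ≤ _ := h2
      _ ≤ _ := mul_le_mul_of_nonneg_right h3
          (Finset.sum_nonneg (fun h _ => mul_nonneg (hν _) (sq_nonneg _)))
  unfold nsq
  calc ∑ x, ‖(ma ν * emb β p).coeff x‖ ^ 2
      ≤ ∑ x, C * ∑ h : Equiv.Perm (Fin b),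
        ν (x * (Equiv.Perm.viaEmbeddingHom β h)⁻¹) * ‖p.coeff h‖ ^ 2 :=
        Finset.sum_le_sum (fun x _ => hpt x)
    _ = C * ∑ h : Equiv.Perm (Fin b), (∑ x, ν (x * (Equiv.Perm.viaEmbeddingHom β h)⁻¹)) *
          ‖p.coeff h‖ ^ 2 := by
        rw [← Finset.mul_sum, Finset.sum_comm]
        simp only [Finset.sum_mul]
    _ ≤ C * ∑ h : Equiv.Perm (Fin b), ‖p.coeff h‖ ^ 2 := by
        refine mul_le_mul_of_nonneg_left (Finset.sum_le_sum (fun h _ => ?_)) hC
        have e : ∑ x, ν (x * (Equiv.Perm.viaEmbeddingHom β h)⁻¹) = ∑ x, ν x :=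
          Fintype.sum_equiv (Equiv.mulRight (Equiv.Perm.viaEmbeddingHom β h)⁻¹) _ _
            (fun x => rfl)
        rw [e]
        calc (∑ x, ν x) * ‖p.coeff h‖ ^ 2 ≤ 1 * ‖p.coeff h‖ ^ 2 :=
              mul_le_mul_of_nonneg_right hmass (sq_nonneg _)
          _ = _ := one_mul _

/-! ### Adjoints -/

/-- adjoint in the group algebra -/
noncomputable def G2adj {G : Type} [Group G] [Fintype G] (y : MonoidAlgebra ℂ G) :
    MonoidAlgebra ℂ G :=
  ∑ g, MonoidAlgebra.single g⁻¹ (starRingEnd ℂ (y.coeff g))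

theorem G2_map_sum {G : Type} [Group G] [Fintype G] {d : ℕ}
    (R : MonoidAlgebra ℂ G →ₐ[ℂ] Matrix (Fin d) (Fin d) ℂ) (f : G → G) (c : G → ℂ) :
    R (∑ g, MonoidAlgebra.single (f g) (c g)) =
      ∑ g, c g • R (MonoidAlgebra.single (f g) 1) := by
  rw [map_sum]
  refine Finset.sum_congr rfl (fun g _ => ?_)
  rw [← map_smul, MonoidAlgebra.smul_single, smul_eq_mul, mul_one]

theorem G2_adj_map {G : Type} [Group G] [Fintype G] {d : ℕ}
    (R : MonoidAlgebra ℂ G →ₐ[ℂ] Matrix (Fin d) (Fin d) ℂ)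
    (hR : ∀ g, (R (MonoidAlgebra.single g 1))ᴴ = R (MonoidAlgebra.single g⁻¹ 1))
    (y : MonoidAlgebra ℂ G) : R (G2adj y) = (R y)ᴴ := by
  have h1 : R y = ∑ g, (y.coeff g) • R (MonoidAlgebra.single g 1) := by
    conv_lhs => rw [G2_eq_sum y]
    exact G2_map_sum R id _
  rw [h1, Matrix.conjTranspose_sum]
  unfold G2adj
  rw [G2_map_sum R (fun g => g⁻¹) (fun g => starRingEnd ℂ (y.coeff g))]
  refine Finset.sum_congr rfl (fun g _ => ?_)
  rw [Matrix.conjTranspose_smul, hR]
  rfl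

/-! ### Central idempotents -/

/-- sum of central idempotents -/
noncomputable def G2z {G : Type} [Group G] (Q : PW G) (S : Finset (Fin Q.m)) : MonoidAlgebra ℂ G :=
  ∑ κ ∈ S, Q.e κ

theorem G2_ρ_e {G : Type} [Group G] (Q : PW G) (κ j : Fin Q.m) :
    Q.ρ j (Q.e κ) = if j = κ then 1 else 0 := by
  unfold PW.e
  split_ifs with h
  · subst h; exact Q.ρ_inc_same _ _
  · exact Q.ρ_inc_ne h _

theorem G2_ρ_z {G : Type} [Group G] (Q : PW G) (S : Finset (Fin Q.m)) (j : Fin Q.m) :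
    Q.ρ j (G2z Q S) = if j ∈ S then 1 else 0 := by
  unfold G2z
  rw [map_sum]
  simp only [G2_ρ_e]
  rw [Finset.sum_ite_eq]

theorem G2_z_idem {G : Type} [Group G] (Q : PW G) (S : Finset (Fin Q.m)) :
    G2z Q S * G2z Q S = G2z Q S := by
  refine Q.ext_of_ρ (fun j => ?_)
  rw [map_mul, G2_ρ_z]
  split_ifs <;> simp

theorem G2_z_compl {G : Type} [Group G] (Q : PW G) (S : Finset (Fin Q.m)) :
    1 - G2z Q S = ∑ κ ∈ Sᶜ, Q.e κ := by
  refine Q.ext_of_ρ (fun j => ?_)
  have h2 : Q.ρ j (∑ κ ∈ Sᶜ, Q.e κ) = if j ∈ Sᶜ then 1 else 0 := G2_ρ_z Q Sᶜ j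
  rw [h2, map_sub, map_one, G2_ρ_z]
  by_cases h : j ∈ S
  · simp [h]
  · simp [h]

theorem G2_z_adj {G : Type} [Group G] [Fintype G] (Q : PW G) (S : Finset (Fin Q.m)) :
    G2adj (G2z Q S) = G2z Q S := by
  refine Q.ext_of_ρ (fun j => ?_)
  rw [G2_adj_map (Q.ρ j) (Q.unitary j), G2_ρ_z]
  split_ifs <;> simp

theorem G2_inc_mul {G : Type} [Group G] (Q : PW G) (κ : Fin Q.m)
    (A B : Matrix (Fin (Q.d κ)) (Fin (Q.d κ)) ℂ) :
    Q.inc κ A * Q.inc κ B = Q.inc κ (A * B) := by
  refine Q.ext_of_ρ (fun j => ?_)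
  rw [map_mul]
  by_cases h : j = κ
  · subst h
    rw [Q.ρ_inc_same, Q.ρ_inc_same, Q.ρ_inc_same]
  · rw [Q.ρ_inc_ne h, Q.ρ_inc_ne h, Q.ρ_inc_ne h, zero_mul]

theorem G2_inc_zero {G : Type} [Group G] (Q : PW G) (κ : Fin Q.m) : Q.inc κ 0 = 0 := by
  refine Q.ext_of_ρ (fun j => ?_)
  by_cases h : j = κ
  · subst h
    rw [Q.ρ_inc_same, map_zero]
  · rw [Q.ρ_inc_ne h, map_zero]

theorem G2_e_eq_sum {G : Type} [Group G] (Q : PW G) (κ : Fin Q.m) :
    Q.e κ = ∑ a, Q.inc κ (Matrix.single a a 1) := by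
  refine Q.ext_of_ρ (fun j => ?_)
  rw [map_sum]
  by_cases h : j = κ
  · subst h
    simp only [PW.e, Q.ρ_inc_same]
    ext a c
    rw [Matrix.sum_apply]
    simp only [Matrix.single_apply, Matrix.one_apply]
    by_cases hac : a = c
    · subst hac
      simp
    · have : ∀ x : Fin (Q.d j), ¬ (x = a ∧ x = c) := fun x hx => hac (hx.1.symm.trans hx.2)
      simp [this, hac]
  · simp only [PW.e, Q.ρ_inc_ne h]
    simp

/-! ### Hilbert-Schmidt norms -/

theorem G2_hs_nonneg {m : ℕ} (A : Matrix (Fin m) (Fin m) ℂ) : 0 ≤ hs A :=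
  Finset.sum_nonneg (fun _ _ => Finset.sum_nonneg (fun _ _ => sq_nonneg _))

theorem G2_hs_trace {m : ℕ} (A : Matrix (Fin m) (Fin m) ℂ) :
    hs A = (Matrix.trace (A * Aᴴ)).re := by
  unfold hs Matrix.trace
  rw [Complex.re_sum]
  refine Finset.sum_congr rfl (fun i _ => ?_)
  rw [Matrix.diag_apply, Matrix.mul_apply, Complex.re_sum]
  refine Finset.sum_congr rfl (fun j _ => ?_)
  rw [Matrix.conjTranspose_apply, Complex.star_def, Complex.mul_conj, Complex.ofReal_re,
    Complex.normSq_eq_norm_sq]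

theorem G2_hs_split {m : ℕ} (A E : Matrix (Fin m) (Fin m) ℂ) (hE : Eᴴ = E) (hE2 : E * E = E) :
    hs A = hs (A * E) + hs (A * (1 - E)) := by
  have e1 : A * Aᴴ = (A * E) * (A * E)ᴴ + (A * (1 - E)) * (A * (1 - E))ᴴ := by
    rw [Matrix.conjTranspose_mul, Matrix.conjTranspose_mul, Matrix.conjTranspose_sub,
      Matrix.conjTranspose_one, hE]
    have e2 : (A * E) * (E * Aᴴ) = A * E * Aᴴ := by
      rw [Matrix.mul_assoc, ← Matrix.mul_assoc E E, hE2, Matrix.mul_assoc]
    have e3 : (A * (1 - E)) * ((1 - E) * Aᴴ) = A * Aᴴ - A * E * Aᴴ := by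
      rw [Matrix.mul_assoc, ← Matrix.mul_assoc (1 - E) (1 - E)]
      have : (1 - E) * (1 - E) = 1 - E := by
        rw [sub_mul, mul_sub, mul_sub, hE2]; simp
      rw [this, sub_mul, mul_sub, one_mul, Matrix.mul_assoc]
    rw [e2, e3]; abel
  rw [G2_hs_trace, G2_hs_trace, G2_hs_trace, e1, Matrix.trace_add, Complex.add_re]

theorem G2_hs_one (m : ℕ) : hs (1 : Matrix (Fin m) (Fin m) ℂ) = m := by
  unfold hs
  have : ∀ i : Fin m, ∑ j, ‖(1 : Matrix (Fin m) (Fin m) ℂ) i j‖ ^ 2 = 1 := by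
    intro i
    rw [Finset.sum_eq_single i]
    · simp
    · intro j _ hj
      simp [Matrix.one_apply_ne' hj]
    · simp
  simp [this]

/-! ### Choice in a multiadditive product -/

theorem G2_choice {ι A M : Type} [Fintype ι] [DecidableEq ι] [Semiring A] [Semiring M]
    (Φ : (ι → A) →* M) {σ : ι → Type} (S : ∀ i, Finset (σ i)) (y : ∀ i, σ i → A)
    (hadd : ∀ j, ∀ S' : Finset (σ j), Φ (Pi.mulSingle j (∑ t ∈ S', y j t)) =
      ∑ t ∈ S', Φ (Pi.mulSingle j (y j t)))
    (hne : Φ (fun i => ∑ t ∈ S i, y i t) ≠ 0) :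
    ∃ s : ∀ i, σ i, (∀ i, s i ∈ S i) ∧ Φ (fun i => y i (s i)) ≠ 0 := by
  classical
  have hfac : ∀ (x : ι → A) (j : ι), Φ x = Φ (Pi.mulSingle j (x j)) * Φ (Function.update x j 1) := by
    intro x j
    rw [← map_mul]
    congr 1
    funext i
    by_cases h : i = j
    · subst h; simp
    · simp [Pi.mulSingle_eq_of_ne h, Function.update_of_ne h]
  have hS : ∀ i, (S i).Nonempty := by
    intro i
    by_contra hcon
    rw [Finset.not_nonempty_iff_eq_empty] at hcon
    apply hne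
    rw [hfac _ i, hadd i, hcon, Finset.sum_empty, zero_mul]
  choose s0 hs0 using hS
  have key : ∀ T : Finset ι, ∃ s : ∀ i, σ i, (∀ i, s i ∈ S i) ∧
      Φ (fun i => if i ∈ T then y i (s i) else ∑ t ∈ S i, y i t) ≠ 0 := by
    intro T
    induction T using Finset.induction_on with
    | empty => exact ⟨s0, hs0, by simpa using hne⟩
    | insert j T hj ih =>
      obtain ⟨s, hs, hsne⟩ := ih
      rw [hfac _ j] at hsne
      simp only [hj, if_false] at hsne
      rw [hadd j, Finset.sum_mul] at hsne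
      obtain ⟨t, ht, htne⟩ := Finset.exists_ne_zero_of_sum_ne_zero hsne
      refine ⟨Function.update s j t, ?_, ?_⟩
      · intro i
        by_cases h : i = j
        · subst h; simpa using ht
        · simpa [Function.update_of_ne h] using hs i
      · refine fun h0 => htne ?_
        rw [← map_mul, ← h0]
        congr 1
        funext i
        by_cases h : i = j
        · subst h; simp
        · simp [Pi.mulSingle_eq_of_ne h, Function.update_of_ne h, h]
  obtain ⟨s, hs, hsne⟩ := key Finset.univ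
  exact ⟨s, hs, by simpa using hsne⟩

theorem G2_zero_of_factor {ι A M : Type} [Fintype ι] [DecidableEq ι] [Semiring A] [Semiring M]
    (Φ : (ι → A) →* M) (x : ι → A) (j : ι) (h : Φ (Pi.mulSingle j (x j)) = 0) : Φ x = 0 := by
  classical
  have hfac : Φ x = Φ (Pi.mulSingle j (x j)) * Φ (Function.update x j 1) := by
    rw [← map_mul]
    congr 1
    funext i
    by_cases h : i = j
    · subst h; simp
    · simp [Pi.mulSingle_eq_of_ne h, Function.update_of_ne h]
  rw [hfac, h, zero_mul]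

/-! ### Matrix units -/

theorem G2_card_units {I : Type} [Fintype I] [DecidableEq I] {d : ℕ}
    (E : I → I → Matrix (Fin d) (Fin d) ℂ) (hmul : ∀ a c e, E a c * E c e = E a e)
    (hzero : ∀ a c c' e, c ≠ c' → E a c * E c' e = 0) (a0 : I) (hne : E a0 a0 ≠ 0) :
    Fintype.card I ≤ d := by
  obtain ⟨w, hw⟩ : ∃ w : Fin d → ℂ, (E a0 a0).mulVec w ≠ 0 := by
    by_contra hcon
    push Not at hcon
    apply hne
    ext i j
    have := congrFun (hcon (Pi.single j 1)) i
    simpa using this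
  have hli : LinearIndependent ℂ (fun a => (E a a0).mulVec w) := by
    rw [Fintype.linearIndependent_iff]
    intro g hg a'
    have h1 : (E a0 a').mulVec (∑ a, g a • (E a a0).mulVec w) = 0 := by rw [hg]; simp
    rw [Matrix.mulVec_sum] at h1
    rw [Finset.sum_eq_single a'] at h1
    · rw [Matrix.mulVec_smul, Matrix.mulVec_mulVec, hmul] at h1
      exact (smul_eq_zero.1 h1).resolve_right hw
    · intro a _ ha
      rw [Matrix.mulVec_smul, Matrix.mulVec_mulVec, hzero _ _ _ _ (Ne.symm ha)]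
      simp
    · simp
  have := hli.fintype_card_le_finrank
  simpa using this

/-! ### The blocks commute -/

theorem G2_via_comm {X : Type} [Fintype X] [DecidableEq X] {b : ℕ} (β : Fin 8 × Fin b ≃ X)
    {i j : Fin 8} (hij : i ≠ j) (h k : Equiv.Perm (Fin b)) :
    Commute (Equiv.Perm.viaEmbeddingHom (blk β i) h) (Equiv.Perm.viaEmbeddingHom (blk β j) k) := by
  apply Equiv.Perm.Disjoint.commute
  intro x
  by_cases hx : x ∈ Set.range (blk β i)
  · right
    rw [Equiv.Perm.viaEmbeddingHom_apply]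
    apply Equiv.Perm.viaEmbedding_apply_of_notMem
    rintro ⟨a', ha'⟩
    obtain ⟨a, ha⟩ := hx
    apply hij
    have : β (j, a') = β (i, a) := ha'.trans ha.symm
    have := β.injective this
    exact (Prod.ext_iff.1 this).1.symm
  · left
    rw [Equiv.Perm.viaEmbeddingHom_apply]
    exact Equiv.Perm.viaEmbedding_apply_of_notMem _ _ _ hx

theorem G2_emb_comm {X : Type} [Fintype X] [DecidableEq X] {b : ℕ} (β : Fin 8 × Fin b ≃ X)
    {i j : Fin 8} (hij : i ≠ j) (x y : MonoidAlgebra ℂ (Equiv.Perm (Fin b))) :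
    Commute (emb (blk β i) x) (emb (blk β j) y) := by
  rw [G2_emb_eq, G2_emb_eq]
  refine Commute.sum_left _ _ _ (fun h _ => Commute.sum_right _ _ _ (fun k _ => ?_))
  unfold Commute SemiconjBy
  rw [MonoidAlgebra.single_mul_single, MonoidAlgebra.single_mul_single, (G2_via_comm β hij h k).eq,
    mul_comm]

/-! ### The bound -/

set_option maxHeartbeats 2000000 in
theorem irrep_bound_aux
    (planch : ∀ {G : Type} [Group G] [Fintype G] (P : PW G) (x : MonoidAlgebra ℂ G),
      (Fintype.card G : ℝ) * nsq x = ∑ i, (P.d i : ℝ) * hs (P.ρ i x))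
    {X : Type} [Fintype X] [DecidableEq X] {b : ℕ} (hb : 0 < b)
    (β : Fin 8 × Fin b ≃ X) (P : PW (Equiv.Perm X)) (Q : PW (Equiv.Perm (Fin b)))
    (ν : Equiv.Perm X → ℝ) (hν : ∀ g, 0 ≤ ν g) (hmass : ∑ g, ν g ≤ 1)
    (hcos : ∀ (i : Fin 8) (g : Equiv.Perm X),
        ∑ h : Equiv.Perm (Fin b), ν (g * Equiv.Perm.viaEmbeddingHom (blk β i) h) ≤
          3 * (b.factorial : ℝ) / ((8 * b).factorial : ℝ))
    (v : Fin P.m) (T : Finset (Fin Q.m))
    (hT : ∀ κ, κ ∉ T → ∀ i : Fin 8, P.ρ v (emb (blk β i) (Q.e κ)) = 0) :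
    hs (P.ρ v (ma ν)) ^ 4 * (P.d v : ℝ) ^ 3 ≤ (24 * (T.card : ℝ)) ^ 4 := by
  classical
  -- the representation of the block algebras
  set R : Fin 8 → MonoidAlgebra ℂ (Equiv.Perm (Fin b)) →ₐ[ℂ]
      Matrix (Fin (P.d v)) (Fin (P.d v)) ℂ := fun i => (P.ρ v).comp (emb (blk β i)) with hR
  have hRs : ∀ i g, (R i (MonoidAlgebra.single g 1))ᴴ = R i (MonoidAlgebra.single g⁻¹ 1) := by
    intro i g
    have e : ∀ g : Equiv.Perm (Fin b), R i (MonoidAlgebra.single g 1) =
        P.ρ v (MonoidAlgebra.single (Equiv.Perm.viaEmbeddingHom (blk β i) g) 1) := by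
      intro g
      simp only [hR, AlgHom.comp_apply]
      congr 1
      simp [emb]
    rw [e, e, P.unitary, map_inv]
  -- the product homomorphism
  have hcomm : Pairwise fun i j : Fin 8 => ∀ (x y : MonoidAlgebra ℂ (Equiv.Perm (Fin b))),
      Commute ((R i : _ →* Matrix (Fin (P.d v)) (Fin (P.d v)) ℂ) x)
        ((R j : _ →* Matrix (Fin (P.d v)) (Fin (P.d v)) ℂ) y) := by
    intro i j hij x y
    have := G2_emb_comm β hij x y
    exact this.map (P.ρ v)
  set Φ : (Fin 8 → MonoidAlgebra ℂ (Equiv.Perm (Fin b))) →*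
      Matrix (Fin (P.d v)) (Fin (P.d v)) ℂ :=
    MonoidHom.noncommPiCoprod (fun i => (R i : _ →* Matrix (Fin (P.d v)) (Fin (P.d v)) ℂ)) hcomm
    with hΦ
  have hΦs : ∀ (i : Fin 8) (x : MonoidAlgebra ℂ (Equiv.Perm (Fin b))),
      Φ (Pi.mulSingle i x) = R i x := by
    intro i x
    rw [hΦ, MonoidHom.noncommPiCoprod_mulSingle]
    rfl
  have hadd : ∀ {σ : Fin 8 → Type} (y : ∀ i, σ i → MonoidAlgebra ℂ (Equiv.Perm (Fin b))),
      ∀ j, ∀ S' : Finset (σ j), Φ (Pi.mulSingle j (∑ t ∈ S', y j t)) =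
      ∑ t ∈ S', Φ (Pi.mulSingle j (y j t)) := by
    intro σ y j S'
    rw [hΦs, map_sum]
    exact Finset.sum_congr rfl (fun t _ => (hΦs _ _).symm)
  -- small types
  set S : Finset (Fin Q.m) := T.filter (fun κ => Q.d κ ^ 8 ≤ P.d v) with hS
  set z := G2z Q S with hz
  have hE : ∀ i, (R i z)ᴴ = R i z := by
    intro i
    rw [← G2_adj_map (R i) (hRs i), hz, G2_z_adj]
  have hE2 : ∀ i, R i z * R i z = R i z := by
    intro i
    rw [← map_mul, hz, G2_z_idem]
  -- the product of the complements vanishes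
  have hprod : Φ (fun _ => 1 - z) = 0 := by
    by_contra hne
    have hne' : Φ (fun _ => ∑ κ ∈ Sᶜ, Q.e κ) ≠ 0 := by
      rwa [hz, G2_z_compl] at hne
    obtain ⟨κ, hκ, hκne⟩ := G2_choice Φ (fun _ => Sᶜ) (fun _ κ => Q.e κ)
      (hadd (σ := fun _ => Fin Q.m) (fun _ κ => Q.e κ)) hne'
    have hκT : ∀ i, κ i ∈ T := by
      intro i
      by_contra hcon
      apply hκne
      refine G2_zero_of_factor Φ _ i ?_
      rw [hΦs]
      exact hT (κ i) hcon i
    have hκd : ∀ i, P.d v < Q.d (κ i) ^ 8 := by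
      intro i
      have h1 := hκ i
      rw [Finset.mem_compl, hS, Finset.mem_filter] at h1
      push Not at h1
      exact h1 (hκT i)
    have hκne' : Φ (fun i => ∑ a ∈ (Finset.univ : Finset (Fin (Q.d (κ i)))),
        Q.inc (κ i) (Matrix.single a a 1)) ≠ 0 := by
      have : (fun i => ∑ a ∈ (Finset.univ : Finset (Fin (Q.d (κ i)))),
        Q.inc (κ i) (Matrix.single a a 1)) = fun i => Q.e (κ i) := by
        funext i
        rw [G2_e_eq_sum]
      rwa [this]
    obtain ⟨a0, _, ha0⟩ := G2_choice Φ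
      (fun i => (Finset.univ : Finset (Fin (Q.d (κ i)))))
      (fun i a => Q.inc (κ i) (Matrix.single a a 1))
      (hadd (σ := fun i => Fin (Q.d (κ i))) (fun i a => Q.inc (κ i) (Matrix.single a a 1))) hκne'
    have hcard := G2_card_units (I := ∀ i : Fin 8, Fin (Q.d (κ i))) (d := P.d v)
      (fun a c => Φ (fun i => Q.inc (κ i) (Matrix.single (a i) (c i) 1)))
      (by
        intro a c e
        rw [← map_mul]
        congr 1
        funext i
        simp only [Pi.mul_apply]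
        rw [G2_inc_mul, Matrix.single_mul_single_same, mul_one])
      (by
        intro a c c' e hcc'
        rw [← map_mul]
        obtain ⟨i, hi⟩ : ∃ i, c i ≠ c' i := by
          by_contra hcon
          push Not at hcon
          exact hcc' (funext hcon)
        refine G2_zero_of_factor Φ _ i ?_
        rw [hΦs]
        simp only [Pi.mul_apply]
        rw [G2_inc_mul, Matrix.single_mul_single_of_ne _ _ _ _ hi, G2_inc_zero, map_zero])
      a0 ha0
    rw [Fintype.card_pi] at hcard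
    simp only [Fintype.card_fin] at hcard
    -- contradiction
    have h8 : P.d v ^ 8 < (∏ i, Q.d (κ i)) ^ 8 := by
      calc P.d v ^ 8 = ∏ _i : Fin 8, P.d v := by simp
        _ < ∏ i, Q.d (κ i) ^ 8 :=
          Finset.prod_lt_prod_of_nonempty (fun _ _ => P.dpos v) (fun i _ => hκd i)
            Finset.univ_nonempty
        _ = (∏ i, Q.d (κ i)) ^ 8 := Finset.prod_pow _ _ _
    exact absurd (Nat.pow_le_pow_left hcard 8) (not_le.2 h8)
  set A := P.ρ v (ma ν) with hA
  -- telescoping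
  have htele : ∀ U : Finset (Fin 8), (∀ B, hs (B * Φ (fun i => if i ∈ U then 1 - z else 1)) ≤ hs B) ∧
      hs A ≤ ∑ i ∈ U, hs (A * R i z) + hs (A * Φ (fun i => if i ∈ U then 1 - z else 1)) := by
    intro U
    induction U using Finset.induction_on with
    | empty =>
      have e : Φ (fun i : Fin 8 => if i ∈ (∅ : Finset (Fin 8)) then 1 - z else 1) = 1 := by
        have : (fun i : Fin 8 => if i ∈ (∅ : Finset (Fin 8)) then 1 - z else 1) = 1 := by
          funext i; simp
        rw [this, map_one]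
      rw [e]
      simp
    | insert j U hj ih =>
      obtain ⟨ih1, ih2⟩ := ih
      have e : Φ (fun i => if i ∈ insert j U then 1 - z else 1) =
          Φ (fun i => if i ∈ U then 1 - z else 1) * (1 - R j z) := by
        have h1 : (1 - R j z) = Φ (Pi.mulSingle j (1 - z)) := by rw [hΦs, map_sub, map_one]
        rw [h1, ← map_mul]
        congr 1
        funext i
        by_cases h : i = j
        · subst h; simp [hj]
        · simp [Pi.mulSingle_eq_of_ne h, h]
      have e' : Φ (fun i => if i ∈ U then 1 - z else 1) * R j z =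
          R j z * Φ (fun i => if i ∈ U then 1 - z else 1) := by
        rw [← hΦs, ← map_mul, ← map_mul]
        congr 1
        funext i
        by_cases h : i = j
        · subst h; simp [hj]
        · simp [Pi.mulSingle_eq_of_ne h]
      refine ⟨?_, ?_⟩
      · intro B
        rw [e, ← mul_assoc]
        have h1 := G2_hs_split (B * Φ (fun i => if i ∈ U then 1 - z else 1)) (R j z) (hE j) (hE2 j)
        have h2 := G2_hs_nonneg (B * Φ (fun i => if i ∈ U then 1 - z else 1) * R j z)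
        have h3 := ih1 B
        linarith
      · rw [Finset.sum_insert hj, e, ← mul_assoc]
        have h1 := G2_hs_split (A * Φ (fun i => if i ∈ U then 1 - z else 1)) (R j z) (hE j) (hE2 j)
        have h2 : hs (A * Φ (fun i => if i ∈ U then 1 - z else 1) * R j z) ≤ hs (A * R j z) := by
          rw [mul_assoc, e', ← mul_assoc]
          exact ih1 _
        linarith
  have hAle : hs A ≤ ∑ i : Fin 8, hs (A * R i z) := by
    have h1 := (htele Finset.univ).2
    have e : (fun i : Fin 8 => if i ∈ (Finset.univ : Finset (Fin 8)) then 1 - z else 1) =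
        fun _ => 1 - z := by
      funext i; simp
    rw [e, hprod, mul_zero] at h1
    have h0 : hs (0 : Matrix (Fin (P.d v)) (Fin (P.d v)) ℂ) = 0 := by simp [hs]
    rw [h0, add_zero] at h1
    exact h1
  -- Plancherel
  have hcardX : Fintype.card (Equiv.Perm X) = (8 * b).factorial := by
    rw [Fintype.card_perm, ← Fintype.card_congr β]
    simp
  have hcardb : Fintype.card (Equiv.Perm (Fin b)) = b.factorial := by
    rw [Fintype.card_perm]; simp
  have hnz : (b.factorial : ℝ) * nsq z = ∑ κ ∈ S, (Q.d κ : ℝ) ^ 2 := by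
    have h1 := planch Q z
    rw [hcardb] at h1
    rw [h1, hz]
    have h2 : ∀ i, (Q.d i : ℝ) * hs (Q.ρ i (G2z Q S)) = if i ∈ S then (Q.d i : ℝ) ^ 2 else 0 := by
      intro i
      rw [G2_ρ_z]
      split_ifs with h
      · rw [G2_hs_one]; ring
      · simp [hs]
    rw [Finset.sum_congr rfl (fun i _ => h2 i)]
    rw [← Finset.sum_filter]
    congr 1
    ext i; simp
  have hone : ∀ i, (P.d v : ℝ) * hs (A * R i z) ≤ 3 * ∑ κ ∈ S, (Q.d κ : ℝ) ^ 2 := by
    intro i
    have h1 : (P.d v : ℝ) * hs (A * R i z) ≤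
        ∑ w, (P.d w : ℝ) * hs (P.ρ w (ma ν * emb (blk β i) z)) := by
      have h2 : A * R i z = P.ρ v (ma ν * emb (blk β i) z) := by
        rw [map_mul]
        rfl
      rw [h2]
      exact Finset.single_le_sum (f := fun w => (P.d w : ℝ) * hs (P.ρ w (ma ν * emb (blk β i) z)))
        (fun w _ => mul_nonneg (Nat.cast_nonneg _) (G2_hs_nonneg _)) (Finset.mem_univ v)
    rw [← planch P, hcardX] at h1
    have h3 := coset_young (blk β i) ν hν hmass _ (hcos i) z
    have hfac : (0 : ℝ) < ((8 * b).factorial : ℝ) := by exact_mod_cast Nat.factorial_pos _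
    calc (P.d v : ℝ) * hs (A * R i z) ≤ ((8 * b).factorial : ℝ) * nsq (ma ν * emb (blk β i) z) := h1
      _ ≤ ((8 * b).factorial : ℝ) * (3 * (b.factorial : ℝ) / ((8 * b).factorial : ℝ) * nsq z) :=
          mul_le_mul_of_nonneg_left h3 hfac.le
      _ = 3 * ((b.factorial : ℝ) * nsq z) := by field_simp
      _ = _ := by rw [hnz]
  -- numerics
  set D : ℝ := (P.d v : ℝ) ^ ((1 : ℝ) / 4) with hD
  have hD0 : 0 ≤ D := Real.rpow_nonneg (Nat.cast_nonneg _) _
  have hD4 : D ^ 4 = (P.d v : ℝ) := by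
    rw [hD, ← Real.rpow_natCast, ← Real.rpow_mul (Nat.cast_nonneg _)]
    norm_num
  have hDpos : 0 < D := by
    rcases hD0.eq_or_lt with h | h
    · exfalso
      have := hD4
      rw [← h] at this
      have h2 : (0 : ℝ) < (P.d v : ℝ) := by exact_mod_cast P.dpos v
      rw [← this] at h2
      norm_num at h2
    · exact h
  have hsum : ∑ κ ∈ S, (Q.d κ : ℝ) ^ 2 ≤ (T.card : ℝ) * D := by
    calc ∑ κ ∈ S, (Q.d κ : ℝ) ^ 2 ≤ ∑ κ ∈ S, D := by
          refine Finset.sum_le_sum (fun κ hκ => ?_)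
          have h1 : Q.d κ ^ 8 ≤ P.d v := (Finset.mem_filter.1 hκ).2
          have h2 : (((Q.d κ : ℝ) ^ 2) ^ 4) ≤ D ^ 4 := by
            rw [hD4, ← pow_mul]
            exact_mod_cast h1
          exact le_of_pow_le_pow_left₀ (by norm_num) hD0 h2
      _ = (S.card : ℝ) * D := by simp
      _ ≤ (T.card : ℝ) * D := by
          apply mul_le_mul_of_nonneg_right _ hD0
          exact_mod_cast Finset.card_le_card (Finset.filter_subset _ _)
  have hfin : hs A * D ^ 3 ≤ 24 * (T.card : ℝ) := by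
    have h1 : (P.d v : ℝ) * hs A ≤ 8 * (3 * ((T.card : ℝ) * D)) := by
      calc (P.d v : ℝ) * hs A ≤ (P.d v : ℝ) * ∑ i : Fin 8, hs (A * R i z) :=
            mul_le_mul_of_nonneg_left hAle (Nat.cast_nonneg _)
        _ = ∑ i : Fin 8, (P.d v : ℝ) * hs (A * R i z) := Finset.mul_sum _ _ _
        _ ≤ ∑ _i : Fin 8, 3 * ((T.card : ℝ) * D) := by
            refine Finset.sum_le_sum (fun i _ => (hone i).trans ?_)
            linarith
        _ = 8 * (3 * ((T.card : ℝ) * D)) := by simp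
    rw [← hD4] at h1
    have h2 : D * (hs A * D ^ 3) ≤ D * (24 * (T.card : ℝ)) := by nlinarith
    exact le_of_mul_le_mul_left h2 hDpos
  have hA0 : 0 ≤ hs A * D ^ 3 := mul_nonneg (G2_hs_nonneg _) (pow_nonneg hD0 _)
  calc hs A ^ 4 * (P.d v : ℝ) ^ 3 = (hs A * D ^ 3) ^ 4 := by rw [← hD4]; ring
    _ ≤ (24 * (T.card : ℝ)) ^ 4 := pow_le_pow_left₀ hA0 hfin 4

end Crest.Agent.Thorp
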