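import Crest.Agent.Lib.Row155.Alt.Defs
/-!
Row 155 (Thorp shuffle), second proof, chunks G3 (`lev_type`) and G4 (`card_lev`).
-/
set_option autoImplicit false
set_option linter.unusedSectionVars false
set_option linter.unusedSimpArgs false
open Finset
open scoped BigOperators Matrix

namespace Crest.Agent.Thorp

section G34
variable {X : Type} [Fintype X] [DecidableEq X]

/-- permutations supported in `S` -/
def gsupp (S : Finset X) : Finset (Equiv.Perm X) :=
  Finset.univ.filter (fun h : Equiv.Perm X => ∀ x, x ∉ S → h x = x)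

lemma mem_gsupp {S : Finset X} {h : Equiv.Perm X} : h ∈ gsupp S ↔ ∀ x, x ∉ S → h x = x := by
  simp [gsupp]

lemma card_gsupp (S : Finset X) : (gsupp S).card = S.card.factorial := by
  have h := Fintype.card_congr (Equiv.Perm.subtypeEquivSubtypePerm (fun x : X => x ∈ S))
  rw [Fintype.card_perm, Fintype.card_coe] at h
  rw [h, Fintype.card_subtype]
  rfl

lemma eSym_eq (S : Finset X) : eSym S = ((S.card.factorial : ℂ)⁻¹) •
    ∑ h ∈ gsupp S, MonoidAlgebra.single h (1 : ℂ) := rfl

lemma gsupp_mul {S : Finset X} {h h' : Equiv.Perm X} (hh : h ∈ gsupp S) (hh' : h' ∈ gsupp S) :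
    h * h' ∈ gsupp S := by
  rw [mem_gsupp] at *
  intro x hx
  rw [Equiv.Perm.mul_apply, hh' x hx, hh x hx]

lemma gsupp_inv {S : Finset X} {h : Equiv.Perm X} (hh : h ∈ gsupp S) : h⁻¹ ∈ gsupp S := by
  rw [mem_gsupp] at *
  intro x hx
  rw [Equiv.Perm.inv_eq_iff_eq]
  exact (hh x hx).symm

lemma single_mul_eSym {S : Finset X} {h : Equiv.Perm X} (hh : h ∈ gsupp S) :
    MonoidAlgebra.single h (1 : ℂ) * eSym S = eSym S := by
  rw [eSym_eq, mul_smul_comm, Finset.mul_sum]
  congr 1
  refine Finset.sum_bij' (fun h' _ => h * h') (fun h' _ => h⁻¹ * h') ?_ ?_ ?_ ?_ ?_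
  · intro h' hh'; exact gsupp_mul hh hh'
  · intro h' hh'; exact gsupp_mul (gsupp_inv hh) hh'
  · intro h' _; simp
  · intro h' _; simp
  · intro h' _; simp

lemma eSym_mul_single {S : Finset X} {h : Equiv.Perm X} (hh : h ∈ gsupp S) :
    eSym S * MonoidAlgebra.single h (1 : ℂ) = eSym S := by
  rw [eSym_eq, smul_mul_assoc, Finset.sum_mul]
  congr 1
  refine Finset.sum_bij' (fun h' _ => h' * h) (fun h' _ => h' * h⁻¹) ?_ ?_ ?_ ?_ ?_
  · intro h' hh'; exact gsupp_mul hh' hh
  · intro h' hh'; exact gsupp_mul hh' (gsupp_inv hh)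
  · intro h' _; simp
  · intro h' _; simp
  · intro h' _; simp

lemma eSym_idem (S : Finset X) : eSym S * eSym S = eSym S := by
  have h0 : eSym S * eSym S = (((S.card.factorial : ℂ)⁻¹) •
    ∑ h ∈ gsupp S, MonoidAlgebra.single h (1 : ℂ)) * eSym S := by rw [← eSym_eq S]
  rw [h0, smul_mul_assoc, Finset.sum_mul,
    Finset.sum_congr rfl (fun h hh => single_mul_eSym hh), Finset.sum_const, card_gsupp,
    ← Nat.cast_smul_eq_nsmul ℂ, smul_smul, inv_mul_cancel₀, one_smul]
  exact_mod_cast S.card.factorial_ne_zero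

lemma single_mul_eSym_map (g : Equiv.Perm X) (S : Finset X) :
    MonoidAlgebra.single g (1 : ℂ) * eSym S =
      eSym (S.map g.toEmbedding) * MonoidAlgebra.single g (1 : ℂ) := by
  rw [eSym_eq, eSym_eq, Finset.card_map, mul_smul_comm, smul_mul_assoc, Finset.mul_sum,
    Finset.sum_mul]
  congr 1
  refine Finset.sum_bij' (fun h' _ => g * h' * g⁻¹) (fun h' _ => g⁻¹ * h' * g) ?_ ?_ ?_ ?_ ?_
  · intro h' hh'
    rw [mem_gsupp] at *
    intro x hx
    have h1 : g⁻¹ x ∉ S := by
      intro h2
      apply hx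
      rw [Finset.mem_map]
      exact ⟨_, h2, by simp⟩
    rw [Equiv.Perm.mul_apply, Equiv.Perm.mul_apply, hh' _ h1]
    exact Equiv.apply_symm_apply g x
  · intro h' hh'
    rw [mem_gsupp] at *
    intro x hx
    have h1 : g x ∉ S.map g.toEmbedding := by
      intro h2
      rw [Finset.mem_map] at h2
      obtain ⟨y, hy, hyx⟩ := h2
      have : y = x := g.injective hyx
      exact hx (this ▸ hy)
    rw [Equiv.Perm.mul_apply, Equiv.Perm.mul_apply, hh' _ h1]
    exact Equiv.symm_apply_apply g x
  · intro h' _; group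
  · intro h' _; group
  · intro h' _; simp

lemma emb_single {b : ℕ} (β : Fin b ↪ X) (h : Equiv.Perm (Fin b)) (c : ℂ) :
    emb β (MonoidAlgebra.single h c) =
      MonoidAlgebra.single (Equiv.Perm.viaEmbeddingHom β h) c := by
  simp [emb]

lemma via_apply {b : ℕ} (β : Fin b ↪ X) (h : Equiv.Perm (Fin b)) (k : Fin b) :
    Equiv.Perm.viaEmbeddingHom β h (β k) = β (h k) := by
  rw [Equiv.Perm.viaEmbeddingHom_apply, Equiv.Perm.viaEmbedding_apply]

lemma via_apply_not {b : ℕ} (β : Fin b ↪ X) (h : Equiv.Perm (Fin b)) (x : X)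
    (hx : ∀ k, β k ≠ x) :
    Equiv.Perm.viaEmbeddingHom β h x = x := by
  rw [Equiv.Perm.viaEmbeddingHom_apply, Equiv.Perm.viaEmbedding_apply_of_notMem]
  rintro ⟨k, hk⟩
  exact hx k hk

lemma emb_eSym_mul {b : ℕ} (β : Fin b ↪ X) (S : Finset (Fin b)) (T : Finset X)
    (h : S.map β ⊆ T) : emb β (eSym S) * eSym T = eSym T := by
  have h1 : ∀ h' ∈ gsupp S, MonoidAlgebra.single (Equiv.Perm.viaEmbeddingHom β h') (1 : ℂ) *
      eSym T = eSym T := by
    intro h' hh'
    apply single_mul_eSym
    rw [mem_gsupp] at *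
    intro x hx
    by_cases hk : ∃ k, β k = x
    · obtain ⟨k, rfl⟩ := hk
      have h2 : k ∉ S := fun hkS => hx (h (Finset.mem_map_of_mem _ hkS))
      rw [via_apply, hh' k h2]
    · push Not at hk
      exact via_apply_not β h' x hk
  rw [eSym_eq S, map_smul, map_sum, smul_mul_assoc, Finset.sum_mul]
  simp only [emb_single]
  rw [Finset.sum_congr rfl h1, Finset.sum_const, card_gsupp, ← Nat.cast_smul_eq_nsmul ℂ,
    smul_smul, inv_mul_cancel₀, one_smul]
  exact_mod_cast S.card.factorial_ne_zero

lemma eSym_empty : eSym (∅ : Finset X) = 1 := by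
  have h1 : gsupp (∅ : Finset X) = {1} := by
    ext h
    rw [mem_gsupp, Finset.mem_singleton]
    constructor
    · intro hh
      ext x
      simpa using hh x (by simp)
    · rintro rfl; simp
  rw [eSym_eq, h1]
  simp [MonoidAlgebra.one_def]

lemma lev_spec (P : PW (Equiv.Perm X)) (v : Fin P.m) :
    ∃ S : Finset X, Sᶜ.card = P.lev v ∧ P.ρ v (eSym S) ≠ 0 := by
  have hne : {m : ℕ | ∃ S : Finset X, Sᶜ.card = m ∧ P.ρ v (eSym S) ≠ 0}.Nonempty := by
    refine ⟨_, ∅, rfl, ?_⟩
    rw [eSym_empty, map_one]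
    intro h
    have h1 := congrFun (congrFun h ⟨0, P.dpos v⟩) ⟨0, P.dpos v⟩
    simp at h1
  exact Nat.sInf_mem hne

lemma lev_le (P : PW (Equiv.Perm X)) (v : Fin P.m) (S : Finset X) (h : P.ρ v (eSym S) ≠ 0) :
    P.lev v ≤ Sᶜ.card := Nat.sInf_le ⟨S, rfl, h⟩

lemma matrix_prime {m : ℕ} (A C : Matrix (Fin m) (Fin m) ℂ) (hA : A ≠ 0) (hC : C ≠ 0)
    (h : ∀ B : Matrix (Fin m) (Fin m) ℂ, A * B * C = 0) : False := by
  have hA' : ∃ i j, A i j ≠ 0 := by
    by_contra hcon
    push Not at hcon
    exact hA (by ext i j; simpa using hcon i j)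
  have hC' : ∃ i j, C i j ≠ 0 := by
    by_contra hcon
    push Not at hcon
    exact hC (by ext i j; simpa using hcon i j)
  obtain ⟨i, j, hij⟩ := hA'
  obtain ⟨k, l, hkl⟩ := hC'
  have h1 := congrFun (congrFun (h (Matrix.single j k 1)) i) l
  rw [Matrix.mul_assoc, Matrix.mul_apply] at h1
  rw [Finset.sum_eq_single j] at h1
  · rw [Matrix.single_mul_apply_same] at h1
    simp [hij, hkl] at h1
  · intro a _ ha
    rw [Matrix.single_mul_apply_of_ne _ _ _ _ _ ha]
    simp
  · intro h; exact absurd (Finset.mem_univ _) h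

theorem lev_type {b : ℕ} (β : Fin b ↪ X)
    (P : PW (Equiv.Perm X)) (Q : PW (Equiv.Perm (Fin b))) (v : Fin P.m) (κ : Fin Q.m)
    (h : P.ρ v (emb β (Q.e κ)) ≠ 0) : Q.lev κ ≤ P.lev v := by
  classical
  obtain ⟨S, hS, hS'⟩ := lev_spec P v
  by_contra hcon
  push Not at hcon
  have key : ∀ g : Equiv.Perm X, P.ρ v (emb β (Q.e κ)) * P.ρ v (MonoidAlgebra.single g 1) *
      P.ρ v (eSym S) = 0 := by
    intro g
    rw [← map_mul, ← map_mul, mul_assoc, single_mul_eSym_map, ← mul_assoc]
    have h5 : emb β (Q.e κ) * eSym (S.map g.toEmbedding) = 0 := by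
      have hsub : (Finset.univ.filter (fun k => β k ∈ S.map g.toEmbedding)).map β ⊆
          S.map g.toEmbedding := by
        intro x hx
        rw [Finset.mem_map] at hx
        obtain ⟨k, hk, rfl⟩ := hx
        exact (Finset.mem_filter.1 hk).2
      have h1 : (Finset.univ.filter (fun k => β k ∈ S.map g.toEmbedding))ᶜ.card ≤
          (S.map g.toEmbedding)ᶜ.card := by
        apply Finset.card_le_card_of_injOn β
        · intro k hk
          rw [Finset.mem_coe, Finset.mem_compl, Finset.mem_filter] at hk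
          rw [Finset.mem_coe, Finset.mem_compl]
          intro h2
          exact hk ⟨Finset.mem_univ _, h2⟩
        · exact β.injective.injOn
      have h2 : (S.map g.toEmbedding)ᶜ.card = Sᶜ.card := by
        rw [Finset.card_compl, Finset.card_compl, Finset.card_map]
      have h3 : Q.ρ κ (eSym (Finset.univ.filter (fun k => β k ∈ S.map g.toEmbedding))) = 0 := by
        by_contra h4
        have h5 := lev_le Q κ _ h4
        omega
      have h4 : Q.e κ * eSym (Finset.univ.filter (fun k => β k ∈ S.map g.toEmbedding)) = 0 := by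
        apply Q.ext_of_ρ
        intro j
        rw [map_mul, map_zero]
        by_cases hj : j = κ
        · subst hj; rw [h3, mul_zero]
        · rw [PW.e, Q.ρ_inc_ne hj, zero_mul]
      rw [← emb_eSym_mul β _ _ hsub, ← mul_assoc, ← map_mul, h4, map_zero, zero_mul]
    rw [h5, zero_mul, map_zero]
  have key2 : ∀ z, P.ρ v (emb β (Q.e κ)) * P.ρ v z * P.ρ v (eSym S) = 0 := by
    intro z
    induction z using MonoidAlgebra.induction_linear with
    | zero => simp
    | add x y hx hy => rw [map_add, mul_add, add_mul, hx, hy, add_zero]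
    | single m r =>
      have h1 : (MonoidAlgebra.single m r : MonoidAlgebra ℂ (Equiv.Perm X)) =
          r • MonoidAlgebra.single m 1 := by simp
      rw [h1, map_smul, mul_smul_comm, smul_mul_assoc, key, smul_zero]
  refine matrix_prime _ _ h hS' (fun B => ?_)
  have h1 := key2 (P.inc v B)
  rw [P.ρ_inc_same] at h1
  exact h1

/-! ## G4 -/

lemma eSym_insert {c : X} {S : Finset X} (hc : c ∉ S) :
    eSym (insert c S) = ((S.card + 1 : ℂ)⁻¹) •
      (eSym S + ∑ y ∈ S, MonoidAlgebra.single (Equiv.swap c y) (1 : ℂ) * eSym S) := by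
  have h1 : ∑ h ∈ gsupp (insert c S), MonoidAlgebra.single h (1 : ℂ) =
      ∑ p ∈ (insert c S) ×ˢ gsupp S, MonoidAlgebra.single (Equiv.swap c p.1 * p.2) (1 : ℂ) := by
    refine Finset.sum_bij' (fun h _ => (h c, Equiv.swap c (h c) * h))
      (fun p _ => Equiv.swap c p.1 * p.2) ?_ ?_ ?_ ?_ ?_
    · intro h hh
      rw [mem_gsupp] at hh
      have hcm : h c ∈ insert c S := by
        by_contra hcon
        have h2 := hh _ hcon
        have h3 : h c = c := h.injective h2
        rw [h3] at hcon
        exact hcon (Finset.mem_insert_self _ _)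
      rw [Finset.mem_product]
      refine ⟨hcm, ?_⟩
      rw [mem_gsupp]
      intro x hx
      show Equiv.swap c (h c) (h x) = x
      by_cases hxc : x = c
      · subst hxc
        rw [Equiv.swap_apply_right]
      · have h2 : x ∉ insert c S := by
          rw [Finset.mem_insert]; push Not; exact ⟨hxc, hx⟩
        rw [hh x h2]
        apply Equiv.swap_apply_of_ne_of_ne hxc
        intro h3
        exact h2 (h3 ▸ hcm)
    · intro p hp
      rw [Finset.mem_product, mem_gsupp] at hp
      rw [mem_gsupp]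
      intro x hx
      have h2 : x ≠ c ∧ x ∉ S := by
        rw [Finset.mem_insert] at hx; push Not at hx; exact hx
      rw [Equiv.Perm.mul_apply, hp.2 x h2.2]
      apply Equiv.swap_apply_of_ne_of_ne h2.1
      intro h3
      exact hx (h3 ▸ hp.1)
    · intro h hh
      show Equiv.swap c (h c) * (Equiv.swap c (h c) * h) = h
      rw [← mul_assoc, Equiv.swap_mul_self, one_mul]
    · intro p hp
      rw [Finset.mem_product, mem_gsupp] at hp
      have h2 : (Equiv.swap c p.1 * p.2) c = p.1 := by
        rw [Equiv.Perm.mul_apply, hp.2 c hc, Equiv.swap_apply_left]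
      ext1
      · exact h2
      · show Equiv.swap c ((Equiv.swap c p.1 * p.2) c) * (Equiv.swap c p.1 * p.2) = p.2
        rw [h2, ← mul_assoc, Equiv.swap_mul_self, one_mul]
    · intro h hh
      show _ = MonoidAlgebra.single (Equiv.swap c (h c) * (Equiv.swap c (h c) * h)) (1 : ℂ)
      rw [← mul_assoc, Equiv.swap_mul_self, one_mul]
  have h2 : ∀ y, ∑ h ∈ gsupp S, MonoidAlgebra.single (Equiv.swap c y * h) (1 : ℂ) =
      (S.card.factorial : ℂ) • (MonoidAlgebra.single (Equiv.swap c y) (1 : ℂ) * eSym S) := by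
    intro y
    rw [eSym_eq, mul_smul_comm, smul_smul, mul_inv_cancel₀, one_smul, Finset.mul_sum]
    · apply Finset.sum_congr rfl
      intro h _
      rw [MonoidAlgebra.single_mul_single, one_mul]
    · exact_mod_cast S.card.factorial_ne_zero
  rw [eSym_eq (insert c S), h1, Finset.sum_product, Finset.sum_congr rfl (fun y _ => h2 y),
    ← Finset.smul_sum, smul_smul, Finset.sum_insert hc, Finset.card_insert_of_notMem hc,
    Nat.factorial_succ]
  congr 1
  · have h3 : (S.card.factorial : ℂ) ≠ 0 := by exact_mod_cast S.card.factorial_ne_zero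
    have h4 : ((S.card : ℂ) + 1) ≠ 0 := Nat.cast_add_one_ne_zero S.card
    push_cast
    field_simp
  · congr 1
    have : Equiv.swap c c = 1 := Equiv.swap_self c
    rw [this, ← MonoidAlgebra.one_def, one_mul]

/-- reduction of double cosets -/
lemma eSym_red (P : PW (Equiv.Perm X)) (i : ℕ) (S : Finset X) (β : Fin i ↪ X)
    (hβ : ∀ x, x ∉ S ↔ ∃ k, β k = x) : ∀ (t : ℕ) (g : Equiv.Perm X),
    (S.filter (fun y => g y ∉ S)).card = t →
    ∃ y : MonoidAlgebra ℂ (Equiv.Perm (Fin i)), ∀ v, P.lev v = i →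
      P.ρ v (eSym S * MonoidAlgebra.single g 1 * eSym S) = P.ρ v (emb β y * eSym S) := by
  classical
  have hcard : Sᶜ.card = i := by
    have h1 : Sᶜ = Finset.univ.map β := by
      ext x
      rw [Finset.mem_compl, hβ, Finset.mem_map]
      simp
    rw [h1, Finset.card_map, Finset.card_univ, Fintype.card_fin]
  intro t
  induction t using Nat.strong_induction_on with
  | _ t ih =>
  intro g hg
  by_cases ht : t = 0
  · -- `g` preserves `S`
    have h1 : ∀ y ∈ S, g y ∈ S := by
      intro y hy
      by_contra hcon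
      rw [ht, Finset.card_eq_zero] at hg
      have : y ∈ S.filter (fun y => g y ∉ S) := Finset.mem_filter.2 ⟨hy, hcon⟩
      rw [hg] at this
      simp at this
    have h2 : S.map g.toEmbedding = S := by
      apply Finset.eq_of_subset_of_card_le
      · intro x hx
        rw [Finset.mem_map] at hx
        obtain ⟨y, hy, rfl⟩ := hx
        exact h1 y hy
      · rw [Finset.card_map]
    have h3 : ∀ x, x ∉ S → g x ∉ S := by
      intro x hx hgx
      rw [← h2, Finset.mem_map] at hgx
      obtain ⟨y, hy, hyx⟩ := hgx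
      have : y = x := g.injective hyx
      exact hx (this ▸ hy)
    have h4 : ∀ k, ∃ k', β k' = g (β k) := by
      intro k
      rw [← hβ]
      apply h3
      rw [hβ]
      exact ⟨k, rfl⟩
    choose π0 hπ0 using h4
    have h5 : Function.Injective π0 := by
      intro a b hab
      apply β.injective
      apply g.injective
      rw [← hπ0, ← hπ0, hab]
    let π : Equiv.Perm (Fin i) := Equiv.ofBijective π0 (Finite.injective_iff_bijective.1 h5)
    have hπ : ∀ k, β (π k) = g (β k) := hπ0
    have h6 : (Equiv.Perm.viaEmbeddingHom β π)⁻¹ * g ∈ gsupp S := by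
      rw [mem_gsupp]
      intro x hx
      obtain ⟨k, rfl⟩ := (hβ x).1 hx
      rw [Equiv.Perm.mul_apply, Equiv.Perm.inv_eq_iff_eq, via_apply, hπ]
    have h7 : eSym S * MonoidAlgebra.single (Equiv.Perm.viaEmbeddingHom β π) (1 : ℂ) =
        MonoidAlgebra.single (Equiv.Perm.viaEmbeddingHom β π) (1 : ℂ) * eSym S := by
      rw [single_mul_eSym_map]
      congr 2
      symm
      apply Finset.eq_of_subset_of_card_le
      · intro x hx
        rw [Finset.mem_map] at hx
        obtain ⟨y, hy, rfl⟩ := hx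
        show Equiv.Perm.viaEmbeddingHom β π y ∈ S
        rw [via_apply_not β π y]
        · exact hy
        · intro k hk
          exact (hβ y).2 ⟨k, hk⟩ hy
      · rw [Finset.card_map]
    refine ⟨MonoidAlgebra.single π 1, fun v _ => ?_⟩
    congr 1
    have h8 : MonoidAlgebra.single g (1 : ℂ) =
        MonoidAlgebra.single (Equiv.Perm.viaEmbeddingHom β π) (1 : ℂ) *
          MonoidAlgebra.single ((Equiv.Perm.viaEmbeddingHom β π)⁻¹ * g) (1 : ℂ) := by
      rw [MonoidAlgebra.single_mul_single]
      simp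
    rw [h8, mul_assoc, mul_assoc, single_mul_eSym h6, ← mul_assoc, h7, mul_assoc, eSym_idem,
      emb_single]
  · -- the swap trick
    have hpos : 0 < (S.filter (fun y => g y ∉ S)).card := by omega
    obtain ⟨y0, hy0⟩ := Finset.card_pos.1 hpos
    rw [Finset.mem_filter] at hy0
    have hc : ∃ c, c ∉ S ∧ g c ∈ S := by
      by_contra hcon
      push Not at hcon
      have h2 : Sᶜ.map g.toEmbedding = Sᶜ := by
        apply Finset.eq_of_subset_of_card_le
        · intro x hx
          rw [Finset.mem_map] at hx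
          obtain ⟨y, hy, rfl⟩ := hx
          rw [Finset.mem_compl] at *
          exact hcon y hy
        · rw [Finset.card_map]
      have h3 : g y0 ∈ Sᶜ.map g.toEmbedding := by
        rw [h2, Finset.mem_compl]; exact hy0.2
      rw [Finset.mem_map] at h3
      obtain ⟨y, hy, hyx⟩ := h3
      have : y = y0 := g.injective hyx
      rw [this, Finset.mem_compl] at hy
      exact hy hy0.1
    obtain ⟨c, hcS, hgc⟩ := hc
    have hY : ∀ y, ∃ z : MonoidAlgebra ℂ (Equiv.Perm (Fin i)), y ∈ S.filter (fun y => g y ∉ S) →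
        ∀ v, P.lev v = i →
        P.ρ v (eSym S * MonoidAlgebra.single (g * Equiv.swap c y) 1 * eSym S) =
          P.ρ v (emb β z * eSym S) := by
      intro y
      by_cases hy : y ∈ S.filter (fun y => g y ∉ S)
      · have h2 : (S.filter (fun z => (g * Equiv.swap c y) z ∉ S)).card < t := by
          rw [← hg]
          apply Finset.card_lt_card
          rw [Finset.ssubset_iff_of_subset]
          · refine ⟨y, hy, ?_⟩
            rw [Finset.mem_filter]
            rintro ⟨_, h3⟩
            apply h3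
            rw [Equiv.Perm.mul_apply, Equiv.swap_apply_right]
            exact hgc
          · intro z hz
            rw [Finset.mem_filter] at hz ⊢
            refine ⟨hz.1, ?_⟩
            have h4 := hz.2
            rw [Equiv.Perm.mul_apply] at h4
            have hzc : z ≠ c := fun h => hcS (h ▸ hz.1)
            have hzy : z ≠ y := by
              rintro rfl
              rw [Equiv.swap_apply_right] at h4
              exact h4 hgc
            rwa [Equiv.swap_apply_of_ne_of_ne hzc hzy] at h4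
        obtain ⟨z, hz⟩ := ih _ h2 (g * Equiv.swap c y) rfl
        exact ⟨z, fun _ => hz⟩
      · exact ⟨0, fun h => absurd h hy⟩
    choose Y hY using hY
    set A := S.filter (fun y => g y ∉ S) with hA
    set B := S.filter (fun y => ¬ g y ∉ S) with hB
    refine ⟨-(((B.card : ℂ) + 1)⁻¹ • ∑ y ∈ A, Y y), fun v hv => ?_⟩
    have h3 : P.ρ v (eSym (insert c S)) = 0 := by
      by_contra hcon
      have h4 := lev_le P v _ hcon
      have h5 : (insert c S)ᶜ.card = Sᶜ.card - 1 := by
        rw [Finset.compl_insert, Finset.card_erase_of_mem (Finset.mem_compl.2 hcS)]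
      have h6 : 0 < Sᶜ.card := Finset.card_pos.2 ⟨c, Finset.mem_compl.2 hcS⟩
      omega
    have h4 : P.ρ v (eSym S + ∑ y ∈ S, MonoidAlgebra.single (Equiv.swap c y) (1 : ℂ) * eSym S)
        = 0 := by
      rw [eSym_insert hcS, map_smul] at h3
      rcases smul_eq_zero.1 h3 with h5 | h5
      · exfalso
        rw [inv_eq_zero] at h5
        exact (Nat.cast_add_one_ne_zero S.card) h5
      · exact h5
    have h5 : P.ρ v (eSym S * MonoidAlgebra.single g 1 * (eSym S + ∑ y ∈ S,
        MonoidAlgebra.single (Equiv.swap c y) (1 : ℂ) * eSym S)) = 0 := by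
      rw [map_mul, h4, mul_zero]
    have h6 : eSym S * MonoidAlgebra.single g 1 * (eSym S + ∑ y ∈ S,
        MonoidAlgebra.single (Equiv.swap c y) (1 : ℂ) * eSym S) =
        ((B.card : ℂ) + 1) • (eSym S * MonoidAlgebra.single g 1 * eSym S) +
        ∑ y ∈ A, eSym S * MonoidAlgebra.single (g * Equiv.swap c y) 1 * eSym S := by
      have h7 : ∀ y, eSym S * MonoidAlgebra.single g 1 *
          (MonoidAlgebra.single (Equiv.swap c y) (1 : ℂ) * eSym S) =
          eSym S * MonoidAlgebra.single (g * Equiv.swap c y) 1 * eSym S := by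
        intro y
        rw [mul_assoc, ← mul_assoc (MonoidAlgebra.single g 1), MonoidAlgebra.single_mul_single,
          one_mul, ← mul_assoc]
      have h8 : ∀ y ∈ B, eSym S * MonoidAlgebra.single (g * Equiv.swap c y) 1 * eSym S =
          eSym S * MonoidAlgebra.single g 1 * eSym S := by
        intro y hy
        rw [hB, Finset.mem_filter, not_not] at hy
        have h9 : g * Equiv.swap c y = Equiv.swap (g c) (g y) * g := by
          rw [Equiv.mul_swap_eq_swap_mul]
        have h10 : Equiv.swap (g c) (g y) ∈ gsupp S := by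
          rw [mem_gsupp]
          intro x hx
          apply Equiv.swap_apply_of_ne_of_ne
          · rintro rfl; exact hx hgc
          · rintro rfl; exact hx hy.2
        have h11 : MonoidAlgebra.single (Equiv.swap (g c) (g y) * g) (1 : ℂ) =
            MonoidAlgebra.single (Equiv.swap (g c) (g y)) 1 * MonoidAlgebra.single g 1 := by
          rw [MonoidAlgebra.single_mul_single, one_mul]
        rw [h9, h11, ← mul_assoc, eSym_mul_single h10]
      rw [mul_add, Finset.mul_sum, Finset.sum_congr rfl (fun y _ => h7 y),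
        ← Finset.sum_filter_add_sum_filter_not S (fun y => g y ∉ S), ← hA, ← hB,
        Finset.sum_congr rfl h8, Finset.sum_const, ← Nat.cast_smul_eq_nsmul ℂ, add_smul, one_smul]
      abel
    rw [h6, map_add, map_smul, map_sum,
      Finset.sum_congr rfl (fun y hy => hY y hy v hv)] at h5
    have h7 : ((B.card : ℂ) + 1) ≠ 0 := Nat.cast_add_one_ne_zero B.card
    have h8 : P.ρ v (eSym S * MonoidAlgebra.single g 1 * eSym S) =
        -(((B.card : ℂ) + 1)⁻¹ • ∑ y ∈ A, P.ρ v (emb β (Y y) * eSym S)) := by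
      have h9 := eq_neg_of_add_eq_zero_left h5
      rw [← smul_neg, ← h9, smul_smul, inv_mul_cancel₀ h7, one_smul]
    rw [h8, map_neg, map_smul, map_sum, neg_mul, smul_mul_assoc, Finset.sum_mul, map_neg,
      map_smul, map_sum]

lemma eSym_red' (P : PW (Equiv.Perm X)) (i : ℕ) (S : Finset X) (β : Fin i ↪ X)
    (hβ : ∀ x, x ∉ S ↔ ∃ k, β k = x) (z : MonoidAlgebra ℂ (Equiv.Perm X)) :
    ∃ y : MonoidAlgebra ℂ (Equiv.Perm (Fin i)), ∀ v, P.lev v = i →
      P.ρ v (eSym S * z * eSym S) = P.ρ v (emb β y * eSym S) := by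
  induction z using MonoidAlgebra.induction_linear with
  | zero => exact ⟨0, fun v _ => by simp⟩
  | add a b ha hb =>
    obtain ⟨y, hy⟩ := ha
    obtain ⟨y', hy'⟩ := hb
    refine ⟨y + y', fun v hv => ?_⟩
    rw [mul_add, add_mul, map_add, hy v hv, hy' v hv, map_add, add_mul, map_add]
  | single g r =>
    obtain ⟨y, hy⟩ := eSym_red P i S β hβ _ g rfl
    refine ⟨r • y, fun v hv => ?_⟩
    have h1 : (MonoidAlgebra.single g r : MonoidAlgebra ℂ (Equiv.Perm X)) =
        r • MonoidAlgebra.single g 1 := by simp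
    rw [h1, mul_smul_comm, smul_mul_assoc, map_smul, hy v hv, map_smul, smul_mul_assoc, map_smul]

/-- the element averaged over conjugation -/
noncomputable def cavg {i : ℕ} (y : MonoidAlgebra ℂ (Equiv.Perm (Fin i))) :
    MonoidAlgebra ℂ (Equiv.Perm (Fin i)) :=
  ((i.factorial : ℂ)⁻¹) • ∑ τ : Equiv.Perm (Fin i),
    MonoidAlgebra.single τ 1 * y * MonoidAlgebra.single τ⁻¹ 1

lemma cavg_conj {i : ℕ} (y : MonoidAlgebra ℂ (Equiv.Perm (Fin i))) (σ : Equiv.Perm (Fin i)) :
    MonoidAlgebra.single σ 1 * cavg y * MonoidAlgebra.single σ⁻¹ 1 = cavg y := by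
  rw [cavg, mul_smul_comm, smul_mul_assoc, Finset.mul_sum, Finset.sum_mul]
  congr 1
  refine Finset.sum_bij' (fun τ _ => σ * τ) (fun τ _ => σ⁻¹ * τ) ?_ ?_ ?_ ?_ ?_
  · intro _ _; exact Finset.mem_univ _
  · intro _ _; exact Finset.mem_univ _
  · intro _ _; simp
  · intro _ _; simp
  · intro τ _
    rw [mul_inv_rev, ← mul_one (1 : ℂ), ← MonoidAlgebra.single_mul_single,
      ← MonoidAlgebra.single_mul_single]
    simp only [mul_one, mul_assoc]

lemma cavg_class {i : ℕ} (y : MonoidAlgebra ℂ (Equiv.Perm (Fin i))) (σ π : Equiv.Perm (Fin i)) :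
    (cavg y).coeff (σ * π * σ⁻¹) = (cavg y).coeff π := by
  conv_lhs => rw [← cavg_conj y σ]
  rw [MonoidAlgebra.coeff_mul_single_apply, MonoidAlgebra.coeff_single_mul_apply]
  simp [mul_assoc]

lemma via_comm {i : ℕ} (S : Finset X) (β : Fin i ↪ X) (hβ : ∀ x, x ∉ S ↔ ∃ k, β k = x)
    (π : Equiv.Perm (Fin i)) :
    eSym S * MonoidAlgebra.single (Equiv.Perm.viaEmbeddingHom β π) (1 : ℂ) =
        MonoidAlgebra.single (Equiv.Perm.viaEmbeddingHom β π) (1 : ℂ) * eSym S := by
  rw [single_mul_eSym_map]
  congr 2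
  symm
  apply Finset.eq_of_subset_of_card_le
  · intro x hx
    rw [Finset.mem_map] at hx
    obtain ⟨y, hy, rfl⟩ := hx
    show Equiv.Perm.viaEmbeddingHom β π y ∈ S
    rw [via_apply_not β π y]
    · exact hy
    · intro k hk
      exact (hβ y).2 ⟨k, hk⟩ hy
  · rw [Finset.card_map]

lemma PW.e_comm {G : Type} [Group G] (P : PW G) (u : Fin P.m) (x : MonoidAlgebra ℂ G) :
    P.e u * x = x * P.e u := by
  apply P.ext_of_ρ
  intro j
  rw [map_mul, map_mul]
  by_cases hj : j = u
  · subst hj
    rw [PW.e, P.ρ_inc_same, one_mul, mul_one]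
  · rw [PW.e, P.ρ_inc_ne hj, zero_mul, mul_zero]

lemma eSym_red_avg (P : PW (Equiv.Perm X)) (i : ℕ) (S : Finset X) (β : Fin i ↪ X)
    (hβ : ∀ x, x ∉ S ↔ ∃ k, β k = x) (u : Fin P.m) (y : MonoidAlgebra ℂ (Equiv.Perm (Fin i)))
    (v : Fin P.m) (h : P.ρ v (eSym S * P.e u * eSym S) = P.ρ v (emb β y * eSym S)) :
    P.ρ v (eSym S * P.e u * eSym S) = P.ρ v (emb β (cavg y) * eSym S) := by
  have h1 : ∀ τ : Equiv.Perm (Fin i),
      P.ρ v (emb β (MonoidAlgebra.single τ 1 * y * MonoidAlgebra.single τ⁻¹ 1) * eSym S) =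
        P.ρ v (eSym S * P.e u * eSym S) := by
    intro τ
    have h2 : emb β (MonoidAlgebra.single τ 1 * y * MonoidAlgebra.single τ⁻¹ 1) * eSym S =
        emb β (MonoidAlgebra.single τ 1) * (emb β y * eSym S) *
          emb β (MonoidAlgebra.single τ⁻¹ 1) := by
      rw [map_mul, map_mul, emb_single β τ⁻¹]
      simp only [mul_assoc]
      rw [via_comm S β hβ τ⁻¹]
    have h3 : emb β (MonoidAlgebra.single τ 1) * (eSym S * P.e u * eSym S) *
          emb β (MonoidAlgebra.single τ⁻¹ 1) = eSym S * P.e u * eSym S := by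
      have h4 : emb β (MonoidAlgebra.single τ 1) * (eSym S * P.e u * eSym S) =
          (eSym S * P.e u * eSym S) * emb β (MonoidAlgebra.single τ 1) := by
        rw [emb_single]
        have c1 : Commute (MonoidAlgebra.single (Equiv.Perm.viaEmbeddingHom β τ) (1 : ℂ))
          (eSym S) := (via_comm S β hβ τ).symm
        have c2 : Commute (MonoidAlgebra.single (Equiv.Perm.viaEmbeddingHom β τ) (1 : ℂ))
          (P.e u) := (P.e_comm u _).symm
        exact ((c1.mul_right c2).mul_right c1).eq
      rw [h4, mul_assoc, ← map_mul, MonoidAlgebra.single_mul_single, mul_inv_cancel, mul_one,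
        ← MonoidAlgebra.one_def, map_one, mul_one]
    rw [h2, map_mul, map_mul, ← h, ← map_mul, ← map_mul, h3]
  rw [cavg, map_smul, map_sum, smul_mul_assoc, Finset.sum_mul, map_smul, map_sum,
    Finset.sum_congr rfl (fun τ _ => h1 τ), Finset.sum_const, Finset.card_univ,
    Fintype.card_perm, Fintype.card_fin, ← Nat.cast_smul_eq_nsmul ℂ, smul_smul,
    inv_mul_cancel₀, one_smul]
  exact_mod_cast i.factorial_ne_zero

theorem card_lev (P : PW (Equiv.Perm X)) (i : ℕ) :
    (Finset.univ.filter (fun v => P.lev v = i)).card ≤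
      Nat.card (ConjClasses (Equiv.Perm (Fin i))) := by
  classical
  rcases (Finset.univ.filter (fun v => P.lev v = i)).eq_empty_or_nonempty with h0 | ⟨v0, hv0⟩
  · rw [h0]; simp
  obtain ⟨S, hS, hS'⟩ := lev_spec P v0
  have hv0' : P.lev v0 = i := (Finset.mem_filter.1 hv0).2
  rw [hv0'] at hS
  let β : Fin i ↪ X :=
    ((Sᶜ).equivFinOfCardEq hS).symm.toEmbedding.trans (Function.Embedding.subtype _)
  have hβ : ∀ x, x ∉ S ↔ ∃ k, β k = x := by
    intro x
    constructor
    · intro hx
      refine ⟨(Sᶜ).equivFinOfCardEq hS ⟨x, Finset.mem_compl.2 hx⟩, ?_⟩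
      simp [β]
    · rintro ⟨k, rfl⟩
      exact Finset.mem_compl.1 (((Sᶜ).equivFinOfCardEq hS).symm k).2
  have hne : ∀ v, P.lev v = i → P.ρ v (eSym S) ≠ 0 := by
    intro v hv h
    obtain ⟨S1, hS1, hS1'⟩ := lev_spec P v
    have hc : Fintype.card {x // x ∈ S} = Fintype.card {x // x ∈ S1} := by
      rw [Fintype.card_coe, Fintype.card_coe]
      have h1 := Finset.card_add_card_compl S
      have h2 := Finset.card_add_card_compl S1
      omega
    let e0 : {x // x ∈ S} ≃ {x // x ∈ S1} := Fintype.equivOfCardEq hc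
    let g : Equiv.Perm X := e0.extendSubtype
    have hg : S.map g.toEmbedding = S1 := by
      apply Finset.eq_of_subset_of_card_le
      · intro x hx
        rw [Finset.mem_map] at hx
        obtain ⟨y, hy, rfl⟩ := hx
        exact e0.extendSubtype_mem y hy
      · rw [Finset.card_map]
        rw [Fintype.card_coe, Fintype.card_coe] at hc
        omega
    apply hS1'
    have h3 : eSym S1 = MonoidAlgebra.single g 1 * eSym S * MonoidAlgebra.single g⁻¹ 1 := by
      rw [single_mul_eSym_map, hg, mul_assoc, MonoidAlgebra.single_mul_single, mul_inv_cancel,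
        mul_one, ← MonoidAlgebra.one_def, mul_one]
    rw [h3, map_mul, map_mul, h, mul_zero, zero_mul]
  have hy : ∀ u : {v // P.lev v = i}, ∃ y : MonoidAlgebra ℂ (Equiv.Perm (Fin i)),
      ∀ v, P.lev v = i → P.ρ v (eSym S * P.e u * eSym S) = P.ρ v (emb β y * eSym S) :=
    fun u => eSym_red' P i S β hβ _
  choose y hy using hy
  let F : {v // P.lev v = i} → (ConjClasses (Equiv.Perm (Fin i)) → ℂ) :=
    fun u K => (cavg (y u)).coeff K.out
  have hF : LinearIndependent ℂ F := by
    rw [Fintype.linearIndependent_iff]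
    intro g hg w
    have h1 : ∑ u, g u • cavg (y u) = 0 := by
      ext π
      have h2 : ∀ u, (cavg (y u)).coeff π = F u (ConjClasses.mk π) := by
        intro u
        have h3 : IsConj (ConjClasses.mk π).out π := by
          rw [← ConjClasses.mk_eq_mk_iff_isConj]
          exact Quotient.out_eq _
        obtain ⟨σ, hσ⟩ := isConj_iff.1 h3
        show _ = (cavg (y u)).coeff (ConjClasses.mk π).out
        have h5 := cavg_class (y u) σ (ConjClasses.mk π).out
        rw [hσ] at h5
        exact h5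
      have h4 := congrFun hg (ConjClasses.mk π)
      rw [MonoidAlgebra.coeff_sum, Finsupp.finsetSum_apply]
      simp only [MonoidAlgebra.coeff_smul, Finsupp.smul_apply, h2]
      rw [Finset.sum_apply] at h4
      simpa using h4
    have h5 : P.ρ w (emb β (∑ u, g u • cavg (y u)) * eSym S) = g w • P.ρ w (eSym S) := by
      rw [map_sum, Finset.sum_mul, map_sum, Finset.sum_eq_single w]
      · rw [map_smul, smul_mul_assoc, map_smul,
          ← eSym_red_avg P i S β hβ w (y w) w (hy w w w.2), map_mul, map_mul, PW.e,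
          P.ρ_inc_same, mul_one, ← map_mul, eSym_idem]
      · intro u _ hu
        rw [map_smul, smul_mul_assoc, map_smul,
          ← eSym_red_avg P i S β hβ u (y u) w (hy u w w.2), map_mul, map_mul, PW.e,
          P.ρ_inc_ne, mul_zero, zero_mul, smul_zero]
        intro h; exact hu (Subtype.ext h.symm)
      · intro h; exact absurd (Finset.mem_univ _) h
    rw [h1, map_zero, zero_mul, map_zero] at h5
    rcases smul_eq_zero.1 h5.symm with h6 | h6
    · exact h6
    · exact absurd h6 (hne w w.2)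
  have h1 := hF.fintype_card_le_finrank
  rw [Module.finrank_fintype_fun_eq_card, Fintype.card_subtype] at h1
  rw [Nat.card_eq_fintype_card]
  exact h1

end G34

end Crest.Agent.Thorp
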