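import Crest.Agent.Lib.Row155.Alt.Defs
/-!
Row 155 (Thorp shuffle), second proof, chunk G5: dimension bound `dim_ge`.
-/
set_option autoImplicit false
open Finset
open scoped BigOperators Matrix

namespace Crest.Agent.Thorp
namespace G5

variable {X : Type} [Fintype X] [DecidableEq X] {J : Type} [Fintype J] [DecidableEq J]

/-- Flip the pairs selected by `Y`. -/
def flip (e : J × Bool ≃ X) (Y : J → Bool) : Equiv.Perm X :=
  e.permCongr
    { toFun := fun p => (p.1, xor p.2 (Y p.1))
      invFun := fun p => (p.1, xor p.2 (Y p.1))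
      left_inv := by intro p; simp
      right_inv := by intro p; simp }

omit [Fintype X] [DecidableEq X] [Fintype J] [DecidableEq J] in
theorem flip_apply (e : J × Bool ≃ X) (Y : J → Bool) (j : J) (b : Bool) :
    flip e Y (e (j, b)) = e (j, xor b (Y j)) := by
  simp [flip]

omit [Fintype X] [DecidableEq X] [Fintype J] [DecidableEq J] in
theorem flip_mul (e : J × Bool ≃ X) (Y Y' : J → Bool) :
    flip e Y * flip e Y' = flip e (fun j => xor (Y j) (Y' j)) := by
  ext x
  obtain ⟨⟨j, b⟩, rfl⟩ := e.surjective x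
  rw [Equiv.Perm.mul_apply, flip_apply, flip_apply, flip_apply]
  cases b <;> cases Y j <;> cases Y' j <;> rfl

omit [Fintype X] [DecidableEq X] [Fintype J] [DecidableEq J] in
theorem flip_false (e : J × Bool ≃ X) : flip e (fun _ => false) = 1 := by
  ext x
  obtain ⟨⟨j, b⟩, rfl⟩ := e.surjective x
  rw [flip_apply]; simp

omit [Fintype X] [Fintype J] in
theorem flip_single (e : J × Bool ≃ X) (j : J) :
    flip e (fun i => decide (i = j)) = Equiv.swap (e (j, false)) (e (j, true)) := by
  ext x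
  obtain ⟨⟨i, b⟩, rfl⟩ := e.surjective x
  rw [flip_apply]
  by_cases h : i = j
  · subst h
    cases b <;> simp
  · have h1 : e (i, b) ≠ e (j, false) := fun hh => h (congrArg Prod.fst (e.injective hh))
    have h2 : e (i, b) ≠ e (j, true) := fun hh => h (congrArg Prod.fst (e.injective hh))
    rw [Equiv.swap_apply_of_ne_of_ne h1 h2]
    simp [h]

/-- Characters. -/
noncomputable def chi (Z : Finset J) (Y : J → Bool) : ℂ := ∏ j ∈ Z, (if Y j then -1 else 1)

omit [Fintype J] [DecidableEq J] in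
theorem chi_mul (Z : Finset J) (Y Y' : J → Bool) :
    chi Z (fun j => xor (Y j) (Y' j)) = chi Z Y * chi Z Y' := by
  unfold chi
  rw [← Finset.prod_mul_distrib]
  refine Finset.prod_congr rfl ?_
  intro j _
  beta_reduce
  generalize Y j = a
  generalize Y' j = b
  cases a <;> cases b <;> simp

omit [Fintype J] in
theorem chi_single (Z : Finset J) (j : J) :
    chi Z (fun i => decide (i = j)) = if j ∈ Z then -1 else 1 := by
  unfold chi
  have : ∀ i ∈ Z, (if decide (i = j) = true then (-1 : ℂ) else 1) = if i = j then -1 else 1 := by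
    intro i _; simp
  rw [Finset.prod_congr rfl this, Finset.prod_ite_eq' Z j (fun _ => (-1 : ℂ))]

omit [DecidableEq J] in
theorem sum_chi (Y : J → Bool) :
    ∑ Z : Finset J, chi Z Y = if Y = (fun _ => false) then 2 ^ Fintype.card J else 0 := by
  have h : ∑ Z : Finset J, chi Z Y = ∏ j : J, (1 + (if Y j then (-1 : ℂ) else 1)) := by
    rw [Finset.prod_one_add]
    simp [chi]
  rw [h]
  split_ifs with hY
  · subst hY
    simp
    norm_num
  · obtain ⟨j, hj⟩ : ∃ j, Y j = true := by
      by_contra hcon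
      push Not at hcon
      exact hY (funext fun j => by simpa using hcon j)
    exact Finset.prod_eq_zero (Finset.mem_univ j) (by simp [hj])

theorem sum_chi_chi (Z Z' : Finset J) :
    ∑ Y : J → Bool, chi Z Y * chi Z' Y = if Z = Z' then 2 ^ Fintype.card J else 0 := by
  have h1 : ∀ (Z : Finset J) (Y : J → Bool), chi Z Y =
      ∏ j : J, (if j ∈ Z then (if Y j then (-1 : ℂ) else 1) else 1) := by
    intro Z Y
    unfold chi
    rw [Finset.prod_ite_mem]
    simp
  have h2 : ∑ Y : J → Bool, chi Z Y * chi Z' Y =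
      ∏ j : J, ∑ b : Bool, ((if j ∈ Z then (if b then (-1 : ℂ) else 1) else 1) *
        (if j ∈ Z' then (if b then (-1 : ℂ) else 1) else 1)) := by
    rw [Finset.prod_univ_sum, Fintype.piFinset_univ]
    refine Finset.sum_congr rfl ?_
    intro Y _
    rw [h1 Z, h1 Z', Finset.prod_mul_distrib]
  rw [h2]
  split_ifs with h
  · subst h
    rw [Finset.prod_congr rfl (g := fun _ => (2 : ℂ))]
    · simp
    · intro j _
      by_cases hj : j ∈ Z <;> simp [hj] <;> norm_num
  · obtain ⟨j, hj⟩ : ∃ j, ¬ (j ∈ Z ↔ j ∈ Z') := by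
      by_contra hcon
      push Not at hcon
      exact h (Finset.ext hcon)
    refine Finset.prod_eq_zero (Finset.mem_univ j) ?_
    by_cases h1 : j ∈ Z <;> by_cases h2 : j ∈ Z' <;> simp_all

/-- xor with a fixed function. -/
def xorEquiv (Y : J → Bool) : Equiv.Perm (J → Bool) :=
  { toFun := fun Y' j => xor (Y' j) (Y j)
    invFun := fun Y' j => xor (Y' j) (Y j)
    left_inv := by intro Y'; funext j; simp
    right_inv := by intro Y'; funext j; simp }

variable {M : Type*} [Ring M] [Algebra ℂ M] (τ : Equiv.Perm X →* M) (e : J × Bool ≃ X)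

/-- Simultaneous spectral projections. -/
noncomputable def Q (Z : Finset J) : M :=
  ((2 : ℂ) ^ Fintype.card J)⁻¹ • ∑ Y : J → Bool, chi Z Y • τ (flip e Y)

omit [Fintype X] [DecidableEq X] in
theorem Q_mul_flip (Z : Finset J) (Y : J → Bool) :
    Q τ e Z * τ (flip e Y) = chi Z Y • Q τ e Z := by
  unfold Q
  rw [smul_mul_assoc, Finset.sum_mul, smul_comm]
  congr 1
  rw [Finset.smul_sum]
  refine Fintype.sum_equiv (xorEquiv Y) _ _ ?_
  intro Y'
  rw [smul_mul_assoc, ← map_mul, flip_mul, smul_smul]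
  have h : chi Z Y * chi Z ((xorEquiv Y) Y') = chi Z Y' := by
    rw [← chi_mul]
    congr 1
    funext j
    simp only [xorEquiv, Equiv.coe_fn_mk]
    cases Y j <;> cases Y' j <;> rfl
  rw [h]
  rfl

omit [Fintype X] [DecidableEq X] in
theorem flip_mul_Q (Z : Finset J) (Y : J → Bool) :
    τ (flip e Y) * Q τ e Z = chi Z Y • Q τ e Z := by
  unfold Q
  rw [mul_smul_comm, Finset.mul_sum, smul_comm]
  congr 1
  rw [Finset.smul_sum]
  refine Fintype.sum_equiv (xorEquiv Y) _ _ ?_
  intro Y'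
  rw [mul_smul_comm, ← map_mul, flip_mul, smul_smul]
  have h : chi Z Y * chi Z ((xorEquiv Y) Y') = chi Z Y' := by
    rw [← chi_mul]
    congr 1
    funext j
    simp only [xorEquiv, Equiv.coe_fn_mk]
    cases Y j <;> cases Y' j <;> rfl
  rw [h]
  congr 3
  funext j
  simp only [xorEquiv, Equiv.coe_fn_mk]
  cases Y j <;> cases Y' j <;> rfl

omit [Fintype X] [DecidableEq X] in
theorem sum_Q : ∑ Z : Finset J, Q τ e Z = 1 := by
  unfold Q
  rw [← Finset.smul_sum, Finset.sum_comm]
  have h : ∀ Y : J → Bool, ∑ Z : Finset J, chi Z Y • τ (flip e Y) =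
      if Y = (fun _ => false) then ((2 : ℂ) ^ Fintype.card J) • (1 : M) else 0 := by
    intro Y
    rw [← Finset.sum_smul, sum_chi]
    split_ifs with hY
    · subst hY
      rw [flip_false, map_one]
    · rw [zero_smul]
  rw [Finset.sum_congr rfl (fun Y _ => h Y), Finset.sum_ite_eq']
  simp only [Finset.mem_univ, if_true]
  rw [smul_smul, inv_mul_cancel₀ (pow_ne_zero _ two_ne_zero), one_smul]

omit [Fintype X] [DecidableEq X] in
theorem Q_mul_Q (Z Z' : Finset J) : Q τ e Z * Q τ e Z' = if Z = Z' then Q τ e Z else 0 := by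
  conv_lhs => rw [Q, smul_mul_assoc, Finset.sum_mul]
  have h : ∀ Y : J → Bool, chi Z Y • τ (flip e Y) * Q τ e Z' = (chi Z Y * chi Z' Y) • Q τ e Z' := by
    intro Y
    rw [smul_mul_assoc, flip_mul_Q, smul_smul]
  rw [Finset.sum_congr rfl (fun Y _ => h Y), ← Finset.sum_smul, sum_chi_chi]
  split_ifs with hZ
  · subst hZ
    rw [smul_smul, inv_mul_cancel₀ (pow_ne_zero _ two_ne_zero), one_smul]
  · rw [zero_smul, smul_zero]

omit [Fintype X] [DecidableEq X] in
theorem Q_mul_self (Z : Finset J) : Q τ e Z * Q τ e Z = Q τ e Z := by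
  rw [Q_mul_Q, if_pos rfl]

omit [Fintype X] [DecidableEq X] in
theorem Q_mul_ne {Z Z' : Finset J} (h : Z ≠ Z') : Q τ e Z * Q τ e Z' = 0 := by
  rw [Q_mul_Q, if_neg h]

/-- The permutation of `X` induced by a permutation of the pairs. -/
def lift (e : J × Bool ≃ X) (π : Equiv.Perm J) : Equiv.Perm X :=
  e.permCongr (Equiv.prodCongr π (Equiv.refl Bool))

omit [Fintype X] [DecidableEq X] [Fintype J] [DecidableEq J] in
theorem lift_apply (π : Equiv.Perm J) (j : J) (b : Bool) :
    lift e π (e (j, b)) = e (π j, b) := by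
  simp [lift]

omit [Fintype X] [DecidableEq X] [Fintype J] [DecidableEq J] in
theorem lift_flip (π : Equiv.Perm J) (Y : J → Bool) :
    lift e π * flip e Y = flip e (fun j => Y (π.symm j)) * lift e π := by
  ext x
  obtain ⟨⟨j, b⟩, rfl⟩ := e.surjective x
  rw [Equiv.Perm.mul_apply, Equiv.Perm.mul_apply, flip_apply, lift_apply, lift_apply, flip_apply]
  simp

omit [Fintype X] [DecidableEq X] in
theorem lift_Q (π : Equiv.Perm J) (Z : Finset J) :
    τ (lift e π) * Q τ e Z = Q τ e (Z.map π.toEmbedding) * τ (lift e π) := by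
  unfold Q
  rw [mul_smul_comm, smul_mul_assoc, Finset.mul_sum, Finset.sum_mul]
  congr 1
  refine Fintype.sum_equiv (Equiv.arrowCongr π (Equiv.refl Bool)) _ _ ?_
  intro Y
  rw [mul_smul_comm, smul_mul_assoc, ← map_mul, ← map_mul, lift_flip]
  have h1 : (Equiv.arrowCongr π (Equiv.refl Bool)) Y = fun j => Y (π.symm j) := by
    funext j; simp
  rw [h1]
  congr 1
  unfold chi
  rw [Finset.prod_map]
  refine Finset.prod_congr rfl ?_
  intro j _
  simp

omit [Fintype X] [DecidableEq X] in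
theorem Q_ne_of_card {Z Z' : Finset J} (h : Z.card = Z'.card) (hZ : Q τ e Z ≠ 0) :
    Q τ e Z' ≠ 0 := by
  classical
  have hc : Fintype.card {x // x ∈ Z} = Fintype.card {x // x ∈ Z'} := by
    simpa using h
  let f : {x // x ∈ Z} ≃ {x // x ∈ Z'} := Fintype.equivOfCardEq hc
  have hmap : Z.map (f.extendSubtype).toEmbedding = Z' := by
    refine Finset.eq_of_subset_of_card_le ?_ (by rw [Finset.card_map]; omega)
    intro y hy
    obtain ⟨x, hx, rfl⟩ := Finset.mem_map.1 hy
    exact f.extendSubtype_mem x hx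
  have key := lift_Q τ e f.extendSubtype Z
  rw [hmap] at key
  intro h0
  rw [h0, zero_mul] at key
  apply hZ
  have : τ (lift e f.extendSubtype)⁻¹ * (τ (lift e f.extendSubtype) * Q τ e Z) = 0 := by
    rw [key, mul_zero]
  rwa [← mul_assoc, ← map_mul, inv_mul_cancel, map_one, one_mul] at this

omit [Fintype X] [DecidableEq X] [Fintype J] [DecidableEq J] in
theorem swap_comm_flip [DecidableEq X] [DecidableEq J] (a b : J × Bool) (k : J) (ha : a.1 ≠ k)
    (hb : b.1 ≠ k) :
    Equiv.swap (e a) (e b) * flip e (fun i => decide (i = k)) =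
      flip e (fun i => decide (i = k)) * Equiv.swap (e a) (e b) := by
  have h := Equiv.mul_swap_eq_swap_mul (flip e (fun i => decide (i = k))) (e a) (e b)
  rw [h]
  obtain ⟨a1, a2⟩ := a
  obtain ⟨b1, b2⟩ := b
  rw [flip_apply, flip_apply]
  simp only at ha hb
  simp [ha, hb]

omit [Fintype X] in
theorem Q_swap_Q (a b : J × Bool) (Z Z' : Finset J) (k : J) (ha : a.1 ≠ k) (hb : b.1 ≠ k)
    (hk : ¬ (k ∈ Z ↔ k ∈ Z')) :
    Q τ e Z' * τ (Equiv.swap (e a) (e b)) * Q τ e Z = 0 := by
  have h1 := flip_mul_Q τ e Z (fun i => decide (i = k))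
  have h2 := Q_mul_flip τ e Z' (fun i => decide (i = k))
  rw [chi_single] at h1 h2
  have h3 : Q τ e Z' * τ (Equiv.swap (e a) (e b)) * (τ (flip e (fun i => decide (i = k))) *
      Q τ e Z) = (Q τ e Z' * τ (flip e (fun i => decide (i = k)))) *
        τ (Equiv.swap (e a) (e b)) * Q τ e Z := by
    have := congrArg τ (swap_comm_flip e a b k ha hb)
    rw [map_mul, map_mul] at this
    simp only [mul_assoc]
    rw [← mul_assoc (τ (Equiv.swap (e a) (e b))), this, mul_assoc]
  rw [h1, h2] at h3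
  set W := Q τ e Z' * τ (Equiv.swap (e a) (e b)) * Q τ e Z with hW
  have h4 : W = -W := by
    by_cases hz : k ∈ Z <;> by_cases hz' : k ∈ Z'
    · exact absurd (iff_of_true hz hz') hk
    · simp only [hz, hz', if_true, if_false, one_smul, neg_smul, mul_neg] at h3
      exact (neg_eq_iff_eq_neg.1 h3)
    · simp only [hz, hz', if_true, if_false, one_smul, neg_smul, neg_mul] at h3
      exact h3
    · exact absurd (iff_of_false hz hz') hk
  have h5 : (2 : ℂ) • W = 0 := by
    rw [two_smul]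
    nth_rewrite 1 [h4]
    simp
  exact (smul_eq_zero.1 h5).resolve_left (by norm_num)

omit [Fintype X] in
theorem Q_swap_Q' (a b : J × Bool) (Z Z' : Finset J)
    (h : Q τ e Z' * τ (Equiv.swap (e a) (e b)) * Q τ e Z ≠ 0) (k : J) (ha : a.1 ≠ k)
    (hb : b.1 ≠ k) : k ∈ Z ↔ k ∈ Z' := by
  by_contra hk
  exact h (Q_swap_Q τ e a b Z Z' k ha hb hk)

omit [Fintype X] in
theorem card_le_of_Q_swap_Q (a b : J × Bool) (Z Z' : Finset J)
    (h : Q τ e Z' * τ (Equiv.swap (e a) (e b)) * Q τ e Z ≠ 0) :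
    Z'.card ≤ Z.card + 2 ∧ Z.card ≤ Z'.card + 2 := by
  have key := Q_swap_Q' τ e a b Z Z' h
  constructor
  · have hsub : Z' ⊆ Z ∪ {a.1, b.1} := by
      intro k hk
      by_cases h1 : a.1 = k
      · simp [h1]
      by_cases h2 : b.1 = k
      · simp [h2]
      exact Finset.mem_union_left _ ((key k h1 h2).2 hk)
    calc Z'.card ≤ (Z ∪ {a.1, b.1}).card := Finset.card_le_card hsub
      _ ≤ Z.card + ({a.1, b.1} : Finset J).card := Finset.card_union_le _ _
      _ ≤ Z.card + 2 := by gcongr; exact Finset.card_le_two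
  · have hsub : Z ⊆ Z' ∪ {a.1, b.1} := by
      intro k hk
      by_cases h1 : a.1 = k
      · simp [h1]
      by_cases h2 : b.1 = k
      · simp [h2]
      exact Finset.mem_union_left _ ((key k h1 h2).1 hk)
    calc Z.card ≤ (Z' ∪ {a.1, b.1}).card := Finset.card_le_card hsub
      _ ≤ Z'.card + ({a.1, b.1} : Finset J).card := Finset.card_union_le _ _
      _ ≤ Z'.card + 2 := by gcongr; exact Finset.card_le_two

/-! ### maximal types -/

omit [Fintype X] in
theorem swap_Q_of_max (Z : Finset J) (hmax : ∀ Z' : Finset J, Q τ e Z' ≠ 0 → Z'.card ≤ Z.card)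
    (a b : J × Bool) (ha : a.1 ∉ Z) (hb : b.1 ∉ Z) :
    τ (Equiv.swap (e a) (e b)) * Q τ e Z = Q τ e Z * τ (Equiv.swap (e a) (e b)) * Q τ e Z := by
  have h1 : τ (Equiv.swap (e a) (e b)) * Q τ e Z =
      ∑ Z' : Finset J, Q τ e Z' * τ (Equiv.swap (e a) (e b)) * Q τ e Z := by
    simp_rw [mul_assoc]
    rw [← Finset.sum_mul, sum_Q, one_mul]
  rw [h1]
  refine Finset.sum_eq_single Z ?_ (by simp)
  intro Z' _ hne
  by_contra hcon
  apply hne
  have hQ : Q τ e Z' ≠ 0 := by
    intro h0; apply hcon; rw [h0, zero_mul, zero_mul]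
  have hle := hmax Z' hQ
  have key := Q_swap_Q' τ e a b Z Z' hcon
  have hsub : Z ⊆ Z' := by
    intro k hk
    have h1 : a.1 ≠ k := fun h => ha (h ▸ hk)
    have h2 : b.1 ≠ k := fun h => hb (h ▸ hk)
    exact (key k h1 h2).1 hk
  exact (Finset.eq_of_subset_of_card_le hsub hle).symm

omit [Fintype X] in
theorem swap_fix (Z : Finset J) (hmax : ∀ Z' : Finset J, Q τ e Z' ≠ 0 → Z'.card ≤ Z.card)
    (a b : J × Bool) (ha : a.1 ∉ Z) (hb : b.1 ∉ Z) :
    τ (Equiv.swap (e a) (e b)) * Q τ e Z = Q τ e Z := by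
  have hpair : ∀ (j : J) (c d : Bool), j ∉ Z →
      τ (Equiv.swap (e (j, c)) (e (j, d))) * Q τ e Z = Q τ e Z := by
    intro j c d hj
    have hs : τ (Equiv.swap (e (j, false)) (e (j, true))) * Q τ e Z = Q τ e Z := by
      rw [← flip_single, flip_mul_Q, chi_single, if_neg hj, one_smul]
    cases c <;> cases d
    · rw [Equiv.swap_self]; exact (by rw [show (Equiv.refl X : Equiv.Perm X) = 1 from rfl,
        map_one, one_mul])
    · exact hs
    · rw [Equiv.swap_comm]; exact hs
    · rw [Equiv.swap_self]; exact (by rw [show (Equiv.refl X : Equiv.Perm X) = 1 from rfl,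
        map_one, one_mul])
  obtain ⟨i, c⟩ := a
  obtain ⟨j, d⟩ := b
  simp only at ha hb
  by_cases hij : i = j
  · subst hij
    exact hpair i c d ha
  · have hA := swap_Q_of_max τ e Z hmax (i, !c) (j, d) ha hb
    have hn1 : e (i, c) ≠ e (j, d) := fun h => hij (congrArg Prod.fst (e.injective h))
    have hn2 : e (i, c) ≠ e (i, !c) := by
      intro h
      have := congrArg Prod.snd (e.injective h)
      cases c <;> simp at this
    have hconj : Equiv.swap (e (i, c)) (e (j, d)) =
        Equiv.swap (e (i, !c)) (e (j, d)) * Equiv.swap (e (i, c)) (e (i, !c)) *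
          Equiv.swap (e (i, !c)) (e (j, d)) := by
      rw [Equiv.mul_swap_eq_swap_mul (Equiv.swap (e (i, !c)) (e (j, d))) (e (i, c)), mul_assoc,
        Equiv.swap_mul_self, mul_one,
        Equiv.swap_apply_left, Equiv.swap_apply_of_ne_of_ne hn2 hn1]
    rw [hconj, map_mul, map_mul, mul_assoc, hA]
    rw [mul_assoc (τ _) (τ _), ← mul_assoc (τ (Equiv.swap (e (i, c)) (e (i, !c)))) ,
      ← mul_assoc (τ (Equiv.swap (e (i, c)) (e (i, !c)))), hpair i c (!c) ha, ← hA, ← mul_assoc,
      ← map_mul, Equiv.swap_mul_self, map_one, one_mul]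

/-- The union of the pairs not in `Z`. -/
def triv (e : J × Bool ≃ X) (Z : Finset J) : Finset X :=
  Finset.univ.filter (fun x => (e.symm x).1 ∉ Z)

omit [Fintype J] in
theorem card_triv_compl (Z : Finset J) : (triv e Z)ᶜ.card = 2 * Z.card := by
  have : (triv e Z)ᶜ = (Z ×ˢ (Finset.univ : Finset Bool)).map e.toEmbedding := by
    ext x
    obtain ⟨⟨j, b⟩, rfl⟩ := e.surjective x
    simp [triv]
  rw [this, Finset.card_map, Finset.card_product]
  simp [mul_comm]

theorem perm_fix (Z : Finset J) (hmax : ∀ Z' : Finset J, Q τ e Z' ≠ 0 → Z'.card ≤ Z.card)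
    (h : Equiv.Perm X) (hh : ∀ x, x ∉ triv e Z → h x = x) : τ h * Q τ e Z = Q τ e Z := by
  classical
  have hsw : ∀ a b : X, a ∈ triv e Z → b ∈ triv e Z → τ (Equiv.swap a b) * Q τ e Z = Q τ e Z := by
    intro a b ha hb
    obtain ⟨a, rfl⟩ := e.surjective a
    obtain ⟨b, rfl⟩ := e.surjective b
    exact swap_fix τ e Z hmax a b (by simpa [triv] using ha) (by simpa [triv] using hb)
  have hh' : ∀ x, h x ≠ x → x ∈ triv e Z := by
    intro x hx
    by_contra hcon
    exact hx (hh x hcon)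
  have hmem : ∀ x, h x ∈ triv e Z ↔ x ∈ triv e Z := by
    intro x
    by_cases hx : h x = x
    · rw [hx]
    · have h1 := hh' x hx
      have h2 : h (h x) ≠ h x := fun h3 => hx (h.injective h3)
      exact iff_of_true (hh' _ h2) h1
  have hsub : h = Equiv.Perm.ofSubtype (h.subtypePerm hmem) := by
    rw [Equiv.Perm.ofSubtype_subtypePerm]
    exact hh'
  rw [hsub]
  generalize h.subtypePerm hmem = g
  induction g using Equiv.Perm.swap_induction_on with
  | one => rw [map_one, map_one, one_mul]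
  | swap_mul f x y hxy ih =>
    rw [map_mul, map_mul, mul_assoc, ih, Equiv.Perm.ofSubtype_swap_eq]
    exact hsw _ _ x.2 y.2

omit [Fintype X] in
theorem eq_zero_of_eq_neg {W : M} (h : W = -W) : W = 0 := by
  have h5 : (2 : ℂ) • W = 0 := by
    rw [two_smul]
    nth_rewrite 1 [h]
    simp
  exact (smul_eq_zero.1 h5).resolve_left (by norm_num)

omit [Fintype X] [DecidableEq X] in
theorem choose_le {d : ℕ} (τ : Equiv.Perm X →* Matrix (Fin d) (Fin d) ℂ) (e : J × Bool ≃ X)
    (Z : Finset J) (hZ : Q τ e Z ≠ 0) : (Fintype.card J).choose Z.card ≤ d := by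
  classical
  have hall : ∀ Z' : {s : Finset J // s.card = Z.card},
      ∃ w : Fin d → ℂ, w ≠ 0 ∧ (Q τ e Z'.1).mulVec w = w := by
    rintro ⟨Z', hZ'⟩
    have hne := Q_ne_of_card τ e hZ'.symm hZ
    obtain ⟨u, hu⟩ : ∃ u : Fin d → ℂ, (Q τ e Z').mulVec u ≠ 0 := by
      by_contra hcon
      push Not at hcon
      apply hne
      ext i j
      have := congrFun (hcon (Pi.single j 1)) i
      simpa using this
    refine ⟨(Q τ e Z').mulVec u, hu, ?_⟩
    rw [Matrix.mulVec_mulVec, Q_mul_self]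
  choose w hw0 hw using hall
  have hli : LinearIndependent ℂ w := by
    rw [Fintype.linearIndependent_iff]
    intro g hg Z'
    have h1 := congrArg (fun u => (Q τ e Z'.1).mulVec u) hg
    simp only [Matrix.mulVec_zero] at h1
    rw [Matrix.mulVec_sum, Finset.sum_eq_single Z'] at h1
    · rw [Matrix.mulVec_smul, hw] at h1
      exact (smul_eq_zero.1 h1).resolve_right (hw0 Z')
    · intro Z'' _ hne
      rw [Matrix.mulVec_smul, ← hw Z'', Matrix.mulVec_mulVec, Q_mul_ne, Matrix.zero_mulVec,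
        smul_zero]
      exact fun h => hne (Subtype.ext h.symm)
    · intro h; exact absurd (Finset.mem_univ _) h
  have := hli.fintype_card_le_finrank
  rw [Fintype.card_finset_len] at this
  simpa using this

theorem eSym_ne {d : ℕ} (ρ : MonoidAlgebra ℂ (Equiv.Perm X) →ₐ[ℂ] Matrix (Fin d) (Fin d) ℂ)
    (τ : Equiv.Perm X →* Matrix (Fin d) (Fin d) ℂ) (hτ : ∀ g, τ g = ρ (MonoidAlgebra.single g 1))
    (e : J × Bool ≃ X) (Z : Finset J) (hZ : Q τ e Z ≠ 0)
    (hmax : ∀ Z' : Finset J, Q τ e Z' ≠ 0 → Z'.card ≤ Z.card) :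
    ρ (eSym (triv e Z)) ≠ 0 := by
  intro h0
  have h1 : ρ (eSym (triv e Z)) * Q τ e Z = (((triv e Z).card.factorial : ℂ)⁻¹ *
      ((Finset.univ.filter (fun h : Equiv.Perm X => ∀ x, x ∉ triv e Z → h x = x)).card : ℂ)) •
        Q τ e Z := by
    rw [eSym, map_smul, map_sum, smul_mul_assoc, Finset.sum_mul, mul_smul]
    congr 1
    rw [Finset.sum_congr rfl (g := fun _ => Q τ e Z)]
    · rw [Finset.sum_const, ← Nat.cast_smul_eq_nsmul ℂ]
    · intro h hh
      rw [← hτ]
      exact perm_fix τ e Z hmax h (Finset.mem_filter.1 hh).2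
  rw [h0, zero_mul] at h1
  rcases smul_eq_zero.1 h1.symm with h2 | h2
  · rcases mul_eq_zero.1 h2 with h3 | h3
    · exact (inv_ne_zero (Nat.cast_ne_zero.2 (Nat.factorial_ne_zero _))) h3
    · have : (Finset.univ.filter
          (fun h : Equiv.Perm X => ∀ x, x ∉ triv e Z → h x = x)).card = 0 := by exact_mod_cast h3
      rw [Finset.card_eq_zero] at this
      have h4 : (1 : Equiv.Perm X) ∈ Finset.univ.filter
          (fun h : Equiv.Perm X => ∀ x, x ∉ triv e Z → h x = x) := by simp
      rw [this] at h4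
      simp at h4
  · exact hZ h2

theorem gap (y : ℕ) (hno : ∀ Z : Finset J, Q τ e Z ≠ 0 → Z.card < y ∨ y + 2 ≤ Z.card)
    (Z : Finset J) (hZ : y + 2 ≤ Z.card) (g : Equiv.Perm X) :
    ∀ Z' : Finset J, Z'.card < y → Q τ e Z * τ g * Q τ e Z' = 0 := by
  classical
  induction g using Equiv.Perm.swap_induction_on' with
  | one =>
    intro Z' hZ'
    rw [map_one, mul_one, Q_mul_ne]
    rintro rfl
    omega
  | mul_swap f x y' hxy ih =>
    intro Z' hZ'
    obtain ⟨a, rfl⟩ := e.surjective x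
    obtain ⟨b, rfl⟩ := e.surjective y'
    have h1 : Q τ e Z * τ (f * Equiv.swap (e a) (e b)) * Q τ e Z' =
        ∑ W : Finset J, (Q τ e Z * τ f * Q τ e W) * (Q τ e W * τ (Equiv.swap (e a) (e b)) *
          Q τ e Z') := by
      have : ∀ W : Finset J, (Q τ e Z * τ f * Q τ e W) * (Q τ e W * τ (Equiv.swap (e a) (e b)) *
          Q τ e Z') = (Q τ e Z * τ f) * (Q τ e W * (τ (Equiv.swap (e a) (e b)) * Q τ e Z')) := by
        intro W
        simp only [mul_assoc]
        rw [← mul_assoc (Q τ e W) (Q τ e W), Q_mul_self]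
      rw [Finset.sum_congr rfl (fun W _ => this W), ← Finset.mul_sum, ← Finset.sum_mul, sum_Q,
        one_mul, map_mul]
      simp only [mul_assoc]
    rw [h1]
    refine Finset.sum_eq_zero fun W _ => ?_
    by_cases h2 : Q τ e W * τ (Equiv.swap (e a) (e b)) * Q τ e Z' = 0
    · rw [h2, mul_zero]
    · have h3 := card_le_of_Q_swap_Q τ e a b Z' W h2
      have h4 : Q τ e W ≠ 0 := by
        intro h0; apply h2; rw [h0, zero_mul, zero_mul]
      have h5 : W.card < y := by
        rcases hno W h4 with h | h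
        · exact h
        · omega
      rw [ih W h5, zero_mul]

end G5

open G5 in
theorem dim_ge {X : Type} [Fintype X] [DecidableEq X] {J : Type} [Fintype J] [DecidableEq J]
    (e : J × Bool ≃ X) (P : PW (Equiv.Perm X)) (v : Fin P.m) (x : MonoidAlgebra ℂ (Equiv.Perm X))
    (hx : ∀ j, x * MonoidAlgebra.single (Equiv.swap (e (j, false)) (e (j, true))) 1 = x)
    (hne : P.ρ v x ≠ 0) (y : ℕ) (hy : 2 * y ≤ P.lev v + 1) :
    ∃ z, (z = y ∨ z = y + 1) ∧ (Fintype.card J).choose z ≤ P.d v := by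
  classical
  set τ : Equiv.Perm X →* Matrix (Fin (P.d v)) (Fin (P.d v)) ℂ :=
    (P.ρ v : _ →* _).comp (MonoidAlgebra.of ℂ (Equiv.Perm X)) with hτ
  have hτg : ∀ g, τ g = P.ρ v (MonoidAlgebra.single g 1) := fun g => rfl
  have h0 : Q τ e ∅ ≠ 0 := by
    intro h
    apply hne
    have h1 : P.ρ v x = ∑ Z, P.ρ v x * Q τ e Z := by rw [← Finset.mul_sum, sum_Q, mul_one]
    rw [h1]
    refine Finset.sum_eq_zero fun Z _ => ?_
    by_cases hZ : Z = ∅
    · rw [hZ, h, mul_zero]
    · obtain ⟨j, hj⟩ := Finset.nonempty_iff_ne_empty.2 hZ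
      have h2 : P.ρ v x = P.ρ v x * τ (flip e (fun i => decide (i = j))) := by
        rw [flip_single, hτg, ← map_mul, hx j]
      apply eq_zero_of_eq_neg
      conv_lhs => rw [h2, mul_assoc, flip_mul_Q, chi_single, if_pos hj]
      simp
  obtain ⟨Zm, hZm, hmax⟩ := Finset.exists_max_image
    (Finset.univ.filter (fun Z : Finset J => Q τ e Z ≠ 0)) Finset.card
    ⟨∅, by simpa using h0⟩
  have hZm' : Q τ e Zm ≠ 0 := (Finset.mem_filter.1 hZm).2
  have hmax' : ∀ Z' : Finset J, Q τ e Z' ≠ 0 → Z'.card ≤ Zm.card :=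
    fun Z' hZ' => hmax Z' (by simpa using hZ')
  have hlev : P.lev v ≤ 2 * Zm.card := by
    rw [← card_triv_compl e Zm]
    exact Nat.sInf_le ⟨triv e Zm, rfl, eSym_ne (P.ρ v) τ hτg e Zm hZm' hmax'⟩
  have hy' : y ≤ Zm.card := by omega
  by_cases hA : ∃ Z : Finset J, Q τ e Z ≠ 0 ∧ (Z.card = y ∨ Z.card = y + 1)
  · obtain ⟨Z, hZ, hc⟩ := hA
    exact ⟨Z.card, hc, choose_le τ e Z hZ⟩
  · exfalso
    have hno : ∀ Z : Finset J, Q τ e Z ≠ 0 → Z.card < y ∨ y + 2 ≤ Z.card := by
      intro Z hZ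
      by_contra hcon
      exact hA ⟨Z, hZ, by omega⟩
    have hZmc : y + 2 ≤ Zm.card := by
      rcases hno Zm hZm' with h | h
      · omega
      · exact h
    have h0c : (∅ : Finset J).card < y := by
      rcases hno ∅ h0 with h | h
      · exact h
      · simp at h
    have hg := fun g => gap τ e y hno Zm hZmc g ∅ h0c
    have hall : ∀ a : MonoidAlgebra ℂ (Equiv.Perm X), Q τ e Zm * P.ρ v a * Q τ e ∅ = 0 := by
      intro a
      induction a using MonoidAlgebra.induction_on with
      | of g => exact hg g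
      | add a b ha hb => rw [map_add, mul_add, add_mul, ha, hb, add_zero]
      | smul r a ha => rw [map_smul, mul_smul_comm, smul_mul_assoc, ha, smul_zero]
    have hall' : ∀ A : Matrix (Fin (P.d v)) (Fin (P.d v)) ℂ, Q τ e Zm * A * Q τ e ∅ = 0 := by
      intro A
      have := hall (P.inc v A)
      rwa [P.ρ_inc_same] at this
    apply hZm'
    ext k i
    obtain ⟨j, l, hjl⟩ : ∃ j l, Q τ e ∅ j l ≠ 0 := by
      by_contra hcon
      push Not at hcon
      exact h0 (by ext j l; simpa using hcon j l)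
    have h1 := congrFun (congrFun (hall' (Matrix.single i j 1)) k) l
    rw [Matrix.mul_assoc, Matrix.mul_apply, Finset.sum_eq_single i] at h1
    · rw [Matrix.single_mul_apply_same] at h1
      simp only [one_mul, Matrix.zero_apply, mul_eq_zero] at h1
      exact h1.resolve_right hjl
    · intro m _ hm
      rw [Matrix.single_mul_apply_of_ne (h := hm)]
      simp
    · intro h; exact absurd (Finset.mem_univ _) h

end Crest.Agent.Thorp
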