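import Crest.Agent.Lib.Row155.Alt.Defs
/-!
Row 155 (Thorp shuffle), second proof, chunk G6: number of conjugacy classes of `S_i`.
-/
set_option autoImplicit false
open Finset

namespace Crest.Agent.Thorp

private theorem g6_sort_eq {m m' : Multiset ℕ} {s i : ℕ} (hs : i < (s + 1) * (s + 1))
    (hm : m.sum ≤ i) (hm' : m'.sum ≤ i)
    (h : ∀ k, k < s + 1 → ((m.filter (s < ·)).sort (· ≤ ·)).getD k 0 =
      ((m'.filter (s < ·)).sort (· ≤ ·)).getD k 0) :
    m.filter (s < ·) = m'.filter (s < ·) := by
  have key : ∀ m : Multiset ℕ, m.sum ≤ i → ((m.filter (s < ·)).sort (· ≤ ·)).length ≤ s := by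
    intro m hm
    rw [Multiset.length_sort]
    have h1 : (m.filter (s < ·)).card • (s + 1) ≤ (m.filter (s < ·)).sum := by
      apply Multiset.card_nsmul_le_sum
      intro x hx
      exact (Multiset.mem_filter.1 hx).2
    have h2 : (m.filter (s < ·)).sum ≤ m.sum := by
      have := Multiset.filter_add_not (s < ·) m
      rw [← congrArg Multiset.sum this, Multiset.sum_add]
      exact Nat.le_add_right _ _
    rw [smul_eq_mul] at h1
    by_contra hc
    push Not at hc
    have : (s + 1) * (s + 1) ≤ (m.filter (s < ·)).card * (s + 1) := Nat.mul_le_mul_right _ hc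
    omega
  have pos : ∀ m : Multiset ℕ, ∀ k (hk : k < ((m.filter (s < ·)).sort (· ≤ ·)).length),
      ((m.filter (s < ·)).sort (· ≤ ·)).getD k 0 ≠ 0 := by
    intro m k hk
    rw [List.getD_eq_getElem _ _ hk]
    have hx := List.getElem_mem hk
    rw [Multiset.mem_sort, Multiset.mem_filter] at hx
    omega
  have hlen : ∀ m m' : Multiset ℕ, m.sum ≤ i → m'.sum ≤ i →
      (∀ k, k < s + 1 → ((m.filter (s < ·)).sort (· ≤ ·)).getD k 0 =
      ((m'.filter (s < ·)).sort (· ≤ ·)).getD k 0) →
      ((m.filter (s < ·)).sort (· ≤ ·)).length ≤ ((m'.filter (s < ·)).sort (· ≤ ·)).length := by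
    intro m m' hm hm' h
    by_contra hc
    push Not at hc
    have h1 := pos m _ hc
    rw [h _ (by have := key m hm; omega)] at h1
    apply h1
    rw [List.getD_eq_default]
    exact le_rfl
  have hL : (m.filter (s < ·)).sort (· ≤ ·) = (m'.filter (s < ·)).sort (· ≤ ·) := by
    have hl := le_antisymm (hlen m m' hm hm' h) (hlen m' m hm' hm fun k hk => (h k hk).symm)
    apply List.ext_getElem hl
    intro k h1 h2
    have := h k (by have := key m hm; omega)
    rwa [List.getD_eq_getElem _ _ h1, List.getD_eq_getElem _ _ h2] at this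
  have := congrArg (fun l : List ℕ => (l : Multiset ℕ)) hL
  simpa only [Multiset.sort_eq] using this

private theorem g6_count {m m' : Multiset ℕ} {s : ℕ}
    (h : ∀ k, k < s + 1 → m.count k = m'.count k)
    (h' : m.filter (s < ·) = m'.filter (s < ·)) : m = m' := by
  ext a
  by_cases ha : s < a
  · have := congrArg (Multiset.count a) h'
    rwa [Multiset.count_filter_of_pos ha, Multiset.count_filter_of_pos ha] at this
  · exact h a (by omega)

theorem card_conjClasses_le (i : ℕ) : Nat.card (ConjClasses (Equiv.Perm (Fin i))) ≤ pc i := by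
  set s := Nat.sqrt i with hs
  have hsi : i < (s + 1) * (s + 1) := Nat.lt_succ_sqrt i
  let g : Multiset ℕ → (Fin (s+1) → Fin (i+1)) × (Fin (s+1) → Fin (i+1)) := fun m =>
    (fun a => Fin.ofNat (i+1) (m.count a.1),
      fun k => Fin.ofNat (i+1) (((m.filter (s < ·)).sort (· ≤ ·)).getD k.1 0))
  let ct : ConjClasses (Equiv.Perm (Fin i)) → Multiset ℕ :=
    Quotient.lift (fun σ : Equiv.Perm (Fin i) => σ.cycleType)
      (fun a b h => (Equiv.Perm.isConj_iff_cycleType_eq).1 h)
  have hsum : ∀ c, (ct c).sum ≤ i := by
    intro c
    induction c using Quotient.inductionOn with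
    | h σ =>
      have := Equiv.Perm.sum_cycleType σ
      change σ.cycleType.sum ≤ i
      rw [this]
      calc _ ≤ (Finset.univ : Finset (Fin i)).card := Finset.card_le_card (Finset.subset_univ _)
        _ = i := by simp
  have hzero : ∀ c, 0 ∉ ct c := by
    intro c
    induction c using Quotient.inductionOn with
    | h σ =>
      intro h
      have := Equiv.Perm.two_le_of_mem_cycleType (σ := σ) h
      omega
  have hct : Function.Injective ct := by
    intro c c' h
    induction c using Quotient.inductionOn with
    | h σ =>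
      induction c' using Quotient.inductionOn with
      | h τ =>
        exact Quotient.sound (Equiv.Perm.isConj_iff_cycleType_eq.2 h)
  have inj : Function.Injective (g ∘ ct) := by
    intro c c' h
    apply hct
    have h1 := congrArg Prod.fst h
    have h2 := congrArg Prod.snd h
    have bnd : ∀ c, ∀ a ∈ ct c, a ≤ i := by
      intro c a ha
      exact le_trans (Multiset.single_le_sum (fun _ _ => Nat.zero_le _) a ha) (hsum c)
    have cnt : ∀ c a, (ct c).count a ≤ i := by
      intro c a
      have h1 : (ct c).card • 1 ≤ (ct c).sum := by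
        apply Multiset.card_nsmul_le_sum
        intro x hx
        rcases Nat.eq_zero_or_pos x with h | h
        · rw [h] at hx; exact absurd hx (hzero c)
        · exact h
      have h2 := Multiset.count_le_card a (ct c)
      have h3 := hsum c
      simp at h1
      omega
    have gd : ∀ c k, (((ct c).filter (s < ·)).sort (· ≤ ·)).getD k 0 ≤ i := by
      intro c k
      by_cases hk : k < (((ct c).filter (s < ·)).sort (· ≤ ·)).length
      · rw [List.getD_eq_getElem _ _ hk]
        have hx := List.getElem_mem hk
        rw [Multiset.mem_sort, Multiset.mem_filter] at hx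
        exact bnd c _ hx.1
      · rw [List.getD_eq_default _ _ (by omega)]
        exact Nat.zero_le _
    apply g6_count (s := s)
    · intro k hk
      have := congrArg Fin.val (congrFun h1 ⟨k, hk⟩)
      simp only [g, Function.comp, Fin.ofNat, Fin.val_mk] at this
      rwa [Nat.mod_eq_of_lt (by have := cnt c k; omega),
        Nat.mod_eq_of_lt (by have := cnt c' k; omega)] at this
    · apply g6_sort_eq hsi (hsum c) (hsum c')
      intro k hk
      have := congrArg Fin.val (congrFun h2 ⟨k, hk⟩)
      simp only [g, Function.comp, Fin.ofNat, Fin.val_mk] at this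
      rwa [Nat.mod_eq_of_lt (by have := gd c k; omega),
        Nat.mod_eq_of_lt (by have := gd c' k; omega)] at this
  have := Nat.card_le_card_of_injective _ inj
  refine this.trans (le_of_eq ?_)
  rw [Nat.card_eq_fintype_card]
  simp only [Fintype.card_prod, Fintype.card_pi, Fintype.card_fin, Finset.prod_const,
    Finset.card_univ]
  rw [pc, two_mul, ← hs, ← pow_add]

end Crest.Agent.Thorp
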