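import Crest.Agent.Lib.Row155.Alt.Defs
set_option autoImplicit false
open Finset Filter
open scoped BigOperators Topology

namespace Crest.Agent.Thorp

namespace G7

theorem four_pow_le_choose (k : ℕ) : ∀ n : ℕ, 4 * k ≤ n → 4 ^ k ≤ n.choose k := by
  induction k with
  | zero => intro n _; simp
  | succ k ih =>
    intro n hn
    obtain ⟨m, rfl⟩ : ∃ m, n = m + 1 := ⟨n - 1, by omega⟩
    have h1 := ih m (by omega)
    have h2 := Nat.add_one_mul_choose_eq m k
    have h3 : 4 * (k + 1) * 4 ^ k ≤ (m + 1) * m.choose k := Nat.mul_le_mul hn h1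
    rw [h2] at h3
    have h4 : 4 ^ (k + 1) * (k + 1) ≤ (m + 1).choose (k + 1) * (k + 1) := by
      calc 4 ^ (k + 1) * (k + 1) = 4 * (k + 1) * 4 ^ k := by ring
        _ ≤ _ := h3
    exact Nat.le_of_mul_le_mul_right h4 (Nat.succ_pos k)

theorem le_choose_mul (n k : ℕ) (hk : 1 ≤ k) (hkn : k ≤ n) : n ≤ n.choose k * k := by
  obtain ⟨m, rfl⟩ : ∃ m, n = m + 1 := ⟨n - 1, by omega⟩
  obtain ⟨l, rfl⟩ : ∃ l, k = l + 1 := ⟨k - 1, by omega⟩
  rw [← Nat.add_one_mul_choose_eq]
  exact Nat.le_mul_of_pos_right _ (Nat.choose_pos (by omega))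

/-- numerator -/
noncomputable def num (i : ℕ) : ℝ :=
  (pc i : ℝ) * (24 * ∑ i' ∈ Finset.range (i + 1), (pc i' : ℝ)) ^ 2

theorem pc_mono : Monotone pc := by
  intro i j h
  unfold pc
  calc (i + 1) ^ (2 * (Nat.sqrt i + 1)) ≤ (j + 1) ^ (2 * (Nat.sqrt i + 1)) :=
        Nat.pow_le_pow_left (by omega) _
    _ ≤ (j + 1) ^ (2 * (Nat.sqrt j + 1)) :=
        Nat.pow_le_pow_right (by omega) (by have := Nat.sqrt_le_sqrt h; omega)

theorem num_nonneg (i : ℕ) : 0 ≤ num i := by unfold num; positivity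

theorem num_le (i : ℕ) : num i ≤ 576 * ((i : ℝ) + 1) ^ (6 * Real.sqrt i + 8) := by
  have h1 : ∑ i' ∈ Finset.range (i + 1), (pc i' : ℝ) ≤ ((i : ℝ) + 1) * pc i := by
    calc ∑ i' ∈ Finset.range (i + 1), (pc i' : ℝ) ≤ ∑ _i' ∈ Finset.range (i + 1), (pc i : ℝ) := by
          refine Finset.sum_le_sum fun j hj => ?_
          exact_mod_cast pc_mono (by have := Finset.mem_range.1 hj; omega)
      _ = _ := by rw [Finset.sum_const, Finset.card_range, nsmul_eq_mul]; push_cast; ring
  have h2 : (pc i : ℝ) ≤ ((i : ℝ) + 1) ^ (2 * (Real.sqrt i + 1)) := by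
    unfold pc
    push_cast
    rw [← Real.rpow_natCast]
    apply Real.rpow_le_rpow_of_exponent_le
    · have : (0 : ℝ) ≤ i := Nat.cast_nonneg i
      linarith
    · push_cast
      have : ((Nat.sqrt i : ℕ) : ℝ) ≤ Real.sqrt i := by
        apply Real.le_sqrt_of_sq_le
        exact_mod_cast Nat.sqrt_le' i
      linarith
  have hx : (0 : ℝ) < (i : ℝ) + 1 := by positivity
  have h0 : (0 : ℝ) ≤ ∑ i' ∈ Finset.range (i + 1), (pc i' : ℝ) := by positivity
  have hp : (0 : ℝ) ≤ pc i := by positivity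
  calc num i = 576 * (pc i * (∑ i' ∈ Finset.range (i + 1), (pc i' : ℝ)) ^ 2) := by
        unfold num; ring
    _ ≤ 576 * (pc i * (((i : ℝ) + 1) * pc i) ^ 2) := by gcongr
    _ = 576 * (((i : ℝ) + 1) ^ 2 * (pc i : ℝ) ^ 3) := by ring
    _ ≤ 576 * (((i : ℝ) + 1) ^ 2 * (((i : ℝ) + 1) ^ (2 * (Real.sqrt i + 1))) ^ 3) := by gcongr
    _ = 576 * ((i : ℝ) + 1) ^ (6 * Real.sqrt i + 8) := by
        congr 1
        rw [← Real.rpow_natCast, ← Real.rpow_natCast, ← Real.rpow_mul hx.le, ← Real.rpow_add hx]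
        congr 1
        push_cast
        ring

/-- the dominating sequence -/
noncomputable def bd (i : ℕ) : ℝ := num i / 2 ^ ((i : ℝ) / 8)

theorem isLittleO_exp :
    (fun x : ℝ => (6 * Real.sqrt x + 8) * Real.log (x + 1)) =o[atTop] (fun x : ℝ => x) := by
  have h1 : (fun x : ℝ => Real.log (x + 1)) =o[atTop] (fun x : ℝ => x ^ (1 / 4 : ℝ)) := by
    have h2 : (fun x : ℝ => Real.log (x + 1)) =o[atTop] (fun x : ℝ => (x + 1) ^ (1 / 4 : ℝ)) :=
      (isLittleO_log_rpow_atTop (r := 1 / 4) (by norm_num)).comp_tendsto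
        (tendsto_atTop_add_const_right _ 1 tendsto_id)
    refine h2.trans_isBigO ?_
    refine Asymptotics.IsBigO.of_bound 2 ?_
    filter_upwards [eventually_ge_atTop (1 : ℝ)] with x hx
    rw [Real.norm_of_nonneg (by positivity), Real.norm_of_nonneg (by positivity)]
    calc (x + 1) ^ (1 / 4 : ℝ) ≤ (2 * x) ^ (1 / 4 : ℝ) := by
          apply Real.rpow_le_rpow (by positivity) (by linarith) (by norm_num)
      _ = 2 ^ (1 / 4 : ℝ) * x ^ (1 / 4 : ℝ) := Real.mul_rpow (by norm_num) (by linarith)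
      _ ≤ 2 * x ^ (1 / 4 : ℝ) := by
          gcongr
          calc (2 : ℝ) ^ (1 / 4 : ℝ) ≤ 2 ^ (1 : ℝ) :=
                Real.rpow_le_rpow_of_exponent_le (by norm_num) (by norm_num)
            _ = 2 := Real.rpow_one 2
  have h3 : (fun x : ℝ => 6 * Real.sqrt x + 8) =O[atTop] (fun x : ℝ => x ^ (1 / 2 : ℝ)) := by
    refine Asymptotics.IsBigO.of_bound 14 ?_
    filter_upwards [eventually_ge_atTop (1 : ℝ)] with x hx
    rw [Real.norm_of_nonneg (by positivity), Real.norm_of_nonneg (by positivity),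
      ← Real.sqrt_eq_rpow]
    have : 1 ≤ Real.sqrt x := by rw [Real.one_le_sqrt]; exact hx
    linarith
  refine (h3.mul_isLittleO h1).trans_isBigO ?_
  refine Asymptotics.IsBigO.of_bound 1 ?_
  filter_upwards [eventually_ge_atTop (1 : ℝ)] with x hx
  rw [← Real.rpow_add (by linarith), Real.norm_of_nonneg (by positivity),
    Real.norm_of_nonneg (by positivity), one_mul]
  calc x ^ (1 / 2 + 1 / 4 : ℝ) ≤ x ^ (1 : ℝ) :=
        Real.rpow_le_rpow_of_exponent_le hx (by norm_num)
    _ = x := Real.rpow_one x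

theorem bd_nonneg (i : ℕ) : 0 ≤ bd i := div_nonneg (num_nonneg i) (by positivity)

theorem summable_bd : Summable bd := by
  have h1 := (isLittleO_exp.comp_tendsto tendsto_natCast_atTop_atTop).def
    (c := Real.log 2 / 16) (by positivity)
  have hs : Summable (fun i : ℕ => 576 * ((2 : ℝ) ^ (-(1 / 16) : ℝ)) ^ i) := by
    apply Summable.mul_left
    apply summable_geometric_of_lt_one (by positivity)
    apply Real.rpow_lt_one_of_one_lt_of_neg (by norm_num) (by norm_num)
  refine Summable.of_norm_bounded_eventually_nat hs ?_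
  filter_upwards [h1, eventually_ge_atTop 1] with i hi hi1
  rw [Real.norm_of_nonneg (bd_nonneg i)]
  simp only [Function.comp] at hi
  have hi0 : (0 : ℝ) ≤ (i : ℝ) := by positivity
  have hi' : (6 * Real.sqrt i + 8) * Real.log ((i : ℝ) + 1) ≤ Real.log 2 / 16 * i := by
    refine (le_abs_self _).trans ?_
    rw [Real.norm_eq_abs, Real.norm_of_nonneg hi0] at hi
    exact hi
  unfold bd
  rw [div_le_iff₀ (by positivity)]
  refine (num_le i).trans ?_
  rw [mul_assoc]
  gcongr
  rw [← Real.rpow_natCast, ← Real.rpow_mul (by norm_num), ← Real.rpow_add (by norm_num),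
    Real.rpow_def_of_pos (by positivity), Real.rpow_def_of_pos (by norm_num)]
  apply Real.exp_le_exp.2
  nlinarith

/-- terms -/
noncomputable def tm (b i : ℕ) : ℝ :=
  if i ∈ Finset.Icc 1 (8 * b) then
    num i / Real.sqrt ((4 * b).choose (min ((i + 1) / 2) b) : ℝ) else 0

theorem finalSum_eq (b : ℕ) : finalSum b = ∑' i, tm b i := by
  rw [tsum_eq_sum (s := Finset.Icc 1 (8 * b)) (fun i hi => by simp [tm, hi])]
  unfold finalSum
  refine Finset.sum_congr rfl fun i hi => ?_
  rw [tm, if_pos hi, num]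

theorem tm_nonneg (b i : ℕ) : 0 ≤ tm b i := by
  unfold tm
  split_ifs
  · exact div_nonneg (num_nonneg i) (Real.sqrt_nonneg _)
  · exact le_rfl

theorem tm_le (b i : ℕ) : tm b i ≤ bd i := by
  unfold tm
  split_ifs with h
  · rw [Finset.mem_Icc] at h
    unfold bd
    apply div_le_div_of_nonneg_left (num_nonneg i) (by positivity)
    set y := min ((i + 1) / 2) b with hy
    have hyb : 4 * y ≤ 4 * b := by omega
    have hyi : i ≤ 8 * y := by omega
    have h1 := four_pow_le_choose y (4 * b) hyb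
    apply Real.le_sqrt_of_sq_le
    calc ((2 : ℝ) ^ ((i : ℝ) / 8)) ^ 2 ≤ ((2 : ℝ) ^ (y : ℝ)) ^ 2 := by
          gcongr
          · norm_num
          · rw [div_le_iff₀ (by norm_num)]
            have : (i : ℝ) ≤ 8 * y := by exact_mod_cast hyi
            linarith
      _ = 4 ^ y := by
          rw [Real.rpow_natCast, ← pow_mul, mul_comm, pow_mul]; norm_num
      _ ≤ _ := by exact_mod_cast h1
  · exact bd_nonneg i

theorem tm_tendsto (i : ℕ) : Tendsto (fun b => tm b i) atTop (𝓝 0) := by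
  rcases Nat.eq_zero_or_pos i with rfl | hi
  · have : (fun b => tm b 0) = fun _ => 0 := by
      funext b; simp [tm]
    rw [this]; exact tendsto_const_nhds
  · have h1 : Tendsto (fun b : ℕ => num i / Real.sqrt ((4 * b : ℕ) / (((i + 1) / 2 : ℕ) : ℝ)))
        atTop (𝓝 0) := by
      apply Tendsto.const_div_atTop
      apply Real.tendsto_sqrt_atTop.comp
      apply Tendsto.atTop_div_const
      · have : 0 < (i + 1) / 2 := by omega
        exact_mod_cast this
      · exact tendsto_natCast_atTop_atTop.comp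
          (tendsto_id.const_mul_atTop' (by norm_num : 0 < 4))
    refine squeeze_zero' (Eventually.of_forall fun b => tm_nonneg b i) ?_ h1
    filter_upwards [eventually_ge_atTop (i + 1)] with b hb
    have hm : min ((i + 1) / 2) b = (i + 1) / 2 := by omega
    unfold tm
    split_ifs with h
    · rw [hm]
      have hc := le_choose_mul (4 * b) ((i + 1) / 2) (by omega) (by omega)
      have hy : (0 : ℝ) < (((i + 1) / 2 : ℕ) : ℝ) := by
        have : 0 < (i + 1) / 2 := by omega
        exact_mod_cast this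
      have hb0 : (0 : ℝ) < ((4 * b : ℕ) : ℝ) := by
        have : 0 < 4 * b := by omega
        exact_mod_cast this
      apply div_le_div_of_nonneg_left (num_nonneg i)
      · positivity
      · apply Real.sqrt_le_sqrt
        rw [div_le_iff₀ hy]
        exact_mod_cast hc
    · exact div_nonneg (num_nonneg i) (Real.sqrt_nonneg _)

end G7

open G7 in
theorem finalSum_tendsto : Tendsto finalSum atTop (𝓝 0) := by
  have h := tendsto_tsum_of_dominated_convergence (𝓕 := atTop) (f := tm) (g := fun _ => (0 : ℝ))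
    summable_bd tm_tendsto (Eventually.of_forall fun b i => by
      rw [Real.norm_of_nonneg (tm_nonneg b i)]; exact tm_le b i)
  rw [tsum_zero] at h
  refine h.congr fun b => ?_
  exact (finalSum_eq b).symm

end Crest.Agent.Thorp
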