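import Crest.Agent.Lib.Row155.Alt.G1
import Crest.Agent.Lib.Row155.Alt.G2
import Crest.Agent.Lib.Row155.Alt.G34
import Crest.Agent.Lib.Row155.Alt.G5
import Crest.Agent.Lib.Row155.Alt.G6
set_option autoImplicit false
open Finset Filter
open scoped BigOperators Topology Matrix

namespace Crest.Agent.Thorp

/-! ## Hilbert-Schmidt norm -/

theorem hs_nonneg {m : ℕ} (A : Matrix (Fin m) (Fin m) ℂ) : 0 ≤ hs A :=
  Finset.sum_nonneg fun _ _ => Finset.sum_nonneg fun _ _ => by positivity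

@[simp] theorem hs_zero {m : ℕ} : hs (0 : Matrix (Fin m) (Fin m) ℂ) = 0 := by simp [hs]

theorem hs_eq_trace {m : ℕ} (A : Matrix (Fin m) (Fin m) ℂ) :
    ((hs A : ℝ) : ℂ) = Matrix.trace (A * Aᴴ) := by
  simp only [hs, Matrix.trace, Matrix.diag, Matrix.mul_apply, Matrix.conjTranspose_apply]
  push_cast
  refine Finset.sum_congr rfl fun i _ => Finset.sum_congr rfl fun j _ => ?_
  rw [Complex.star_def, Complex.mul_conj, Complex.normSq_eq_norm_sq]
  push_cast
  rfl

theorem hs_mul_le {m : ℕ} (A B : Matrix (Fin m) (Fin m) ℂ) : hs (A * B) ≤ hs A * hs B := by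
  simp only [hs, Matrix.mul_apply]
  rw [Finset.sum_mul]
  refine Finset.sum_le_sum fun i _ => ?_
  have h2 : ∑ k, ∑ j, ‖B k j‖ ^ 2 = ∑ j, ∑ k, ‖B k j‖ ^ 2 := Finset.sum_comm
  rw [h2, Finset.mul_sum]
  refine Finset.sum_le_sum fun j _ => ?_
  have h3 : ‖∑ k, A i k * B k j‖ ≤ ∑ k, ‖A i k‖ * ‖B k j‖ :=
    (norm_sum_le _ _).trans (Finset.sum_le_sum fun k _ => (norm_mul _ _).le)
  calc ‖∑ k, A i k * B k j‖ ^ 2 ≤ (∑ k, ‖A i k‖ * ‖B k j‖) ^ 2 := by
        gcongr
    _ ≤ (∑ k, ‖A i k‖ ^ 2) * ∑ k, ‖B k j‖ ^ 2 := Finset.sum_mul_sq_le_sq_mul_sq _ _ _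

theorem hs_mul_unitary {m : ℕ} (A U : Matrix (Fin m) (Fin m) ℂ) (hU : U * Uᴴ = 1) :
    hs (A * U) = hs A := by
  have h : ((hs (A * U) : ℝ) : ℂ) = ((hs A : ℝ) : ℂ) := by
    rw [hs_eq_trace, hs_eq_trace, Matrix.conjTranspose_mul, Matrix.mul_assoc, ← Matrix.mul_assoc U,
      hU, Matrix.one_mul]
  exact_mod_cast h

/-- `sqrt hs` as a norm. -/
theorem sqrt_hs_eq {m : ℕ} (A : Matrix (Fin m) (Fin m) ℂ) :
    Real.sqrt (hs A) =
      ‖(WithLp.toLp 2 (fun p : Fin m × Fin m => A p.1 p.2) : EuclideanSpace ℂ (Fin m × Fin m))‖ := by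
  rw [EuclideanSpace.norm_eq]
  congr 1
  simp only [hs]
  rw [Fintype.sum_prod_type]

theorem sqrt_hs_sum_le {m : ℕ} {ι : Type*} (s : Finset ι) (c : ι → ℝ) (hc : ∀ i ∈ s, 0 ≤ c i)
    (A : ι → Matrix (Fin m) (Fin m) ℂ) :
    Real.sqrt (hs (∑ i ∈ s, (c i : ℂ) • A i)) ≤ ∑ i ∈ s, c i * Real.sqrt (hs (A i)) := by
  simp only [sqrt_hs_eq]
  have h : (WithLp.toLp 2 (fun p : Fin m × Fin m => (∑ i ∈ s, (c i : ℂ) • A i) p.1 p.2) :
      EuclideanSpace ℂ (Fin m × Fin m)) =
      ∑ i ∈ s, (c i : ℂ) • (WithLp.toLp 2 (fun p : Fin m × Fin m => A i p.1 p.2) :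
        EuclideanSpace ℂ (Fin m × Fin m)) := by
    ext p
    simp [Matrix.sum_apply]
  rw [h]
  refine (norm_sum_le _ _).trans (Finset.sum_le_sum fun i hi => ?_)
  rw [norm_smul, Complex.norm_real, Real.norm_of_nonneg (hc i hi)]

/-! ## Group algebra basics -/

section
variable {G : Type} [Group G] [Fintype G]

theorem ma_add (f g : G → ℝ) : ma (fun x => f x + g x) = ma f + ma g := by
  simp only [ma, ← Finset.sum_add_distrib]
  refine Finset.sum_congr rfl fun x _ => ?_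
  rw [← MonoidAlgebra.single_add]
  push_cast
  rfl

theorem ma_coeff54 (f : G → ℝ) (g : G) : (ma f).coeff g = (f g : ℂ) := by
  classical
  simp only [ma, MonoidAlgebra.coeff_sum, Finsupp.coe_finsetSum, Finset.sum_apply,
    MonoidAlgebra.coeff_single, Finsupp.single_apply]
  simp

theorem nsq_ma (f : G → ℝ) : nsq (ma f) = ∑ g, f g ^ 2 := by
  simp only [nsq, ma_coeff54, Complex.norm_real, Real.norm_eq_abs, sq_abs]

theorem ma_ext {x : MonoidAlgebra ℂ G} {f : G → ℝ} (h : ∀ g, x.coeff g = (f g : ℂ)) :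
    x = ma f := by
  ext g
  rw [h, ma_coeff54]

end

section
variable {G : Type} [Group G] [Fintype G]

theorem ma_mul_single (f : G → ℝ) (s : G) (hf : ∀ g, f (g * s⁻¹) = f g) :
    ma f * MonoidAlgebra.single s 1 = ma f := by
  ext g
  rw [MonoidAlgebra.coeff_mul_single_apply, mul_one, ma_coeff54, ma_coeff54, hf]

theorem ρ_ma (P : PW G) (v : Fin P.m) (f : G → ℝ) :
    P.ρ v (ma f) = ∑ g, (f g : ℂ) • P.ρ v (MonoidAlgebra.single g 1) := by
  rw [ma, map_sum]
  refine Finset.sum_congr rfl fun g _ => ?_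
  rw [← map_smul, MonoidAlgebra.smul_single, smul_eq_mul, mul_one]

theorem ρ_unitary (P : PW G) (v : Fin P.m) (g : G) :
    P.ρ v (MonoidAlgebra.single g 1) * (P.ρ v (MonoidAlgebra.single g 1))ᴴ = 1 := by
  rw [P.unitary, ← map_mul, MonoidAlgebra.single_mul_single, mul_inv_cancel, mul_one]
  exact map_one _

/-- Multiplying by a probability measure does not increase the Hilbert-Schmidt norm. -/
theorem hs_mul_prob (P : PW G) (v : Fin P.m) (A : Matrix (Fin (P.d v)) (Fin (P.d v)) ℂ)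
    (f : G → ℝ) (hf : ∀ g, 0 ≤ f g) (h1 : ∑ g, f g = 1) : hs (A * P.ρ v (ma f)) ≤ hs A := by
  have h : Real.sqrt (hs (A * P.ρ v (ma f))) ≤ Real.sqrt (hs A) := by
    rw [ρ_ma, Finset.mul_sum]
    have h2 : ∀ g ∈ (Finset.univ : Finset G),
        A * ((f g : ℂ) • P.ρ v (MonoidAlgebra.single g 1)) =
          (f g : ℂ) • (A * P.ρ v (MonoidAlgebra.single g 1)) := fun g _ => Matrix.mul_smul _ _ _
    rw [Finset.sum_congr rfl h2]
    refine (sqrt_hs_sum_le _ f (fun g _ => hf g) _).trans ?_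
    have h3 : ∀ g ∈ (Finset.univ : Finset G),
        f g * Real.sqrt (hs (A * P.ρ v (MonoidAlgebra.single g 1))) = f g * Real.sqrt (hs A) :=
      fun g _ => by rw [hs_mul_unitary _ _ (ρ_unitary P v g)]
    rw [Finset.sum_congr rfl h3, ← Finset.sum_mul, h1, one_mul]
  exact (Real.sqrt_le_sqrt_iff (hs_nonneg _)).1 h

theorem ρ_surj (P : PW G) (v : Fin P.m) (A : Matrix (Fin (P.d v)) (Fin (P.d v)) ℂ) :
    ∃ x, P.ρ v x = A := ⟨P.inc v A, P.ρ_inc_same v A⟩

/-- A nonzero central idempotent of `ℂ[G]` in a block is the identity of the block. -/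
theorem ρ_central_idem (P : PW G) (v : Fin P.m) (u : MonoidAlgebra ℂ G)
    (hc : ∀ x, x * u = u * x) (hi : u * u = u) (hne : P.ρ v u ≠ 0) : P.ρ v u = 1 := by
  have hcen : P.ρ v u ∈ Set.center (Matrix (Fin (P.d v)) (Fin (P.d v)) ℂ) := by
    rw [Semigroup.mem_center_iff]
    intro A
    obtain ⟨x, rfl⟩ := ρ_surj P v A
    rw [← map_mul, ← map_mul, hc]
  rw [Matrix.center_eq_range] at hcen
  obtain ⟨z, hz⟩ := hcen
  have hidem : P.ρ v u * P.ρ v u = P.ρ v u := by rw [← map_mul, hi]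
  rw [← hz] at hidem hne ⊢
  rw [← map_mul] at hidem
  have hd : 0 < P.d v := P.dpos v
  haveI : Nonempty (Fin (P.d v)) := ⟨⟨0, hd⟩⟩
  have hzz : z * z = z := Matrix.scalar_inj.1 hidem
  have hz0 : z ≠ 0 := by
    rintro rfl
    exact hne (map_zero _)
  have hz1 : z = 1 := mul_left_cancel₀ hz0 (by rw [hzz, mul_one])
  rw [hz1, map_one]

/-- The uniform average over the group. -/
noncomputable def uni (G : Type) [Group G] [Fintype G] : MonoidAlgebra ℂ G :=
  ma (fun _ : G => (1 : ℝ) / Fintype.card G)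

theorem single_mul_uni (g : G) : MonoidAlgebra.single g (1 : ℂ) * uni G = uni G := by
  ext h
  rw [MonoidAlgebra.coeff_single_mul_apply, uni, ma_coeff54, ma_coeff54, one_mul]

theorem uni_mul_single (g : G) : uni G * MonoidAlgebra.single g (1 : ℂ) = uni G := by
  ext h
  rw [MonoidAlgebra.coeff_mul_single_apply, uni, ma_coeff54, ma_coeff54, mul_one]

theorem eq_sum_single (x : MonoidAlgebra ℂ G) : x = ∑ g, x.coeff g • MonoidAlgebra.single g 1 := by
  classical
  ext h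
  rw [MonoidAlgebra.coeff_sum, Finsupp.coe_finsetSum, Finset.sum_apply,
    Finset.sum_eq_single h]
  · simp
  · intro g _ hg
    simp [Finsupp.single_apply, hg]
  · simp

theorem mul_uni (x : MonoidAlgebra ℂ G) : x * uni G = (∑ g, x.coeff g) • uni G := by
  conv_lhs => rw [eq_sum_single x]
  rw [Finset.sum_mul, Finset.sum_smul]
  refine Finset.sum_congr rfl fun g _ => ?_
  rw [smul_mul_assoc, single_mul_uni]

theorem uni_mul (x : MonoidAlgebra ℂ G) : uni G * x = (∑ g, x.coeff g) • uni G := by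
  conv_lhs => rw [eq_sum_single x]
  rw [Finset.mul_sum, Finset.sum_smul]
  refine Finset.sum_congr rfl fun g _ => ?_
  rw [mul_smul_comm, uni_mul_single]

theorem uni_mul_uni : uni G * uni G = uni G := by
  rw [mul_uni]
  have : ∑ g : G, (uni G).coeff g = 1 := by
    simp only [uni, ma_coeff54, Finset.sum_const, Finset.card_univ, nsmul_eq_mul]
    push_cast
    field_simp
  rw [this, one_smul]

theorem ρ_of_uni_ne (P : PW G) (v : Fin P.m) (hne : P.ρ v (uni G) ≠ 0) (x : MonoidAlgebra ℂ G)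
    (hx : ∑ g, x.coeff g = 0) : P.ρ v x = 0 := by
  have h1 : P.ρ v (uni G) = 1 :=
    ρ_central_idem P v (uni G) (fun x => by rw [mul_uni, uni_mul]) uni_mul_uni hne
  calc P.ρ v x = P.ρ v x * P.ρ v (uni G) := by rw [h1, mul_one]
    _ = 0 := by rw [← map_mul, mul_uni, hx, zero_smul, map_zero]

end

theorem eSym_univ {X : Type} [Fintype X] [DecidableEq X] :
    eSym (Finset.univ : Finset X) = uni (Equiv.Perm X) := by
  ext h
  simp only [eSym, uni, ma_coeff54, MonoidAlgebra.coeff_smul, MonoidAlgebra.coeff_sum,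
    MonoidAlgebra.coeff_single, Finsupp.smul_apply, Finsupp.coe_finsetSum, Finset.sum_apply,
    Finsupp.single_apply, Finset.mem_univ, not_true_eq_false, false_imp_iff, implies_true,
    Finset.filter_true, smul_eq_mul, Fintype.card_perm, Finset.card_univ]
  simp

theorem eSym_empty54 {X : Type} [Fintype X] [DecidableEq X] :
    eSym (∅ : Finset X) = 1 := by
  have h1 : (Finset.univ.filter (fun h : Equiv.Perm X => ∀ x, x ∉ (∅ : Finset X) → h x = x)) =
      {1} := by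
    ext h
    simp [Equiv.Perm.ext_iff]
  rw [eSym, h1]
  simp [MonoidAlgebra.one_def]

theorem lev_le_card {X : Type} [Fintype X] [DecidableEq X] (P : PW (Equiv.Perm X))
    (v : Fin P.m) : P.lev v ≤ Fintype.card X := by
  refine Nat.sInf_le ⟨∅, by simp [Finset.card_univ], ?_⟩
  rw [eSym_empty54, map_one]
  haveI : Nonempty (Fin (P.d v)) := ⟨⟨0, P.dpos v⟩⟩
  exact one_ne_zero

theorem lev_pos {X : Type} [Fintype X] [DecidableEq X] (P : PW (Equiv.Perm X))
    (v : Fin P.m) (h : P.ρ v (uni (Equiv.Perm X)) = 0) : 1 ≤ P.lev v := by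
  rw [Nat.one_le_iff_ne_zero]
  intro h0
  rw [PW.lev, Nat.sInf_eq_zero] at h0
  rcases h0 with ⟨S, hS, hne⟩ | h0
  · have hS' : S = Finset.univ := by
      rwa [Finset.card_eq_zero, Finset.compl_eq_empty_iff] at hS
    rw [hS', eSym_univ] at hne
    exact hne h
  · have hmem : Fintype.card X ∈ {m : ℕ | ∃ S : Finset X, Sᶜ.card = m ∧ P.ρ v (eSym S) ≠ 0} := by
      refine ⟨∅, by simp [Finset.card_univ], ?_⟩
      rw [eSym_empty54, map_one]
      haveI : Nonempty (Fin (P.d v)) := ⟨⟨0, P.dpos v⟩⟩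
      exact one_ne_zero
    rw [h0] at hmem
    exact hmem.elim

theorem irrep_bound {X : Type} [Fintype X] [DecidableEq X] {b : ℕ} (hb : 0 < b)
    (β : Fin 8 × Fin b ≃ X) (P : PW (Equiv.Perm X)) (Q : PW (Equiv.Perm (Fin b)))
    (ν : Equiv.Perm X → ℝ) (hν : ∀ g, 0 ≤ ν g) (hmass : ∑ g, ν g ≤ 1)
    (hcos : ∀ (i : Fin 8) (g : Equiv.Perm X),
        ∑ h : Equiv.Perm (Fin b), ν (g * Equiv.Perm.viaEmbeddingHom (blk β i) h) ≤
          3 * (b.factorial : ℝ) / ((8 * b).factorial : ℝ))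
    (v : Fin P.m) (T : Finset (Fin Q.m))
    (hT : ∀ κ, κ ∉ T → ∀ i : Fin 8, P.ρ v (emb (blk β i) (Q.e κ)) = 0) :
    hs (P.ρ v (ma ν)) ^ 4 * (P.d v : ℝ) ^ 3 ≤ (24 * (T.card : ℝ)) ^ 4 :=
  irrep_bound_aux (fun P x => PW.plancherel P x) hb β P Q ν hν hmass hcos v T hT

/-! ## Convolution -/

section
variable {G : Type} [Group G] [Fintype G]

theorem conv_nonneg' (f g : G → ℝ) (hf : ∀ x, 0 ≤ f x) (hg : ∀ x, 0 ≤ g x) (x : G) :
    0 ≤ conv f g x := Finset.sum_nonneg fun _ _ => mul_nonneg (hf _) (hg _)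

theorem conv_mono' {f f' g g' : G → ℝ} (hf' : ∀ x, 0 ≤ f' x) (hg : ∀ x, 0 ≤ g x)
    (h1 : ∀ x, f x ≤ f' x) (h2 : ∀ x, g x ≤ g' x) (x : G) :
    conv f g x ≤ conv f' g' x :=
  Finset.sum_le_sum fun _ _ => mul_le_mul (h1 _) (h2 _) (hg _) (hf' _)

theorem conv_sum' (f g : G → ℝ) : ∑ x, conv f g x = (∑ x, f x) * ∑ x, g x := by
  simp only [conv]
  rw [Finset.sum_comm, Finset.sum_mul]
  refine Finset.sum_congr rfl fun h _ => ?_
  rw [← Finset.mul_sum]
  congr 1
  exact Equiv.sum_comp (Equiv.mulLeft h⁻¹) g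

theorem ma_sub (f g : G → ℝ) : ma (fun x => f x - g x) = ma f - ma g := by
  simp only [ma, ← Finset.sum_sub_distrib]
  refine Finset.sum_congr rfl fun x _ => ?_
  ext h
  simp

theorem ma_const (c : ℝ) :
    ma (fun _ : G => c / Fintype.card G) = (c : ℂ) • uni G := by
  ext h
  simp only [uni, ma_coeff54, MonoidAlgebra.coeff_smul, Finsupp.smul_apply, smul_eq_mul]
  push_cast
  ring

end

theorem card_types_le {b : ℕ} (Q : PW (Equiv.Perm (Fin b))) (L : ℕ) :
    ((Finset.univ.filter (fun κ => Q.lev κ ≤ L)).card : ℝ) ≤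
      ∑ i' ∈ Finset.range (L + 1), (pc i' : ℝ) := by
  have h1 : (Finset.univ.filter (fun κ => Q.lev κ ≤ L)).card =
      ∑ i' ∈ Finset.range (L + 1), (Finset.univ.filter (fun κ => Q.lev κ = i')).card := by
    rw [Finset.card_eq_sum_card_fiberwise (f := Q.lev) (t := Finset.range (L + 1))]
    · refine Finset.sum_congr rfl fun i hi => ?_
      congr 1
      ext κ
      simp only [Finset.mem_filter, Finset.mem_univ, true_and, Finset.mem_range] at hi ⊢
      constructor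
      · rintro ⟨_, h⟩; exact h
      · intro h; exact ⟨by omega, h⟩
    · intro κ hκ
      simp only [Finset.coe_filter, Finset.mem_univ, true_and, Set.mem_ofPred_eq] at hκ
      simp only [Finset.coe_range, Set.mem_Iio]
      omega
  rw [h1]
  push_cast
  refine Finset.sum_le_sum fun i _ => ?_
  exact_mod_cast (card_lev Q i).trans (card_conjClasses_le i)

theorem choose_mono_small {b y : ℕ} (hy : y ≤ b) (hb : 0 < b) :
    (4 * b).choose y ≤ (4 * b).choose (y + 1) := by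
  have h := Nat.choose_succ_right_eq (4 * b) y
  have h1 : (4 * b).choose y * (y + 1) ≤ (4 * b).choose (y + 1) * (y + 1) := by
    rw [h]
    exact Nat.mul_le_mul_left _ (by omega)
  exact Nat.le_of_mul_le_mul_right h1 (by omega)

theorem block_le {X : Type} [Fintype X] [DecidableEq X] {b : ℕ} (hb : 0 < b)
    (β : Fin 8 × Fin b ≃ X) {J : Type} [Fintype J] [DecidableEq J] (e : J × Bool ≃ X)
    (ν : Equiv.Perm X → ℝ) (hν : ∀ g, 0 ≤ ν g) (hmass : ∑ g, ν g ≤ 1)
    (hcos : ∀ (i : Fin 8) (g : Equiv.Perm X),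
        ∑ h : Equiv.Perm (Fin b), ν (g * Equiv.Perm.viaEmbeddingHom (blk β i) h) ≤
          3 * (b.factorial : ℝ) / ((8 * b).factorial : ℝ))
    (μ : Equiv.Perm X → ℝ) (hμ : ∀ g, 0 ≤ μ g) (hμ1 : ∑ g, μ g = 1)
    (hμe : ∀ g j, μ (g * Equiv.swap (e (j, false)) (e (j, true))) = μ g)
    (P : PW (Equiv.Perm X)) (Q : PW (Equiv.Perm (Fin b))) (v : Fin P.m) (hv : 1 ≤ P.lev v) :
    (P.d v : ℝ) * hs (P.ρ v (ma ν) * P.ρ v (ma ν) * P.ρ v (ma μ)) ≤
      (24 * ∑ i' ∈ Finset.range (P.lev v + 1), (pc i' : ℝ)) ^ 2 /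
        Real.sqrt ((4 * b).choose (min ((P.lev v + 1) / 2) b) : ℝ) := by
  by_cases hne : P.ρ v (ma μ) = 0
  · rw [hne, mul_zero, hs_zero, mul_zero]
    positivity
  set y := min ((P.lev v + 1) / 2) b with hy
  have hJ : Fintype.card J = 4 * b := by
    have h1 := Fintype.card_congr e
    have h2 := Fintype.card_congr β
    simp only [Fintype.card_prod, Fintype.card_bool, Fintype.card_fin] at h1 h2
    omega
  have hdim : (4 * b).choose y ≤ P.d v := by
    obtain ⟨z, hz, hle⟩ := dim_ge e P v (ma μ) (fun j => by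
      apply ma_mul_single
      intro g
      rw [Equiv.swap_inv, hμe]) hne y (by omega)
    rw [hJ] at hle
    rcases hz with rfl | rfl
    · exact hle
    · exact (choose_mono_small (by omega) hb).trans hle
  set S := ∑ i' ∈ Finset.range (P.lev v + 1), (pc i' : ℝ) with hS
  have hS0 : 0 ≤ S := Finset.sum_nonneg fun _ _ => by positivity
  set T := Finset.univ.filter (fun κ => Q.lev κ ≤ P.lev v) with hT
  have hTS : (T.card : ℝ) ≤ S := card_types_le Q (P.lev v)
  have hirr := irrep_bound hb β P Q ν hν hmass hcos v T (by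
    intro κ hκ i
    by_contra hcon
    exact hκ (by simpa [hT] using lev_type (blk β i) P Q v κ hcon))
  set H := hs (P.ρ v (ma ν)) with hH
  have hH0 : 0 ≤ H := hs_nonneg _
  have hd : (1 : ℝ) ≤ P.d v := by exact_mod_cast P.dpos v
  have hle : hs (P.ρ v (ma ν) * P.ρ v (ma ν) * P.ρ v (ma μ)) ≤ H ^ 2 := by
    refine (hs_mul_prob P v _ μ hμ hμ1).trans ((hs_mul_le _ _).trans ?_)
    rw [sq]
  refine (mul_le_mul_of_nonneg_left hle (by positivity)).trans ?_
  have hc : (0 : ℝ) < ((4 * b).choose y : ℝ) := by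
    exact_mod_cast Nat.choose_pos (by omega)
  rw [le_div_iff₀ (Real.sqrt_pos.2 hc)]
  have hsq : ((P.d v : ℝ) * H ^ 2 * Real.sqrt ((4 * b).choose y : ℝ)) ^ 2 ≤ ((24 * S) ^ 2) ^ 2 := by
    rw [mul_pow, Real.sq_sqrt hc.le]
    calc ((P.d v : ℝ) * H ^ 2) ^ 2 * ((4 * b).choose y : ℝ)
        ≤ ((P.d v : ℝ) * H ^ 2) ^ 2 * (P.d v : ℝ) := by
          gcongr
          
      _ = H ^ 4 * (P.d v : ℝ) ^ 3 := by ring
      _ ≤ (24 * (T.card : ℝ)) ^ 4 := hirr
      _ ≤ (24 * S) ^ 4 := by gcongr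
      _ = ((24 * S) ^ 2) ^ 2 := by ring
  exact (pow_le_pow_iff_left₀ (by positivity) (by positivity) two_ne_zero).1 hsq

theorem fourier_bound {X : Type} [Fintype X] [DecidableEq X] {b : ℕ} (hb : 0 < b)
    (β : Fin 8 × Fin b ≃ X) {J : Type} [Fintype J] [DecidableEq J] (e : J × Bool ≃ X)
    (ν : Equiv.Perm X → ℝ) (hν : ∀ g, 0 ≤ ν g) (hmass : ∑ g, ν g ≤ 1)
    (hcos : ∀ (i : Fin 8) (g : Equiv.Perm X),
        ∑ h : Equiv.Perm (Fin b), ν (g * Equiv.Perm.viaEmbeddingHom (blk β i) h) ≤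
          3 * (b.factorial : ℝ) / ((8 * b).factorial : ℝ))
    (μ : Equiv.Perm X → ℝ) (hμ : ∀ g, 0 ≤ μ g) (hμ1 : ∑ g, μ g = 1)
    (hμe : ∀ g j, μ (g * Equiv.swap (e (j, false)) (e (j, true))) = μ g) :
    (Fintype.card (Equiv.Perm X) : ℝ) *
      ∑ g, (conv ν (conv ν μ) g - (∑ g, ν g) ^ 2 / (Fintype.card (Equiv.Perm X) : ℝ)) ^ 2 ≤
      finalSum b := by
  obtain ⟨P⟩ := exists_PW (Equiv.Perm X)
  obtain ⟨Q⟩ := exists_PW (Equiv.Perm (Fin b))
  set f : Equiv.Perm X → ℝ := fun g =>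
    conv ν (conv ν μ) g - (∑ g, ν g) ^ 2 / (Fintype.card (Equiv.Perm X) : ℝ) with hf
  have hpl := PW.plancherel P (ma f)
  rw [nsq_ma] at hpl
  rw [hpl]
  have hmaf : ma f = ma ν * (ma ν * ma μ) - (((∑ g, ν g) ^ 2 : ℝ) : ℂ) • uni (Equiv.Perm X) := by
    rw [hf, ma_sub, ma_conv, ma_conv, ma_const]
  have hterm : ∀ v, (P.d v : ℝ) * hs (P.ρ v (ma f)) ≤
      if P.lev v = 0 then 0 else
      (24 * ∑ i' ∈ Finset.range (P.lev v + 1), (pc i' : ℝ)) ^ 2 /
        Real.sqrt ((4 * b).choose (min ((P.lev v + 1) / 2) b) : ℝ) := by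
    intro v
    by_cases hu : P.ρ v (uni (Equiv.Perm X)) = 0
    · have hl := lev_pos P v hu
      rw [if_neg (by omega)]
      have : P.ρ v (ma f) = P.ρ v (ma ν) * P.ρ v (ma ν) * P.ρ v (ma μ) := by
        rw [hmaf, map_sub, map_smul, hu, smul_zero, sub_zero, map_mul, map_mul, mul_assoc]
      rw [this]
      exact block_le hb β e ν hν hmass hcos μ hμ hμ1 hμe P Q v hl
    · have h0 : P.ρ v (ma f) = 0 := by
        refine ρ_of_uni_ne P v hu _ ?_
        simp only [ma_coeff54]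
        rw [← Complex.ofReal_sum]
        have : ∑ g, f g = 0 := by
          rw [hf, Finset.sum_sub_distrib, conv_sum', conv_sum', hμ1, Finset.sum_const,
            Finset.card_univ, nsmul_eq_mul]
          field_simp
          ring
        rw [this]; simp
      rw [h0, hs_zero, mul_zero]
      split_ifs
      · exact le_rfl
      · positivity
  refine (Finset.sum_le_sum fun v _ => hterm v).trans ?_
  have hcardX : Fintype.card X = 8 * b := by
    have h2 := Fintype.card_congr β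
    simp only [Fintype.card_prod, Fintype.card_fin] at h2
    omega
  have hmaps : ∀ v ∈ (Finset.univ : Finset (Fin P.m)), P.lev v ∈ Finset.range (8 * b + 1) := by
    intro v _
    rw [Finset.mem_range]
    have := lev_le_card P v
    omega
  rw [← Finset.sum_fiberwise_of_maps_to hmaps]
  have hsub : ∑ i ∈ Finset.range (8 * b + 1), ∑ v with P.lev v = i,
      (if P.lev v = 0 then (0 : ℝ) else
        (24 * ∑ i' ∈ Finset.range (P.lev v + 1), (pc i' : ℝ)) ^ 2 /
          Real.sqrt ((4 * b).choose (min ((P.lev v + 1) / 2) b) : ℝ)) ≤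
      ∑ i ∈ Finset.range (8 * b + 1), if i = 0 then (0 : ℝ) else
        (pc i : ℝ) * (24 * ∑ i' ∈ Finset.range (i + 1), (pc i' : ℝ)) ^ 2 /
          Real.sqrt ((4 * b).choose (min ((i + 1) / 2) b) : ℝ) := by
    refine Finset.sum_le_sum fun i _ => ?_
    have h1 : ∀ v ∈ Finset.univ.filter (fun v => P.lev v = i),
        (if P.lev v = 0 then (0 : ℝ) else
        (24 * ∑ i' ∈ Finset.range (P.lev v + 1), (pc i' : ℝ)) ^ 2 /
          Real.sqrt ((4 * b).choose (min ((P.lev v + 1) / 2) b) : ℝ)) =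
        (if i = 0 then (0 : ℝ) else
        (24 * ∑ i' ∈ Finset.range (i + 1), (pc i' : ℝ)) ^ 2 /
          Real.sqrt ((4 * b).choose (min ((i + 1) / 2) b) : ℝ)) := by
      intro v hv
      rw [(Finset.mem_filter.1 hv).2]
    rw [Finset.sum_congr rfl h1, Finset.sum_const, nsmul_eq_mul]
    by_cases hi : i = 0
    · simp [hi]
    · rw [if_neg hi, if_neg hi, mul_div_assoc]
      refine mul_le_mul_of_nonneg_right ?_ (by positivity)
      exact_mod_cast (card_lev P i).trans (card_conjClasses_le i)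
  refine hsub.trans (le_of_eq ?_)
  rw [finalSum]
  symm
  refine Finset.sum_subset_zero_on_sdiff ?_ ?_ ?_
  · intro i hi
    simp only [Finset.mem_Icc, Finset.mem_range] at hi ⊢
    omega
  · intro i hi
    simp only [Finset.mem_sdiff, Finset.mem_Icc, Finset.mem_range] at hi
    rw [if_pos (by omega)]
  · intro i hi
    rw [Finset.mem_Icc] at hi
    rw [if_neg (by omega)]

end Crest.Agent.Thorp
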