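import Crest.Agent.Lib.Row155.Alt.Defs
import Crest.Prelude.Def_Shuffle
/-!
Row 155 (Thorp shuffle), second proof (helper54): SPECIFICATION of all chunks (statements only,
`sorry`). Never import this file in final work.
-/
set_option autoImplicit false
open Finset Filter
open scoped BigOperators Topology Matrix

namespace Crest.Agent.Thorp.SpecB
open Crest.Agent.Thorp

/-! ## From helper44's spec (unchanged) -/

theorem bridge (d K : ℕ) :
    Crest.ProbabilityR.Shuffle.tvFromUniform (2 ^ d) (K * (d + 1)) = tv (passLaw (d + 1) K) := by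
  sorry

theorem evolve_supp (D : ℕ) (R : Finset (V D)) (c : Coins D) (φ : V D → ℝ)
    (hφ : ∀ p ∈ R, φ p = 0) (y : V D) (hy : (pass D c).symm y ∈ R) : evolve D R c φ y = 0 := by
  sorry

theorem evolve_sum (D : ℕ) (R : Finset (V D)) (c : Coins D) (φ : V D → ℝ)
    (hφ : ∀ p ∈ R, φ p = 0) : ∑ y, evolve D R c φ y = ∑ y, φ y := by
  sorry

theorem evolve_BS (D k : ℕ) (hk : k ≤ D) (R : Finset (V D)) (φ : V D → ℝ)
    (hφ : ∀ p ∈ R, φ p = 0) :
    𝔼 c : Coins D, BS D k (evolve D R c φ) ≤ ∑ y, φ y ^ 2 + (∑ y, φ y) ^ 2 / 2 ^ (D - k) := by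
  sorry

theorem evolve_energy (s0 D : ℕ) (hD : s0 ≤ D) (ρ : ℝ) (hρ0 : 0 ≤ ρ) (hρ : ρ ≤ 1)
    (R : Finset (V D)) (hR : Reg s0 ρ D R) (φ : V D → ℝ) (hφ : ∀ p ∈ R, φ p = 0) :
    𝔼 c : Coins D, ∑ y, evolve D R c φ y ^ 2 ≤
      (∑ y, φ y) ^ 2 / 2 ^ D + ((1 + ρ) / 2) ^ (D - s0) * ∑ y, φ y ^ 2 +
        ∑ k ∈ Finset.Ico s0 D, ((1 + ρ) / 2) ^ (D - 1 - k) / 2 ^ (k + 1) * BS D k φ := by
  sorry

/-! ## B1 residual kernel and sequential bound -/

theorem evolve_inv (D : ℕ) (R : Finset (V D)) (φ : V D → ℝ) (hφ : ∀ p ∈ R, φ p = 0)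
    (H : Coins D → ℝ) (hH : ∀ c c', Agree D R c c' → H c = H c') (y : V D) :
    𝔼 c, H c * φ ((pass D c).symm y) = 𝔼 c, H c * evolve D R c φ y := by
  sorry

theorem evolves_inv (D K : ℕ) (R : Finset (V D)) (φ : V D → ℝ) (hφ : ∀ p ∈ R, φ p = 0)
    (H : (Fin K → Coins D) → ℝ) (hH : ∀ a b, Agrees D R K a b → H a = H b) (y : V D) :
    𝔼 a, H a * φ ((passes D K a).symm y) = 𝔼 a, H a * evolves D R K a φ y := by
  sorry

theorem seq_bound (D K k : ℕ) (x : Fin k ↪ V D) (θ : Fin k → ℝ) (hθ : ∀ j, 0 ≤ θ j)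
    (y : Fin k → V D) :
    (𝔼 a : Fin K → Coins D, open Classical in
      if (∀ j p, evolves D (front x j) K a (Pi.single (x j) 1) p ≤ θ j) ∧
        (∀ j, passes D K a (x j) = y j) then (1 : ℝ) else 0) ≤ ∏ j, θ j := by
  sorry

/-! ## B2 energy over `2 T` passes -/

theorem evolves_energy (s0 D T : ℕ) (hD : s0 ≤ D) (R : Finset (V D)) (φ : V D → ℝ)
    (hφ : ∀ p ∈ R, φ p = 0) (hsum : ∑ p, φ p = 0) :
    (𝔼 a : Fin (2 * T) → Coins D, open Classical in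
      if RegAll s0 (15 / 16) D R (2 * T) a then ∑ y, evolves D R (2 * T) a φ y ^ 2 else 0) ≤
      ((31 / 15) * (31 / 32 : ℝ) ^ (D - s0)) ^ T * ∑ y, φ y ^ 2 := by
  sorry

/-- the normalised indicator of the unrevealed positions evolves into itself -/
theorem evolves_const (D K : ℕ) (R : Finset (V D)) (a : Fin K → Coins D) (s : ℝ) (y : V D) :
    evolves D R K a (fun p => if p ∈ R then 0 else s) y = if y ∈ moved D K a R then 0 else s := by
  sorry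

/-! ## B3 density -/

theorem reg_prob78 (s0 D m : ℕ) (hm : 8 * m ≤ 7 * 2 ^ D) :
    (𝔼 x : Fin m ↪ V D, open Classical in if Reg s0 (15 / 16) D (rangeF x) then (0 : ℝ) else 1) ≤
      2 ^ (D + 1) * (49 / 50 : ℝ) ^ (2 ^ s0) := by
  sorry

/-! ## B4 main probabilistic statement -/

theorem prob_main (ε : ℝ) (hε : 0 < ε) :
    ∀ᶠ d : ℕ in atTop, ∃ (β : Fin 8 × Fin (2 ^ d) ≃ V (d + 3)) (ν : Equiv.Perm (V (d + 3)) → ℝ),
      (∀ g, 0 ≤ ν g) ∧ (∀ g, ν g ≤ passLaw (d + 3) 798 g) ∧ 1 - ε ≤ ∑ g, ν g ∧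
      ∀ (i : Fin 8) (g : Equiv.Perm (V (d + 3))),
        ∑ h : Equiv.Perm (Fin (2 ^ d)), ν (g * Equiv.Perm.viaEmbeddingHom (blk β i) h) ≤
          3 * ((2 ^ d).factorial : ℝ) / ((8 * 2 ^ d).factorial : ℝ) := by
  sorry

/-! ## B5 first layer, composition -/

theorem first_layer (D : ℕ) : ∃ e : V D × Bool ≃ V (D + 1), ∀ (K : ℕ) (g : Equiv.Perm (V (D + 1)))
    (v : V D), passLaw (D + 1) (K + 1) (g * Equiv.swap (e (v, false)) (e (v, true))) =
      passLaw (D + 1) (K + 1) g := by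
  sorry

theorem passLaw_add (D K K' : ℕ) :
    passLaw D (K + K') = conv (passLaw D K') (passLaw D K) := by
  sorry

theorem passLaw_nonneg (D K : ℕ) (g : Equiv.Perm (V D)) : 0 ≤ passLaw D K g := by
  sorry

theorem passLaw_sum (D K : ℕ) : ∑ g, passLaw D K g = 1 := by
  sorry

/-! ## G1 Wedderburn data -/

theorem exists_PW (G : Type) [Group G] [Finite G] : Nonempty (PW G) := by
  sorry

theorem PW.plancherel {G : Type} [Group G] [Fintype G] (P : PW G) (x : MonoidAlgebra ℂ G) :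
    (Fintype.card G : ℝ) * nsq x = ∑ i, (P.d i : ℝ) * hs (P.ρ i x) := by
  sorry

theorem ma_conv {G : Type} [Group G] [Fintype G] (f g : G → ℝ) : ma (conv f g) = ma f * ma g := by
  sorry

/-! ## G2 irreducible bound -/

/-- Young's inequality on cosets. -/
theorem coset_young {X : Type} [Fintype X] [DecidableEq X] {b : ℕ} (β : Fin b ↪ X)
    (ν : Equiv.Perm X → ℝ) (hν : ∀ g, 0 ≤ ν g) (hmass : ∑ g, ν g ≤ 1) (C : ℝ)
    (hcos : ∀ g, ∑ h : Equiv.Perm (Fin b), ν (g * Equiv.Perm.viaEmbeddingHom β h) ≤ C)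
    (p : MonoidAlgebra ℂ (Equiv.Perm (Fin b))) :
    nsq (ma ν * emb β p) ≤ C * nsq p := by
  sorry

theorem irrep_bound {X : Type} [Fintype X] [DecidableEq X] {b : ℕ} (hb : 0 < b)
    (β : Fin 8 × Fin b ≃ X) (P : PW (Equiv.Perm X)) (Q : PW (Equiv.Perm (Fin b)))
    (ν : Equiv.Perm X → ℝ) (hν : ∀ g, 0 ≤ ν g) (hmass : ∑ g, ν g ≤ 1)
    (hcos : ∀ (i : Fin 8) (g : Equiv.Perm X),
        ∑ h : Equiv.Perm (Fin b), ν (g * Equiv.Perm.viaEmbeddingHom (blk β i) h) ≤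
          3 * (b.factorial : ℝ) / ((8 * b).factorial : ℝ))
    (v : Fin P.m) (T : Finset (Fin Q.m))
    (hT : ∀ κ, κ ∉ T → ∀ i : Fin 8, P.ρ v (emb (blk β i) (Q.e κ)) = 0) :
    hs (P.ρ v (ma ν)) ^ 4 * (P.d v : ℝ) ^ 3 ≤ (24 * (T.card : ℝ)) ^ 4 := by
  sorry

/-! ## G3 levels of types -/

theorem lev_type {X : Type} [Fintype X] [DecidableEq X] {b : ℕ} (β : Fin b ↪ X)
    (P : PW (Equiv.Perm X)) (Q : PW (Equiv.Perm (Fin b))) (v : Fin P.m) (κ : Fin Q.m)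
    (h : P.ρ v (emb β (Q.e κ)) ≠ 0) : Q.lev κ ≤ P.lev v := by
  sorry

/-! ## G4 number of irreducibles of a given level -/

theorem card_lev {X : Type} [Fintype X] [DecidableEq X] (P : PW (Equiv.Perm X)) (i : ℕ) :
    (Finset.univ.filter (fun v => P.lev v = i)).card ≤
      Nat.card (ConjClasses (Equiv.Perm (Fin i))) := by
  sorry

/-! ## G5 dimension bound -/

theorem dim_ge {X : Type} [Fintype X] [DecidableEq X] {J : Type} [Fintype J] [DecidableEq J]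
    (e : J × Bool ≃ X) (P : PW (Equiv.Perm X)) (v : Fin P.m) (x : MonoidAlgebra ℂ (Equiv.Perm X))
    (hx : ∀ j, x * MonoidAlgebra.single (Equiv.swap (e (j, false)) (e (j, true))) 1 = x)
    (hne : P.ρ v x ≠ 0) (y : ℕ) (hy : 2 * y ≤ P.lev v + 1) :
    ∃ z, (z = y ∨ z = y + 1) ∧ (Fintype.card J).choose z ≤ P.d v := by
  sorry

/-! ## G6 number of conjugacy classes -/

theorem card_conjClasses_le (i : ℕ) : Nat.card (ConjClasses (Equiv.Perm (Fin i))) ≤ pc i := by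
  sorry

/-! ## G7 final sum -/

theorem finalSum_tendsto : Tendsto finalSum atTop (𝓝 0) := by
  sorry

/-! ## G8 L² bound -/

theorem fourier_bound {X : Type} [Fintype X] [DecidableEq X] {b : ℕ} (hb : 0 < b)
    (β : Fin 8 × Fin b ≃ X) {J : Type} [Fintype J] [DecidableEq J] (e : J × Bool ≃ X)
    (ν : Equiv.Perm X → ℝ) (hν : ∀ g, 0 ≤ ν g) (hmass : ∑ g, ν g ≤ 1)
    (hcos : ∀ (i : Fin 8) (g : Equiv.Perm X),
        ∑ h : Equiv.Perm (Fin b), ν (g * Equiv.Perm.viaEmbeddingHom (blk β i) h) ≤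
          3 * (b.factorial : ℝ) / ((8 * b).factorial : ℝ))
    (μ : Equiv.Perm X → ℝ) (hμ : ∀ g, 0 ≤ μ g) (hμ1 : ∑ g, μ g = 1)
    (hμe : ∀ g j, μ (g * Equiv.swap (e (j, false)) (e (j, true))) = μ g) :
    (Fintype.card (Equiv.Perm X) : ℝ) *
      ∑ g, (conv ν (conv ν μ) g - (∑ g, ν g) ^ 2 / (Fintype.card (Equiv.Perm X) : ℝ)) ^ 2 ≤
      finalSum b := by
  sorry

/-! ## Z final -/

theorem tv_tendsto : Tendsto (fun d : ℕ => tv (passLaw (d + 3) 1600)) atTop (𝓝 0) := by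
  sorry

theorem final :
    Tendsto (fun d : ℕ => Crest.ProbabilityR.Shuffle.tvFromUniform (2 ^ d) (1600 * (d + 1)))
      atTop (𝓝 0) := by
  rw [← tendsto_add_atTop_iff_nat 2]
  refine tv_tendsto.congr (fun d => ?_)
  exact (bridge (d + 2) 1600).symm

end Crest.Agent.Thorp.SpecB
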