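import Crest.Agent.Lib.Row155.Alt.G8
import Crest.Agent.Lib.Row155.Alt.G7
import Crest.Agent.Lib.Row155.Alt.B5
import Crest.Agent.Lib.Row155.Bridge
set_option autoImplicit false
open Finset Filter
open scoped BigOperators Topology Matrix

namespace Crest.Agent.Thorp

/-- Total variation bound. -/
theorem tv_bound {G : Type} [Group G] [Fintype G] (p μ ν : G → ℝ) (ε : ℝ)
    (hν0 : ∀ g, 0 ≤ ν g) (hνp : ∀ g, ν g ≤ p g)
    (hp1 : ∑ g, p g = 1) (hμ : ∀ g, 0 ≤ μ g) (hμ1 : ∑ g, μ g = 1) (hε : 1 - ε ≤ ∑ g, ν g)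
    (B : ℝ)
    (hB : (Fintype.card G : ℝ) *
      ∑ g, (conv ν (conv ν μ) g - (∑ g, ν g) ^ 2 / (Fintype.card G : ℝ)) ^ 2 ≤ B) :
    tv (conv p (conv p μ)) ≤ 2 * ε + (1 / 2) * Real.sqrt B := by
  set m := ∑ g, ν g with hm
  have hm1 : m ≤ 1 := by rw [hm, ← hp1]; exact Finset.sum_le_sum fun g _ => hνp g
  have hm0 : 0 ≤ m := Finset.sum_nonneg fun g _ => hν0 g
  have hp0 : ∀ g, 0 ≤ p g := fun g => (hν0 g).trans (hνp g)
  have hN : (0 : ℝ) < Fintype.card G := by exact_mod_cast Fintype.card_pos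
  have h1 : ∑ g, |conv p (conv p μ) g - conv ν (conv ν μ) g| = 1 - m ^ 2 := by
    have hpos : ∀ g, |conv p (conv p μ) g - conv ν (conv ν μ) g| =
        conv p (conv p μ) g - conv ν (conv ν μ) g := by
      intro g
      apply abs_of_nonneg
      rw [sub_nonneg]
      exact conv_mono' hp0 (conv_nonneg' _ _ hν0 hμ) hνp
        (conv_mono' hp0 hμ hνp (fun _ => le_rfl)) g
    rw [Finset.sum_congr rfl fun g _ => hpos g, Finset.sum_sub_distrib, conv_sum', conv_sum',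
      conv_sum', conv_sum', hp1, hμ1, ← hm]
    ring
  have h2 : ∑ g, |conv ν (conv ν μ) g - m ^ 2 / (Fintype.card G : ℝ)| ≤ Real.sqrt B := by
    apply Real.le_sqrt_of_sq_le
    refine le_trans ?_ hB
    have := sq_sum_le_card_mul_sum_sq (s := (Finset.univ : Finset G))
      (f := fun g => |conv ν (conv ν μ) g - m ^ 2 / (Fintype.card G : ℝ)|)
    simpa [sq_abs] using this
  have h3 : ∑ g : G, |m ^ 2 / (Fintype.card G : ℝ) - 1 / (Fintype.card G : ℝ)| = 1 - m ^ 2 := by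
    rw [Finset.sum_const, Finset.card_univ, nsmul_eq_mul, ← sub_div, abs_div, abs_of_pos hN,
      mul_div_cancel₀ _ hN.ne', abs_of_nonpos (by nlinarith)]
    ring
  have h4 : ∑ g, |conv p (conv p μ) g - 1 / (Fintype.card G : ℝ)| ≤
      (1 - m ^ 2) + Real.sqrt B + (1 - m ^ 2) := by
    calc ∑ g, |conv p (conv p μ) g - 1 / (Fintype.card G : ℝ)|
        ≤ ∑ g, (|conv p (conv p μ) g - conv ν (conv ν μ) g| +
            |conv ν (conv ν μ) g - m ^ 2 / (Fintype.card G : ℝ)| +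
            |m ^ 2 / (Fintype.card G : ℝ) - 1 / (Fintype.card G : ℝ)|) := by
          refine Finset.sum_le_sum fun g _ => ?_
          refine (abs_sub_le _ (m ^ 2 / (Fintype.card G : ℝ)) _).trans ?_
          gcongr
          exact abs_sub_le _ _ _
      _ ≤ _ := by
          rw [Finset.sum_add_distrib, Finset.sum_add_distrib, h1, h3]
          gcongr
  have h5 : 1 - m ^ 2 ≤ 2 * ε := by nlinarith
  rw [tv]
  linarith

theorem passLaw_1600 (D : ℕ) :
    passLaw D 1600 = conv (passLaw D 798) (conv (passLaw D 798) (passLaw D 4)) := by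
  rw [← passLaw_add, ← passLaw_add]

/-- Final assembly, with the probabilistic statement as a hypothesis. -/
theorem tv_tendsto_of (prob_main : ∀ ε : ℝ, 0 < ε →
    ∀ᶠ d : ℕ in atTop, ∃ (β : Fin 8 × Fin (2 ^ d) ≃ V (d + 3)) (ν : Equiv.Perm (V (d + 3)) → ℝ),
      (∀ g, 0 ≤ ν g) ∧ (∀ g, ν g ≤ passLaw (d + 3) 798 g) ∧ 1 - ε ≤ ∑ g, ν g ∧
      ∀ (i : Fin 8) (g : Equiv.Perm (V (d + 3))),
        ∑ h : Equiv.Perm (Fin (2 ^ d)), ν (g * Equiv.Perm.viaEmbeddingHom (blk β i) h) ≤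
          3 * ((2 ^ d).factorial : ℝ) / ((8 * 2 ^ d).factorial : ℝ)) :
    Tendsto (fun d : ℕ => tv (passLaw (d + 3) 1600)) atTop (𝓝 0) := by
  rw [Metric.tendsto_atTop]
  intro ε hε
  have hb : Tendsto (fun d : ℕ => finalSum (2 ^ d)) atTop (𝓝 0) :=
    finalSum_tendsto.comp (tendsto_pow_atTop_atTop_of_one_lt (by norm_num))
  have hs : Tendsto (fun d : ℕ => (1 / 2) * Real.sqrt (finalSum (2 ^ d))) atTop (𝓝 0) := by
    have := (Real.continuous_sqrt.tendsto 0).comp hb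
    rw [Real.sqrt_zero] at this
    have h2 := this.const_mul (1 / 2)
    rw [mul_zero] at h2
    exact h2
  have h1 := (hs.eventually (gt_mem_nhds (show (0 : ℝ) < ε / 2 by positivity)))
  have h2 := prob_main (ε / 8) (by positivity)
  obtain ⟨N, hN⟩ := eventually_atTop.1 (h1.and h2)
  refine ⟨N, fun d hd => ?_⟩
  obtain ⟨hlt, β, ν, hν0, hνp, hmass, hcos⟩ := hN d hd
  obtain ⟨e, he⟩ := first_layer (d + 2)
  have hm1 : ∑ g, ν g ≤ 1 := by
    rw [← passLaw_sum (d + 3) 798]; exact Finset.sum_le_sum fun g _ => hνp g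
  have hF := fourier_bound (b := 2 ^ d) (by positivity) β e ν hν0 hm1 hcos (passLaw (d + 3) 4)
    (passLaw_nonneg _ _) (passLaw_sum _ _) (fun g v => he 3 g v)
  have hT := tv_bound (passLaw (d + 3) 798) (passLaw (d + 3) 4) ν (ε / 8) hν0 hνp
    (passLaw_sum _ _) (passLaw_nonneg _ _) (passLaw_sum _ _) hmass _ hF
  rw [passLaw_1600, Real.dist_eq, sub_zero, abs_of_nonneg]
  · linarith
  · exact mul_nonneg (by norm_num) (Finset.sum_nonneg fun _ _ => abs_nonneg _)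

theorem final_of (prob_main : ∀ ε : ℝ, 0 < ε →
    ∀ᶠ d : ℕ in atTop, ∃ (β : Fin 8 × Fin (2 ^ d) ≃ V (d + 3)) (ν : Equiv.Perm (V (d + 3)) → ℝ),
      (∀ g, 0 ≤ ν g) ∧ (∀ g, ν g ≤ passLaw (d + 3) 798 g) ∧ 1 - ε ≤ ∑ g, ν g ∧
      ∀ (i : Fin 8) (g : Equiv.Perm (V (d + 3))),
        ∑ h : Equiv.Perm (Fin (2 ^ d)), ν (g * Equiv.Perm.viaEmbeddingHom (blk β i) h) ≤
          3 * ((2 ^ d).factorial : ℝ) / ((8 * 2 ^ d).factorial : ℝ)) :
    Tendsto (fun d : ℕ => Crest.ProbabilityR.Shuffle.tvFromUniform (2 ^ d) (1600 * (d + 1)))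
      atTop (𝓝 0) := by
  rw [← tendsto_add_atTop_iff_nat 2]
  refine (tv_tendsto_of prob_main).congr (fun d => ?_)
  exact (bridge (d + 2) 1600).symm

end Crest.Agent.Thorp
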